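import Crest.Agent.N222.D.Iso
import Crest.Agent.R247.Ray3_97
import Crest.Agent.R247.Rdg4_879

/-!
# Row 222, part D: affine functions on a complete Riemannian manifold (helper55)
-/

set_option autoImplicit false
set_option linter.unusedSectionVars false

open Set Filter Topology Bundle
open scoped ContDiff Manifold
open Crest.GeometryTopology.CoordMetric Crest.GeometryTopology.ChartCurvature
  Crest.GeometryTopology.PointedLimit
open Crest.Agent.R202.Tens Crest.Agent.R247.Bo84 Crest.Agent.R273.RMan_798 Crest.Agent.R247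
open Crest.Agent.R247.Ray97

noncomputable section

namespace Crest.Agent.N222.D

theorem eq_of_deriv_zero {u : ℝ → ℝ} {a b : ℝ} (hc : ContinuousOn u (Icc a b))
    (hd : ∀ t ∈ Ioo a b, HasDerivAt u 0 t) {t : ℝ} (ht : t ∈ Icc a b) : u t = u a := by
  rcases ht.1.eq_or_lt with h | h
  · rw [h]
  obtain ⟨c, -, hc⟩ := exists_hasDerivAt_eq_slope u (fun _ => 0) h
    (hc.mono (Icc_subset_Icc_right ht.2)) fun s hs => hd s ⟨hs.1, hs.2.trans_le ht.2⟩
  have : t - a ≠ 0 := by linarith [sub_pos.2 h] |> fun (h : 0 < t - a) => h.ne'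
  field_simp at hc
  linarith

section Top

variable {n : ℕ} {M : Type} [TopologicalSpace M] [ChartedSpace (EE n) M] [IsManifold (𝓡 n) ∞ M]
  [RiemannianBundle (fun x : M => TangentSpace (𝓡 n) x)]
  [IsContMDiffRiemannianBundle (𝓡 n) ∞ (EE n) (fun x : M => TangentSpace (𝓡 n) x)]

theorem Sm.two {f : M → ℝ} (hf : Sm n M f) (p : M) : ContMDiffAt (𝓡 n) 𝓘(ℝ, ℝ) 2 f p :=
  (hf p).of_le two_le_infty

theorem Sm.md {f : M → ℝ} (hf : Sm n M f) (p : M) : MDifferentiableAt (𝓡 n) 𝓘(ℝ, ℝ) f p :=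
  (hf p).mdifferentiableAt (by simp)

variable (n M) in
/-- affine functions -/
def Aff : Submodule ℝ (M → ℝ) where
  carrier := {f | Sm n M f ∧ ∀ p v w, mHess n f p v w = 0}
  add_mem' := fun {f h} hf hh => ⟨hf.1.add hh.1, fun p v w => by
    have := mHess_add (hf.1.two p) (hh.1.two p) v w
    rw [hf.2, hh.2, add_zero] at this
    exact this⟩
  zero_mem' := ⟨contMDiff_const, fun p v w => by
    have := mHess_const_mul (f := fun _ : M => (0 : ℝ)) (p := p) 0 contMDiffAt_const v w
    simp only [zero_mul] at this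
    exact this⟩
  smul_mem' := fun c {f} hf => ⟨contMDiff_const.mul hf.1, fun p v w => by
    have := mHess_const_mul c (hf.1.two p) v w
    rw [hf.2, mul_zero] at this
    exact this⟩

theorem aff_of_sq {f : M → ℝ} (hf : Sm n M f) (h : ∀ p, mHessSq n f p = 0) : f ∈ Aff n M :=
  ⟨hf, fun p v w => by
    have := mHess_sq_le (hf.two p) v w
    rw [h, zero_mul, zero_mul] at this
    exact pow_eq_zero_iff two_ne_zero |>.1 (le_antisymm this (sq_nonneg _))⟩

theorem hessE_zero {f : M → ℝ} (hf : f ∈ Aff n M) (x₀ : M) {y : EE n}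
    (hy : y ∈ (chartAt (EE n) x₀).target) : hessE (chartMetric n M x₀) (inCh n x₀ f) y = 0 := by
  ext1 X
  refine bil_injective (isRiemannianOn_chartMetric x₀) hy fun Z => ?_
  rw [bil_hessE (isRiemannianOn_chartMetric x₀) hy
    (contDiffAt_inCh two_le_infty hy (hf.1.two _)), ← mHess_chart hy (hf.1.two _), hf.2]
  simp

theorem LocIso.aff {F : M → M} (h : LocIso n F) {f : M → ℝ} (hf : f ∈ Aff n M) :
    (fun x => f (F x)) ∈ Aff n M := by
  refine aff_of_sq (hf.1.comp h.sm) fun p => ?_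
  rw [h.mHessSq hf.1, R247.Bo84.mHessSq, hessSq, hessE_zero hf _ (centre_mem _)]
  simp

/-- the gradient at a point -/
def gradL (p : M) : Aff n M →ₗ[ℝ] TangentSpace (𝓡 n) p where
  toFun f := mgrad n f.1 p
  map_add' f h := mgrad_add (f.2.1.md p) (h.2.1.md p)
  map_smul' c f := mgrad_const_mul c (f.2.1.md p)

theorem flat_of_surj (h : ∀ p : M, Function.Surjective (gradL (n := n) p)) : Flat n M := by
  intro p X Y Z
  obtain ⟨f, hf⟩ := h p (dSy p (chartCentre n M p) Z)
  have h1 : grad (chartMetric n M p) (inCh n p f.1) (chartCentre n M p) = Z :=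
    dSy_injective (centre_mem p) hf
  have hg := isRiemannianOn_chartMetric (n := n) p
  have h2 := ricci_identity hg (centre_mem p) (contDiffAt_grad hg (centre_mem p) (m := 2)
    (contDiffAt_centre three_le_infty ((f.2.1 p).of_le three_le_infty)) (by norm_num)
    two_le_infty) X Y
  have h3 : cov (chartMetric n M p) (grad (chartMetric n M p) (inCh n p f.1)) =ᶠ[𝓝 (chartCentre n M p)]
      fun _ => 0 := by
    filter_upwards [hg.isOpen.mem_nhds (centre_mem p)] with y hy using hessE_zero f.2 p hy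
  rw [h3.fderiv_eq, h3.self_of_nhds, h1] at h2
  rw [← h2]
  simp

end Top

variable {n : ℕ} {M : Type} [MetricSpace M] [CompleteSpace M] [ConnectedSpace M]
  [ChartedSpace (EE n) M] [IsManifold (𝓡 n) ∞ M]
  [RiemannianBundle (fun x : M => TangentSpace (𝓡 n) x)]
  [IsContMDiffRiemannianBundle (𝓡 n) ∞ (EE n) (fun x : M => TangentSpace (𝓡 n) x)]
  [IsRiemannianManifold (𝓡 n) M]

theorem const_of_mgrad {w : M → ℝ} (hw : Sm n M w) (h : ∀ p, mgrad n w p = 0) (x y : M) :
    w y = w x := by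
  have := HR216.properSpace_of_riemannian n M
  rcases eq_or_ne x y with rfl | hxy
  · rfl
  obtain ⟨γ, h0, h1, hγ⟩ := HR216.exists_geodesic_of_riemannian n x y
  have hr : IsRay x γ (dist x y) 1 :=
    ⟨dist_pos.2 hxy, one_pos, h0, fun s hs t ht => by rw [hγ s hs t ht, mul_comm]⟩
  have := eq_of_deriv_zero (u := fun t => w (γ t))
    (hw.continuous.comp_continuousOn hr.continuousOn) (fun t ht => by
      have := hr.hasDerivAt_comp (Rdg879.exM_block n M) ht (hw.md _)
      rwa [mGam_eq_inner, h, inner_zero_left, mul_zero] at this) (right_mem_Icc.2 zero_le_one)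
  simpa only [h0, h1] using this

theorem norm_const {f : M → ℝ} (hf : f ∈ Aff n M) (p q : M) :
    ‖mgrad n f p‖ = ‖mgrad n f q‖ := by
  have h1 := const_of_mgrad (w := mGam n f f)
    (fun p => contMDiffAt_mGam (hf.1 p) (hf.1 p) le_rfl le_rfl) (fun p => by
      refine ext_inner_right ℝ fun v => ?_
      rw [inner_mgrad, mfderiv_mGam (hf.1.two p) (hf.1.two p), hf.2, inner_zero_left]
      simp) q p
  rw [mGam_self, mGam_self] at h1
  exact (pow_left_inj₀ (norm_nonneg _) (norm_nonneg _) two_ne_zero).1 h1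

theorem ker_eq (p q : M) : LinearMap.ker (gradL (n := n) p) = LinearMap.ker (gradL (n := n) q) := by
  ext f
  rw [LinearMap.mem_ker, LinearMap.mem_ker, ← norm_eq_zero, ← norm_eq_zero (a := gradL q f)]
  change ‖mgrad n f.1 p‖ = 0 ↔ ‖mgrad n f.1 q‖ = 0
  rw [norm_const f.2 p q]

instance finTan (p : M) : FiniteDimensional ℝ (TangentSpace (𝓡 n) p) :=
  inferInstanceAs (FiniteDimensional ℝ (EE n))

theorem surj_of_surj {p : M} (q : M) (h : Function.Surjective (gradL (n := n) p)) :
    Function.Surjective (gradL (n := n) q) := by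
  rw [← LinearMap.range_eq_top] at h ⊢
  refine Submodule.eq_top_of_finrank_eq ?_
  rw [← (gradL q).quotKerEquivRange.finrank_eq,
    (Submodule.quotEquivOfEq _ _ (ker_eq q p)).finrank_eq, (gradL p).quotKerEquivRange.finrank_eq,
    h, finrank_top]
  rfl

/-- flat, or a common kernel at every point -/
theorem flat_or_ker : Flat n M ∨ ∀ p : M, ∃ v : TangentSpace (𝓡 n) p, v ≠ 0 ∧
    ∀ f ∈ Aff n M, mfderiv (𝓡 n) 𝓘(ℝ, ℝ) f p v = 0 := by
  by_cases h : ∀ p : M, Function.Surjective (gradL (n := n) p)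
  · exact Or.inl (flat_of_surj h)
  refine Or.inr fun p => ?_
  have h1 : LinearMap.range (gradL (n := n) p) ≠ ⊤ := fun h1 =>
    h fun q => surj_of_surj q (LinearMap.range_eq_top.1 h1)
  rw [Ne, ← Submodule.orthogonal_eq_bot_iff] at h1
  obtain ⟨v, hv, hv0⟩ := Submodule.exists_mem_ne_zero_of_ne_bot h1
  refine ⟨v, hv0, fun f hf => ?_⟩
  rw [← inner_mgrad]
  exact hv _ ⟨⟨f, hf⟩, rfl⟩

/-- a finite generating family -/
theorem exists_span (p : M) : ∃ (k : ℕ) (v : Fin k → M → ℝ), (∀ i, v i ∈ Aff n M) ∧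
    ∀ w ∈ Aff n M, ∃ c : Fin k → ℝ, (∀ i, |c i| ≤ ‖mgrad n w p‖) ∧
      ∀ x y, w x - w y = ∑ i, c i * (v i x - v i y) := by
  let e := stdOrthonormalBasis ℝ (LinearMap.range (gradL (n := n) p))
  choose v hv using fun i => (e i).2
  refine ⟨_, fun i => (v i).1, fun i => (v i).2, fun w hw => ?_⟩
  let u : LinearMap.range (gradL (n := n) p) := ⟨gradL p ⟨w, hw⟩, ⟨_, rfl⟩⟩
  refine ⟨fun i => inner ℝ (e i) u, fun i => ?_, fun x y => ?_⟩
  · have := abs_real_inner_le_norm (e i) u
    rwa [e.orthonormal.1 i, one_mul] at this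
  · let w' : Aff n M := ⟨w, hw⟩ - ∑ i, (inner ℝ (e i) u : ℝ) • v i
    have h1 : w' ∈ LinearMap.ker (gradL (n := n) p) := by
      have h2 := congrArg Subtype.val (e.sum_repr' u)
      rw [LinearMap.mem_ker, map_sub, map_sum, sub_eq_zero]
      simp only [map_smul, hv]
      simpa using h2.symm
    have h3 := const_of_mgrad w'.2.1 (fun q => by rw [ker_eq p q] at h1; exact h1) y x
    simp only [w', Submodule.coe_sub, Submodule.coe_sum, Submodule.coe_smul, Pi.sub_apply,
      Finset.sum_apply, Pi.smul_apply, smul_eq_mul] at h3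
    simp only [mul_sub, Finset.sum_sub_distrib]
    linarith

/-- affine functions are affine along minimisers -/
theorem aff_ray {f : M → ℝ} (hf : f ∈ Aff n M) {x : M} {γ : ℝ → M} {b : ℝ}
    (hr : IsRay x γ 1 b) {s t : ℝ} (hs : s ∈ Icc 0 b) (ht : t ∈ Icc 0 b) :
    f (γ t) - f (γ s) = (t - s) / b * (f (γ b) - f x) := by
  have := HR216.properSpace_of_riemannian n M
  have hm := Rdg879.exM_block n M
  set q : ℝ → ℝ := fun t => t⁻¹ * mGam n f (Crest.GeometryTopology.MTW.halfDistSq x) (γ t) with hq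
  have h1 : ∀ t ∈ Ioo 0 b, HasDerivAt q 0 t := fun t ht => by
    have := hr.hasDerivAt_mGam hm ht (hf.1.two _)
    rwa [hf.2, mul_zero] at this
  have h2 : ∀ s ∈ Ioo 0 b, ∀ t ∈ Ioo 0 b, s ≤ t → q t = q s := fun s hs t ht hst =>
    eq_of_deriv_zero (b := t) (fun r hr => (h1 r ⟨hs.1.trans_le hr.1, hr.2.trans_lt ht.2⟩).continuousAt.continuousWithinAt)
      (fun r hr => h1 r ⟨hs.1.trans hr.1, hr.2.trans ht.2⟩) (right_mem_Icc.2 hst)
  have hb := hr.bpos
  have h3 : ∀ t ∈ Ioo 0 b, q t = q (b / 2) := fun t ht => by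
    have hb2 : b / 2 ∈ Ioo 0 b := ⟨by linarith, by linarith⟩
    rcases le_total t (b / 2) with h | h
    · exact (h2 t ht _ hb2 h).symm
    · exact h2 _ hb2 t ht h
  have h4 : ∀ t ∈ Icc 0 b, f (γ t) - q (b / 2) * t = f (γ 0) - q (b / 2) * 0 := fun t ht =>
    eq_of_deriv_zero (u := fun t => f (γ t) - q (b / 2) * t)
      ((hf.1.continuous.comp_continuousOn hr.continuousOn).sub (by fun_prop)) (fun r hr' => by
        have := (hr.hasDerivAt_comp hm hr' (hf.1.md _)).sub
          ((hasDerivAt_id r).const_mul (q (b / 2)))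
        refine this.congr_deriv ?_
        rw [← h3 r hr', mul_one, sub_self]) ht
  have e1 := h4 s hs
  have e2 := h4 t ht
  have e3 := h4 b (right_mem_Icc.2 hb.le)
  rw [hr.zero] at e1 e2 e3
  have e4 : f (γ b) - f x = q (b / 2) * b := by linarith
  rw [e4]
  field_simp
  linarith

end Crest.Agent.N222.D
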