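import Crest.Agent.R247.Bo8_84
import Crest.Agent.R273.RMan3_798
import Crest.Prelude.Def_Submanifold

/-!
# Row 222, part D (rigidity): definitions and frozen statements (helper55)

Framework: `RAtl n N` (charts and Gram matrices, R273), `R.M` the Mathlib Riemannian manifold,
calculus `mGam`, `mLap`, `mHess` of R247.  A drift is a finite sum `∑ φ_k dψ_k`.

* `NoPosStmt`, `EssStmt` : what parts A, B, C deliver;
* `PertStmt` (D1), `SplitStmt`, `FrameStmt` (D2) : the leaves of part D.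
-/

set_option autoImplicit false

open Set Filter Topology Bundle
open scoped ContDiff Manifold
open Crest.GeometryTopology.CoordMetric Crest.GeometryTopology.ChartCurvature
  Crest.GeometryTopology.PointedLimit
open Crest.Agent.R202.Tens Crest.Agent.R247.Bo84 Crest.Agent.R273.RMan_798

noncomputable section

namespace Crest.Agent.N222.D

/-- scalar curvature of a coordinate metric -/
def scal {n : ℕ} (g : MetricField n) (x : EE n) : ℝ :=
  ∑ i, ∑ j, inverseField g x i j * ricci g x i j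

/-- `E = R - 2 div b - |b|²` for `b = ∑ φ_k dψ_k`, in coordinates -/
def cE {n : ℕ} {ι : Type} [Fintype ι] (g : MetricField n) (φ ψ : ι → EE n → ℝ) (x : EE n) : ℝ :=
  scal g x - 2 * ∑ k, (gam g (φ k) (ψ k) x + φ k x * laplaceBeltrami g (ψ k) x)
    - ∑ k, ∑ l, φ k x * φ l x * gam g (ψ k) (ψ l) x

section Mfd

variable (n : ℕ) (M : Type) [TopologicalSpace M] [ChartedSpace (EE n) M]

/-- smooth real functions -/
abbrev Sm (f : M → ℝ) : Prop := ContMDiff (𝓡 n) 𝓘(ℝ, ℝ) ∞ f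

/-- An equivariant smooth partition of unity `P_g = P (g⁻¹ • ·)` with compact supports whose
differential has rank `< n` everywhere. -/
def Deg (Γ : Type) [Group Γ] [MulAction Γ M] : Prop :=
  ∃ P : M → ℝ, Sm n M P ∧ HasCompactSupport P ∧ (∀ x, 0 ≤ P x) ∧
    (∀ x, ∑ᶠ g : Γ, P (g • x) = 1) ∧
    ∀ x, ∃ v : TangentSpace (𝓡 n) x, v ≠ 0 ∧
      ∀ g : Γ, mfderiv (𝓡 n) 𝓘(ℝ, ℝ) (fun y => P (g • y)) x v = 0

variable [RiemannianBundle (fun x : M => TangentSpace (𝓡 n) x)]

/-- scalar curvature -/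
def mScal (p : M) : ℝ := scal (chartMetric n M p) (chartCentre n M p)

/-- `E = R - 2 div b - |b|²` for `b = ∑ φ_k dψ_k` -/
def mE {ι : Type} [Fintype ι] (φ ψ : ι → M → ℝ) (p : M) : ℝ :=
  mScal n M p - 2 * ∑ k, (mGam n (φ k) (ψ k) p + φ k p * mLap n (ψ k) p)
    - ∑ k, ∑ l, φ k p * φ l p * mGam n (ψ k) (ψ l) p

/-- the curvature tensor vanishes -/
def Flat : Prop :=
  ∀ (p : M) (X Y Z : EE n), curv (Gam (chartMetric n M p)) (chartCentre n M p) X Y Z = 0

/-- there is a drift with `E > 0` everywhere -/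
def Pos : Prop := ∃ (ι : Type) (_ : Fintype ι) (φ ψ : ι → M → ℝ),
  (∀ k, Sm n M (φ k)) ∧ (∀ k, Sm n M (ψ k)) ∧ ∀ p, 0 < mE n M φ ψ p

end Mfd

/-- all higher homotopy groups vanish -/
def Asph (N : Type) [TopologicalSpace N] : Prop :=
  ∀ k : ℕ, 2 ≤ k → ∀ x : N, Subsingleton (HomotopyGroup (Fin k) N x)

/-- A connected étale space over `N` with a proper cocompact group of deck transformations
(e.g. the universal cover with `π₁` or a finite index subgroup). -/
structure Gal (N : Type) [TopologicalSpace N] where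
  M : Type
  [top : TopologicalSpace M]
  [t2 : T2Space M]
  [conn : ConnectedSpace M]
  Γ : Type
  [grp : Group Γ]
  [act : MulAction Γ M]
  cont : ∀ g : Γ, Continuous fun x : M => g • x
  pr : M → N
  loc : IsLocalHomeomorph pr
  surj : Function.Surjective pr
  deck : ∀ (g : Γ) (x : M), pr (g • x) = pr x
  cocpt : ∃ K : Set M, IsCompact K ∧ ∀ x : M, ∃ g : Γ, g • x ∈ K
  fin : ∀ L : Set M, IsCompact L → {g : Γ | ∃ x ∈ L, g • x ∈ L}.Finite

attribute [instance] Gal.top Gal.t2 Gal.conn Gal.grp Gal.act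

/-- local sheets of `pr` -/
def Gal.Sheet {N : Type} [TopologicalSpace N] (C : Gal N) : Type :=
  {e : OpenPartialHomeomorph C.M N // C.pr = e}

theorem Gal.Sheet.app {N : Type} [TopologicalSpace N] {C : Gal N} (e : C.Sheet) (x : C.M) :
    e.1 x = C.pr x := (congrFun e.2 x).symm

theorem lift_tr {n : ℕ} {N : Type} [TopologicalSpace N] (R : RAtl n N) (C : Gal N)
    (i j : R.ι) (e e' : C.Sheet) {y : EE n} (hy : y ∈ (e.1.trans (R.c i)).target) :
    (e'.1.trans (R.c j)) ((e.1.trans (R.c i)).symm y) = R.c j ((R.c i).symm y) := by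
  have h1 : (R.c i).symm y ∈ e.1.target := hy.2
  change R.c j (e'.1 (e.1.symm ((R.c i).symm y))) = _
  rw [e'.app, ← e.app, e.1.right_inv h1]

theorem lift_fderiv {n : ℕ} {N : Type} [TopologicalSpace N] (R : RAtl n N) (C : Gal N)
    (i j : R.ι) (e e' : C.Sheet) {y : EE n} (hy : y ∈ (e.1.trans (R.c i)).target) :
    fderiv ℝ (fun z => (e'.1.trans (R.c j)) ((e.1.trans (R.c i)).symm z)) y =
      fderiv ℝ (fun z => R.c j ((R.c i).symm z)) y := by
  refine Filter.EventuallyEq.fderiv_eq ?_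
  filter_upwards [(e.1.trans (R.c i)).open_target.mem_nhds hy] with z hz
  exact lift_tr R C i j e e' hz

/-- the atlas lifted to the covering space -/
def lift {n : ℕ} {N : Type} [TopologicalSpace N] (R : RAtl n N) (C : Gal N) : RAtl n C.M where
  ι := R.ι × C.Sheet
  c k := k.2.1.trans (R.c k.1)
  cover x := by
    obtain ⟨e, hx, he⟩ := C.loc x
    obtain ⟨i, hi⟩ := R.cover (C.pr x)
    exact ⟨(i, ⟨e, he⟩), hx, by rw [he] at hi; exact hi⟩
  smt k l := by
    refine ((R.smt k.1 l.1).mono ?_).congr fun y hy => lift_tr R C k.1 l.1 k.2 l.2 hy.1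
    intro y hy
    refine ⟨hy.1.1, ?_⟩
    have h1 : (R.c k.1).symm y ∈ k.2.1.target := hy.1.2
    have h2 : l.2.1 (k.2.1.symm ((R.c k.1).symm y)) ∈ (R.c l.1).source := hy.2.2
    rwa [l.2.app, ← k.2.app, k.2.1.right_inv h1] at h2
  G k := R.G k.1
  Gsm k a b := (R.Gsm k.1 a b).mono fun _ hy => hy.1
  Gpd k y hy := R.Gpd k.1 y hy.1
  Gtr k l x hx v w := by
    have hk : k.2.1 x ∈ (R.c k.1).source := hx.1.2
    have hl : l.2.1 x ∈ (R.c l.1).source := hx.2.2
    have e1 : l.2.1 x = k.2.1 x := by rw [l.2.app, k.2.app]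
    rw [lift_fderiv R C k.1 l.1 k.2 l.2 ((k.2.1.trans (R.c k.1)).map_source hx.1)]
    have := R.Gtr k.1 l.1 (k.2.1 x) ⟨hk, e1 ▸ hl⟩ v w
    change _ = ∑ a, ∑ b, R.G l.1 (R.c l.1 (l.2.1 x)) a b * _ * _
    rw [e1]
    exact this

instance liftAct {n : ℕ} {N : Type} [TopologicalSpace N] (R : RAtl n N) (C : Gal N) :
    MulAction C.Γ (lift R C).M := inferInstanceAs (MulAction C.Γ C.M)

/-! ### input from parts A, B, C -/

/-- no drift with `E > 0` on a closed aspherical manifold -/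
def NoPosStmt : Prop := ∀ (n : ℕ) (N : Type) [TopologicalSpace N] [T2Space N] [CompactSpace N]
  [ConnectedSpace N] (R : RAtl n N), Asph N → ¬ Pos n R.M

/-- a closed aspherical manifold is essential -/
def EssStmt : Prop := ∀ (n : ℕ) (N : Type) [TopologicalSpace N] [T2Space N] [CompactSpace N]
  [ConnectedSpace N] (R : RAtl n N), Asph N → ∃ C : Gal N, ¬ Deg n (lift R C).M C.Γ

/-! ### leaves of part D -/

/-- (D1) `R ≥ 0` and a negative Ricci direction give a state with `E > 0` -/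
def PertStmt : Prop := ∀ (n : ℕ) (N : Type) [TopologicalSpace N] [T2Space N] [CompactSpace N]
  [ConnectedSpace N] (R : RAtl n N), (∀ p, 0 ≤ mScal n R.M p) → ¬ HasRicciLowerBound n R.M 0 →
  ∃ R' : RAtl n N, Pos n R'.M

/-- (D2a) Cheeger-Gromoll: the Busemann function of a line is affine -/
def SplitStmt : Prop := ∀ (n : ℕ) (M : Type) [MetricSpace M] [CompleteSpace M] [ConnectedSpace M]
  [ChartedSpace (EE n) M] [IsManifold (𝓡 n) ∞ M]
  [RiemannianBundle (fun x : M => TangentSpace (𝓡 n) x)]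
  [IsContMDiffRiemannianBundle (𝓡 n) ∞ (EE n) (fun x : M => TangentSpace (𝓡 n) x)]
  [IsRiemannianManifold (𝓡 n) M], HasRicciLowerBound n M 0 →
  ∀ γ : ℝ → M, (∀ s t, dist (γ s) (γ t) = |s - t|) →
  ∃ b : M → ℝ, Sm n M b ∧ (∀ p, mHessSq n b p = 0) ∧ ∀ t, b (γ t) = t

/-- (D2b) flat or degenerate -/
def FrameStmt : Prop := ∀ (n : ℕ) (M : Type) [MetricSpace M] [CompleteSpace M] [ConnectedSpace M]
  [ChartedSpace (EE n) M] [IsManifold (𝓡 n) ∞ M]
  [RiemannianBundle (fun x : M => TangentSpace (𝓡 n) x)]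
  [IsContMDiffRiemannianBundle (𝓡 n) ∞ (EE n) (fun x : M => TangentSpace (𝓡 n) x)]
  [IsRiemannianManifold (𝓡 n) M] (Γ : Type) [Group Γ] [MulAction Γ M],
  HasRicciLowerBound n M 0 →
  (∀ g : Γ, ContMDiff (𝓡 n) (𝓡 n) ∞ fun x : M => g • x) →
  (∀ (g : Γ) (x : M) (v : TangentSpace (𝓡 n) x),
    ‖mfderiv (𝓡 n) (𝓡 n) (fun y : M => g • y) x v‖ = ‖v‖) →
  (∀ (g : Γ) (x y : M), dist (g • x) (g • y) = dist x y) →
  (∃ K : Set M, IsCompact K ∧ ∀ x : M, ∃ g : Γ, g • x ∈ K) →
  (∀ L : Set M, IsCompact L → {g : Γ | ∃ x ∈ L, g • x ∈ L}.Finite) →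
  Flat n M ∨ Deg n M Γ

/-! ### sub-leaves -/

/-- difference of the Christoffel symbols -/
def dG {n : ℕ} (g g' : MetricField n) (x : EE n) (k i j : Fin n) : ℝ :=
  christoffel g' x k i j - christoffel g x k i j

/-- the vector field of the Palatini identity -/
def palV {n : ℕ} (g g' : MetricField n) (x : EE n) : EE n :=
  WithLp.toLp 2 fun k => ∑ i, ∑ j, inverseField g' x i j * dG g g' x k i j
    - ∑ i, inverseField g' x i k * ∑ l, dG g g' x l l i

/-- the quadratic term of the Palatini identity -/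
def palQ {n : ℕ} (g g' : MetricField n) (x : EE n) : ℝ :=
  ∑ i, ∑ j, inverseField g' x i j * (∑ k, ∑ l, dG g g' x k j l * dG g g' x l k i
    - ∑ k, ∑ l, dG g g' x k k l * dG g g' x l i j)

/-- exact Palatini identity -/
def PalStmt : Prop := ∀ (n : ℕ) (g g' : MetricField n) (U : Set (EE n)), IsRiemannianOn g U →
  IsRiemannianOn g' U → ∀ x ∈ U, scal g' x =
    ∑ i, ∑ j, inverseField g' x i j * ricci g x i j + divg g' (palV g g') x + palQ g g' x

/-- a drift with negative divergence outside a given open set -/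
def DivNegStmt : Prop := ∀ (n : ℕ) (M : Type) [TopologicalSpace M] [T2Space M] [CompactSpace M]
  [ConnectedSpace M] [ChartedSpace (EE n) M] [IsManifold (𝓡 n) ∞ M]
  [RiemannianBundle (fun x : M => TangentSpace (𝓡 n) x)]
  [IsContMDiffRiemannianBundle (𝓡 n) ∞ (EE n) (fun x : M => TangentSpace (𝓡 n) x)]
  (O : Set M), IsOpen O → O.Nonempty →
  ∃ (ι : Type) (_ : Fintype ι) (φ ψ : ι → M → ℝ), (∀ k, Sm n M (φ k)) ∧ (∀ k, Sm n M (ψ k)) ∧
    ∀ p, p ∉ O → ∑ k, (mGam n (φ k) (ψ k) p + φ k p * mLap n (ψ k) p) < 0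

/-- Weyl's lemma -/
def WeylStmt : Prop := ∀ (n : ℕ) (M : Type) [MetricSpace M]
  [ChartedSpace (EE n) M] [IsManifold (𝓡 n) ∞ M]
  [RiemannianBundle (fun x : M => TangentSpace (𝓡 n) x)]
  [IsContMDiffRiemannianBundle (𝓡 n) ∞ (EE n) (fun x : M => TangentSpace (𝓡 n) x)]
  [IsRiemannianManifold (𝓡 n) M] [MeasurableSpace M] [BorelSpace M] (b : M → ℝ), Continuous b →
  (∀ φ : M → ℝ, Sm n M φ → HasCompactSupport φ → (∀ x, 0 ≤ φ x) →
    ∫ x, b x * mLap n φ x ∂(MeasureTheory.Measure.euclideanHausdorffMeasure n) = 0) →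
  Sm n M b ∧ ∀ p, mLap n b p = 0

open Crest.GeometryTopology in
/-- theorema egregium -/
def EgrStmt : Prop := ∀ (n N : ℕ) (f : EE n → EE N) (V : Set (EE n)), IsOpen V →
  ContDiffOn ℝ ∞ f V → (∀ x ∈ V, Function.Injective (fderiv ℝ f x)) →
  IsRiemannianOn (Submanifold.metricMat f) V ∧ ∀ x ∈ V,
    (∀ i j k l, Submanifold.riem f x i j k l = bil (Submanifold.metricMat f x)
      (curv (Gam (Submanifold.metricMat f)) x (EuclideanSpace.single i 1)
        (EuclideanSpace.single j 1) (EuclideanSpace.single k 1)) (EuclideanSpace.single l 1)) ∧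
    Submanifold.scalar f x = scal (Submanifold.metricMat f) x

open Crest.GeometryTopology in
/-- the atlas of all local parametrisations -/
def SubStmt : Prop := ∀ (n N : ℕ) (S : Set (EE N)), Submanifold.IsSubmanifold n N S →
  ∃ R : RAtl n S,
    (∀ i, ∃ p f V, Submanifold.IsLocalParam n N S p f V ∧ (R.c i).target = V ∧
      R.G i = Submanifold.metricMat f ∧ ∀ y ∈ V, (((R.c i).symm y : S) : EE N) = f y) ∧
    ∀ p f V, Submanifold.IsLocalParam n N S p f V →
      ∃ i, (R.c i).target = V ∧ R.G i = Submanifold.metricMat f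

end Crest.Agent.N222.D
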