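import Crest.Agent.N222.D.Defs

/-!
# Row 222, part D: a drift with negative divergence outside a given open set (helper16)

Hopf barriers `F(s) ds` and a connectedness argument.
-/

set_option autoImplicit false
set_option linter.unusedSectionVars false

open Set Filter Topology Bundle
open scoped ContDiff Manifold
open Crest.GeometryTopology.CoordMetric Crest.GeometryTopology.ChartCurvature
  Crest.GeometryTopology.PointedLimit
open Crest.Agent.R202.Tens Crest.Agent.R247.Bo84 Crest.Agent.R273.RMan_798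

noncomputable section

namespace Crest.Agent.N222.D

namespace DN

theorem exists_lt_mul {M : Type} [TopologicalSpace M] {K : Set M} (hK : IsCompact K)
    {f g : M → ℝ} (hf : Continuous f) (hg : Continuous g) (h : ∀ p ∈ K, 0 < f p) :
    ∃ a : ℝ, ∀ p ∈ K, g p < a * f p := by
  obtain ⟨a, ha⟩ := hK.bddAbove_image
    (hg.continuousOn.div hf.continuousOn fun p hp => (h p hp).ne')
  refine ⟨a + 1, fun p hp => ?_⟩
  have h1 : g p / f p ≤ a := ha (mem_image_of_mem _ hp)
  rw [div_le_iff₀ (h p hp)] at h1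
  linarith [h p hp]

variable {n : ℕ} {M : Type} [TopologicalSpace M] [ChartedSpace (EE n) M] [IsManifold (𝓡 n) ∞ M]
  [RiemannianBundle (fun x : M => TangentSpace (𝓡 n) x)]
  [IsContMDiffRiemannianBundle (𝓡 n) ∞ (EE n) (fun x : M => TangentSpace (𝓡 n) x)]

variable (n) in
/-- `f` is the divergence of a drift -/
def Dv (f : M → ℝ) : Prop :=
  ∃ (ι : Type) (_ : Fintype ι) (φ ψ : ι → M → ℝ), (∀ k, Sm n M (φ k)) ∧ (∀ k, Sm n M (ψ k)) ∧
    ∀ p, f p = ∑ k, (mGam n (φ k) (ψ k) p + φ k p * mLap n (ψ k) p)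

variable {f g φ ψ : M → ℝ}

theorem continuous_mGam (hφ : Sm n M φ) (hψ : Sm n M ψ) : Continuous (mGam n φ ψ) :=
  continuous_iff_continuousAt.2 fun p =>
    (contMDiffAt_mGam (m := 0) (hφ p) (hψ p) (by simp) le_rfl).continuousAt

theorem continuous_mLap (hψ : Sm n M ψ) : Continuous (mLap n ψ) :=
  continuous_iff_continuousAt.2 fun p =>
    (contMDiffAt_mLap (m := 0) (hψ p) (by norm_cast) le_rfl).continuousAt

theorem Dv.zero : Dv n (fun _ : M => (0 : ℝ)) :=
  ⟨Empty, inferInstance, fun k => k.elim, fun k => k.elim, fun k => k.elim, fun k => k.elim,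
    fun _ => by simp⟩

theorem Dv.single (hφ : Sm n M φ) (hψ : Sm n M ψ) :
    Dv n fun p => mGam n φ ψ p + φ p * mLap n ψ p :=
  ⟨Unit, inferInstance, fun _ => φ, fun _ => ψ, fun _ => hφ, fun _ => hψ, fun _ => by simp⟩

theorem Dv.add (hf : Dv n f) (hg : Dv n g) : Dv n fun p => f p + g p := by
  obtain ⟨ι, _, φ, ψ, h1, h2, h3⟩ := hf
  obtain ⟨ι', _, φ', ψ', h1', h2', h3'⟩ := hg
  exact ⟨ι ⊕ ι', inferInstance, Sum.elim φ φ', Sum.elim ψ ψ', Sum.forall.2 ⟨h1, h1'⟩,
    Sum.forall.2 ⟨h2, h2'⟩, fun p => by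
      beta_reduce; rw [Fintype.sum_sum_type, h3, h3']; rfl⟩

theorem Dv.smul (hf : Dv n f) (c : ℝ) : Dv n fun p => c * f p := by
  obtain ⟨ι, _, φ, ψ, h1, h2, h3⟩ := hf
  refine ⟨ι, inferInstance, fun k p => c * φ k p, ψ, fun k => contMDiff_const.mul (h1 k), h2,
    fun p => ?_⟩
  beta_reduce
  rw [h3, Finset.mul_sum]
  refine Finset.sum_congr rfl fun k _ => ?_
  rw [mGam_const_mul_left c ((h1 k p).mdifferentiableAt (by simp))]
  ring

theorem Dv.sum {α : Type} (t : Finset α) {f : α → M → ℝ} (hf : ∀ a, Dv n (f a)) :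
    Dv n fun p => ∑ a ∈ t, f a p := by
  classical
  induction t using Finset.induction_on with
  | empty => simpa using Dv.zero
  | insert a t ha ih => simpa only [Finset.sum_insert ha] using (hf a).add ih

theorem Dv.continuous (hf : Dv n f) : Continuous f := by
  obtain ⟨ι, _, φ, ψ, h1, h2, h3⟩ := hf
  rw [funext h3]
  exact continuous_finsetSum _ fun k _ => (continuous_mGam (h1 k) (h2 k)).add
    ((h1 k).continuous.mul (continuous_mLap (h2 k)))

/-- Hopf barrier -/
theorem barrier [CompactSpace M] {s : M → ℝ} (hs : Sm n M s) (T : ℝ) {W : Set M} (hW : IsOpen W)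
    (h : ∀ p, p ∉ W → s p ≤ T → 0 < mGam n s s p) :
    ∃ f : M → ℝ, Dv n f ∧ ∀ p, p ∉ W → f p ≤ 0 ∧ (s p < T → f p < 0) := by
  obtain ⟨a, ha⟩ := exists_lt_mul (K := Wᶜ ∩ {p | s p ≤ T})
    (hW.isClosed_compl.inter (isClosed_le hs.continuous continuous_const)).isCompact
    (continuous_mGam hs hs) (continuous_mLap hs) fun p hp => h p hp.1 hp.2
  have he : ContDiff ℝ ∞ expNegInvGlue := expNegInvGlue.contDiff
  have hF : ContDiff ℝ ∞ fun t : ℝ => expNegInvGlue (T - t) * Real.exp (-a * t) := by fun_prop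
  have hd : ∀ t, HasDerivAt (fun t : ℝ => expNegInvGlue (T - t) * Real.exp (-a * t))
      (-(deriv expNegInvGlue (T - t) * Real.exp (-a * t)) -
        a * (expNegInvGlue (T - t) * Real.exp (-a * t))) t := fun t => by
    have h1 := ((he.differentiable (by simp)) (T - t)).hasDerivAt.comp t
      ((hasDerivAt_id t).const_sub T)
    have h2 := ((hasDerivAt_id t).const_mul (-a)).exp
    refine (h1.mul h2).congr_deriv ?_
    simp only [Function.comp_apply, id]
    ring
  refine ⟨_, Dv.single (hF.contMDiff.comp hs) hs, fun p hp => ?_⟩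
  have e := mGam_comp_left (k := s) (hd (s p)).differentiableAt ((hs p).mdifferentiableAt (by simp))
  simp only [Function.comp_def]
  rw [e, (hd (s p)).deriv]
  have h1 : 0 ≤ deriv expNegInvGlue (T - s p) * Real.exp (-a * s p) * mGam n s s p :=
    mul_nonneg (mul_nonneg expNegInvGlue.monotone.deriv_nonneg (Real.exp_pos _).le)
      (mGam_self_nonneg s p)
  rcases le_or_gt (s p) T with hT | hT
  · have h2 := ha p ⟨hp, hT⟩
    have h3 : 0 ≤ expNegInvGlue (T - s p) * Real.exp (-a * s p) :=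
      mul_nonneg (expNegInvGlue.nonneg _) (Real.exp_pos _).le
    refine ⟨by nlinarith, fun hlt => ?_⟩
    have h4 : 0 < expNegInvGlue (T - s p) * Real.exp (-a * s p) :=
      mul_pos (expNegInvGlue.pos_of_pos (by linarith)) (Real.exp_pos _)
    nlinarith
  · refine ⟨?_, fun hlt => absurd hlt hT.not_gt⟩
    rw [expNegInvGlue.zero_of_nonpos (by linarith)]
    linarith

theorem mGam_pos {q p : M} {c : EE n} {s : M → ℝ} (hp : p ∈ (chartAt (EE n) q).source)
    (hc : chartAt (EE n) q p ≠ c) (hs : s =ᶠ[𝓝 p] fun x => ‖chartAt (EE n) q x - c‖ ^ 2) :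
    0 < mGam n s s p := by
  have hy := (chartAt (EE n) q).map_source hp
  have hg := isRiemannianOn_chartMetric (n := n) q
  have h1 : inCh n q (fun x => ‖chartAt (EE n) q x - c‖ ^ 2) =ᶠ[𝓝 (chartAt (EE n) q p)]
      fun y => ‖y - c‖ ^ 2 := by
    filter_upwards [(chartAt (EE n) q).open_target.mem_nhds hy] with y hy
    rw [inCh, (chartAt (EE n) q).right_inv hy]
  rw [mGam_congr hs hs, mGam_chart' hp, gam_congr h1 h1]
  refine (gam_self_nonneg hg hy _).lt_of_ne fun h0 => ?_
  have h2 := bil_sq_le hg hy (grad (chartMetric n M q) (fun y => ‖y - c‖ ^ 2) (chartAt (EE n) q p))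
    (chartAt (EE n) q p - c)
  have h4 : HasFDerivAt (fun y : EE n => ‖y - c‖ ^ 2) _ (chartAt (EE n) q p) :=
    ((hasFDerivAt_id _).sub_const c).norm_sq
  rw [← gam_eq_bil hg hy, ← h0, zero_mul, bil_grad hg hy, h4.fderiv] at h2
  have h3 : 0 < ‖chartAt (EE n) q p - c‖ := norm_pos_iff.2 (sub_ne_zero.2 hc)
  simp only [id, smul_apply, ContinuousLinearMap.comp_apply,
    ContinuousLinearMap.id_apply, innerSL_apply_apply, real_inner_self_eq_norm_sq] at h2
  exact absurd h2 (not_le.2 (by positivity))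

/-- a function with one critical point `q'` on a sublevel set that contains `q` -/
theorem exists_well [T2Space M] (q : M) : ∃ U ∈ 𝓝 q, ∀ q' ∈ U, ∃ (s : M → ℝ) (T : ℝ),
    Sm n M s ∧ s q < T ∧ ∀ p, p ≠ q' → s p ≤ T → 0 < mGam n s s p := by
  obtain ⟨b⟩ : Nonempty (SmoothBumpFunction (𝓡 n) q) := inferInstance
  have hρ := b.rIn_pos
  set e := chartAt (EE n) q with he
  refine ⟨e.source ∩ e ⁻¹' Metric.ball (e q) (b.rIn / 4), inter_mem (chart_source_mem_nhds _ _)
    ((e.continuousAt (mem_chart_source _ _)).preimage_mem_nhds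
      (Metric.ball_mem_nhds _ (by positivity))), fun q' hq' => ?_⟩
  have hd : dist (e q') (e q) < b.rIn / 4 := hq'.2
  refine ⟨fun p => b.rIn ^ 2 - b p • (b.rIn ^ 2 - ‖e p - e q'‖ ^ 2), (b.rIn / 2) ^ 2,
    contMDiff_const.sub (b.contMDiff_smul ?_), ?_, fun p hp hT => ?_⟩
  · exact (contDiff_const.sub ((contDiff_id.sub contDiff_const).norm_sq ℝ)).contMDiff.comp_contMDiffOn
      contMDiffOn_chart
  · beta_reduce
    rw [b.eq_one, one_smul, sub_sub_cancel, ← dist_eq_norm, dist_comm]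
    exact pow_lt_pow_left₀ (by linarith) dist_nonneg two_ne_zero
  · beta_reduce at hT
    have hs : p ∈ e.source := by
      by_contra hs
      have : b p = 0 := by_contra fun h => hs (b.support_subset_source h)
      rw [this, zero_smul] at hT
      nlinarith
    have hlt : dist (e p) (e q) < b.rIn := by
      by_contra hlt
      have h1 : b.rIn / 2 < ‖e p - e q'‖ := by
        rw [← dist_eq_norm]
        linarith [dist_triangle (e p) (e q') (e q), not_lt.1 hlt]
      have h2 := pow_lt_pow_left₀ h1 (by positivity) two_ne_zero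
      have h3 : (b.rIn / 2) ^ 2 < b.rIn ^ 2 := by nlinarith
      have h4 := b.nonneg (x := p)
      have h5 := b.le_one (x := p)
      rw [smul_eq_mul] at hT
      rcases le_total (b.rIn ^ 2) (‖e p - e q'‖ ^ 2) with h6 | h6 <;> nlinarith
    refine mGam_pos (q := q) (c := e q') hs (fun h => hp (e.injOn hs hq'.1 h)) ?_
    filter_upwards [b.eventuallyEq_one_of_dist_lt hs (by simpa using hlt)] with x hx
    rw [hx, Pi.one_apply, one_smul, sub_sub_cancel]

variable (n) in
/-- points near which some drift works -/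
def Good (O : Set M) : Set M := {q | ∃ f : M → ℝ, Dv n f ∧ (∀ p, p ∉ O → f p ≤ 0) ∧
  ∃ W, IsOpen W ∧ q ∈ W ∧ ∀ p ∈ W, p ∉ O → f p < 0}

theorem isOpen_good (O : Set M) : IsOpen (Good n O) :=
  isOpen_iff_mem_nhds.2 fun _ ⟨f, h1, h2, W, h3, h4, h5⟩ =>
    mem_of_superset (h3.mem_nhds h4) fun _ hp => ⟨f, h1, h2, W, h3, hp, h5⟩

theorem isClosed_good [T2Space M] [CompactSpace M] {O : Set M} (hO : IsOpen O) :
    IsClosed (Good n O) := by
  refine isClosed_of_closure_subset fun q hq => ?_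
  obtain ⟨U, hU, H⟩ := exists_well (n := n) q
  obtain ⟨q', hq', f, h1, h2, W, h3, h4, h5⟩ := mem_closure_iff_nhds.1 hq U hU
  obtain ⟨s, T, hs, hq, hc⟩ := H q' hq'
  obtain ⟨V, hV, hVc, hVW⟩ := exists_mem_nhds_isClosed_subset (h3.mem_nhds h4)
  obtain ⟨g, g1, g2⟩ := barrier hs T (isOpen_interior (s := V)) fun p hp =>
    hc p fun h => hp (h ▸ mem_interior_iff_mem_nhds.2 hV)
  obtain ⟨a, ha⟩ := exists_lt_mul (hVc.inter hO.isClosed_compl).isCompact h1.continuous.neg
    g1.continuous fun p hp => neg_pos.2 (h5 p (hVW hp.1) hp.2)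
  have key : ∀ p, p ∉ O → |a| * f p + g p ≤ 0 ∧ (s p < T → |a| * f p + g p < 0) := fun p hp => by
    have h6 := h2 p hp
    by_cases hpV : p ∈ interior V
    · have h7 : g p < a * -f p := ha p ⟨interior_subset hpV, hp⟩
      have h8 : |a| * f p + g p < 0 := by nlinarith [le_abs_self a]
      exact ⟨h8.le, fun _ => h8⟩
    · have h7 := mul_nonpos_of_nonneg_of_nonpos (abs_nonneg a) h6
      exact ⟨by linarith [(g2 p hpV).1], fun h => by linarith [(g2 p hpV).2 h]⟩
  exact ⟨_, (h1.smul |a|).add g1, fun p hp => (key p hp).1, {p | s p < T},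
    isOpen_lt hs.continuous continuous_const, hq, fun p hp hO => (key p hO).2 hp⟩

end DN

open DN in
theorem divNeg : DivNegStmt := by
  intro n M _ _ _ _ _ _ _ _ O hO ⟨x, hx⟩
  have hall : Good n O = univ := IsClopen.eq_univ ⟨isClosed_good hO, isOpen_good O⟩
    ⟨x, _, Dv.zero, fun _ _ => le_rfl, O, hO, hx, fun p hp hp' => absurd hp hp'⟩
  choose f h1 h2 W h3 h4 h5 using fun q : M => (hall ▸ mem_univ q : q ∈ Good n O)
  obtain ⟨t, ht⟩ := isCompact_univ.elim_finite_subcover W h3 fun q _ => mem_iUnion.2 ⟨q, h4 q⟩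
  obtain ⟨ι, _, φ, ψ, k1, k2, k3⟩ := Dv.sum t h1
  refine ⟨ι, inferInstance, φ, ψ, k1, k2, fun p hp => ?_⟩
  obtain ⟨q, hq, hpq⟩ := mem_iUnion₂.1 (ht (mem_univ p))
  rw [← k3]
  exact (Finset.sum_lt_sum (fun q _ => h2 q p hp) ⟨q, hq, h5 q p hpq hp⟩).trans_eq
    Finset.sum_const_zero

end Crest.Agent.N222.D
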