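import Crest.Agent.R202.GeoTensA

/-!
# Row 222, part D: the Gauss equation, index free (helper36)
-/

set_option autoImplicit false

open Filter Topology
open scoped ContDiff InnerProductSpace
open Crest.Agent.R202.Tens

namespace Crest.Agent.N222.D

variable {E F : Type*} [NormedAddCommGroup E] [NormedSpace ℝ E]
  [NormedAddCommGroup F] [InnerProductSpace ℝ F]

theorem egr_d1 {H : Type*} [NormedAddCommGroup H] [NormedSpace ℝ H] {A : E → E →L[ℝ] H} {y : E}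
    (hA : DifferentiableAt ℝ A y) (U W : E) :
    fderiv ℝ (fun z => A z U) y W = fderiv ℝ A y W U := by
  rw [fderiv_clm_apply hA (differentiableAt_const _)]
  simp

theorem egr_d2 {H : Type*} [NormedAddCommGroup H] [NormedSpace ℝ H]
    {A : E → E →L[ℝ] E →L[ℝ] H} {y : E} (hA : DifferentiableAt ℝ A y) (U V W : E) :
    fderiv ℝ (fun z => A z U V) y W = fderiv ℝ A y W U V := by
  rw [egr_d1 (A := fun z => A z U) (hA.clm_apply (differentiableAt_const _)), egr_d1 hA]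

/-- The tangential part of the second derivative of an immersion is the Levi-Civita connection
of the induced metric. -/
theorem egr_lc {G : E → E →L[ℝ] E →L[ℝ] ℝ} {f : E → F} {y : E} (hf : ContDiffAt ℝ 2 f y)
    (hpull : ∀ᶠ z in 𝓝 y, ∀ X Y, G z X Y = ⟪fderiv ℝ f z X, fderiv ℝ f z Y⟫_ℝ)
    (hG : DifferentiableAt ℝ G y) {Γ : E →L[ℝ] E →L[ℝ] E} (hΓ : IsLC G y Γ) (X Y Z : E) :
    ⟪fderiv ℝ (fderiv ℝ f) y X Y - fderiv ℝ f y (Γ X Y), fderiv ℝ f y Z⟫_ℝ = 0 := by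
  have hdd : DifferentiableAt ℝ (fderiv ℝ f) y :=
    (hf.fderiv_right (m := 1) (by norm_num)).differentiableAt (by norm_num)
  have hsym : ∀ U V, fderiv ℝ (fderiv ℝ f) y U V = fderiv ℝ (fderiv ℝ f) y V U := by
    have h := hf.isSymmSndFDerivAt (by simp)
    exact fun U V => h.eq U V
  have hD : ∀ W U V, fderiv ℝ G y W U V =
      ⟪fderiv ℝ f y U, fderiv ℝ (fderiv ℝ f) y W V⟫_ℝ
      + ⟪fderiv ℝ (fderiv ℝ f) y W U, fderiv ℝ f y V⟫_ℝ := by
    intro W U V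
    have e1 : (fun z => G z U V) =ᶠ[𝓝 y] fun z => ⟪fderiv ℝ f z U, fderiv ℝ f z V⟫_ℝ := by
      filter_upwards [hpull] with z hz using hz U V
    rw [← egr_d2 hG, e1.fderiv_eq,
      fderiv_inner_apply ℝ (hdd.clm_apply (differentiableAt_const _))
        (hdd.clm_apply (differentiableAt_const _)), egr_d1 hdd, egr_d1 hdd]
  have k1 := hΓ X Y Z
  rw [hpull.self_of_nhds, hD, hD, hD] at k1
  rw [inner_sub_left, k1, hsym Y X, hsym Z X, hsym Z Y,
    real_inner_comm (fderiv ℝ (fderiv ℝ f) y X Z) (fderiv ℝ f y Y)]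
  rw [real_inner_comm (fderiv ℝ f y Y) (fderiv ℝ (fderiv ℝ f) y X Z)]
  ring

/-- The Gauss equation. -/
theorem egr_gauss {Γ : E → E →L[ℝ] E →L[ℝ] E} {f : E → F} {y : E} (hf : ContDiffAt ℝ 3 f y)
    (hΓ : DifferentiableAt ℝ Γ y)
    (h : ∀ᶠ z in 𝓝 y, ∀ X Y Z,
      ⟪fderiv ℝ (fderiv ℝ f) z X Y - fderiv ℝ f z (Γ z X Y), fderiv ℝ f z Z⟫_ℝ = 0)
    (W X Y Z : E) :
    ⟪fderiv ℝ f y (curv Γ y W X Y), fderiv ℝ f y Z⟫_ℝ =
      ⟪fderiv ℝ (fderiv ℝ f) y W Z - fderiv ℝ f y (Γ y W Z),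
        fderiv ℝ (fderiv ℝ f) y X Y - fderiv ℝ f y (Γ y X Y)⟫_ℝ
      - ⟪fderiv ℝ (fderiv ℝ f) y X Z - fderiv ℝ f y (Γ y X Z),
        fderiv ℝ (fderiv ℝ f) y W Y - fderiv ℝ f y (Γ y W Y)⟫_ℝ := by
  have hC2 : ContDiffAt ℝ 2 (fderiv ℝ f) y := hf.fderiv_right (m := 2) (by norm_num)
  have hdd : DifferentiableAt ℝ (fderiv ℝ f) y := hC2.differentiableAt (by norm_num)
  have hddd : DifferentiableAt ℝ (fderiv ℝ (fderiv ℝ f)) y :=
    (hC2.fderiv_right (m := 1) (by norm_num)).differentiableAt (by norm_num)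
  have hsym3 : ∀ U V, fderiv ℝ (fderiv ℝ (fderiv ℝ f)) y U V
      = fderiv ℝ (fderiv ℝ (fderiv ℝ f)) y V U := by
    have h := hC2.isSymmSndFDerivAt (by simp)
    exact fun U V => h.eq U V
  have hy := h.self_of_nhds
  have hI : ∀ W X : E,
      ⟪fderiv ℝ (fderiv ℝ f) y X Y - fderiv ℝ f y (Γ y X Y), fderiv ℝ (fderiv ℝ f) y W Z⟫_ℝ
      + ⟪fderiv ℝ (fderiv ℝ (fderiv ℝ f)) y W X Y -
          (fderiv ℝ (fderiv ℝ f) y W (Γ y X Y) + fderiv ℝ f y (fderiv ℝ Γ y W X Y)),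
          fderiv ℝ f y Z⟫_ℝ = 0 := by
    intro W X
    have e1 : (fun z => ⟪fderiv ℝ (fderiv ℝ f) z X Y - fderiv ℝ f z (Γ z X Y),
        fderiv ℝ f z Z⟫_ℝ) =ᶠ[𝓝 y] fun _ => 0 := by
      filter_upwards [h] with z hz using hz X Y Z
    have hΓXY : DifferentiableAt ℝ (fun z => Γ z X Y) y :=
      (hΓ.clm_apply (differentiableAt_const _)).clm_apply (differentiableAt_const _)
    have hH : DifferentiableAt ℝ (fun z => fderiv ℝ (fderiv ℝ f) z X Y) y :=
      (hddd.clm_apply (differentiableAt_const _)).clm_apply (differentiableAt_const _)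
    have hK : DifferentiableAt ℝ (fun z => fderiv ℝ f z (Γ z X Y)) y := hdd.clm_apply hΓXY
    have e2 : fderiv ℝ (fun z => fderiv ℝ f z (Γ z X Y)) y W
        = fderiv ℝ (fderiv ℝ f) y W (Γ y X Y) + fderiv ℝ f y (fderiv ℝ Γ y W X Y) := by
      rw [fderiv_clm_apply hdd hΓXY]
      simp only [add_apply, ContinuousLinearMap.comp_apply,
        ContinuousLinearMap.flip_apply]
      rw [egr_d2 hΓ, add_comm]
    have e3 := congrArg (fun L : E →L[ℝ] ℝ => L W) e1.fderiv_eq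
    simp only [fderiv_fun_const, Pi.zero_apply, zero_apply] at e3
    rw [fderiv_inner_apply ℝ (hH.fun_sub hK) (hdd.clm_apply (differentiableAt_const _)),
      egr_d1 hdd, fderiv_fun_sub hH hK, sub_apply, egr_d2 hddd, e2] at e3
    exact e3
  have h1 := hI W X
  have h2 := hI X W
  rw [hsym3 X W] at h2
  have a1 := hy W (Γ y X Y) Z
  have a2 := hy X (Γ y W Y) Z
  have b1 := hy X Y (Γ y W Z)
  have b2 := hy W Y (Γ y X Z)
  unfold curv
  rw [map_sub, map_add, map_sub]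
  rw [real_inner_comm (fderiv ℝ (fderiv ℝ f) y X Y - fderiv ℝ f y (Γ y X Y)),
    real_inner_comm (fderiv ℝ (fderiv ℝ f) y W Y - fderiv ℝ f y (Γ y W Y)),
    inner_sub_right, inner_sub_right, b1, b2]
  simp only [inner_sub_left, inner_add_left] at h1 h2 a1 a2 ⊢
  linarith

end Crest.Agent.N222.D
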