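import Crest.Agent.N222.D.Defs
import Crest.Agent.N222.D.EgrA
import Crest.Agent.R241.GeoTan

/-!
# Row 222, part D: theorema egregium (helper36)
-/

set_option autoImplicit false

open Set Filter Topology
open scoped ContDiff InnerProductSpace
open Crest.GeometryTopology Crest.GeometryTopology.CoordMetric
open Crest.Agent.R202.Tens Crest.Agent.R247.Bo84 Crest.Agent.R273.RMan_798

noncomputable section

namespace Crest.Agent.N222.D

variable {n N : ℕ} {f : EE n → EE N} {V : Set (EE n)}

theorem egr_fderiv_sum (f : EE n → EE N) (x X : EE n) :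
    fderiv ℝ f x X = ∑ i, X i • Submanifold.pd f x i := by
  conv_lhs => rw [eq_sum_single X]
  rw [map_sum]
  refine Finset.sum_congr rfl fun i _ => ?_
  rw [map_smul]
  rfl

theorem egr_sum (f : EE n → EE N) (x X Y : EE n) :
    ∑ i, ∑ j, Submanifold.metricMat f x i j * X i * Y j
      = ⟪fderiv ℝ f x X, fderiv ℝ f x Y⟫_ℝ := by
  rw [egr_fderiv_sum f x X, egr_fderiv_sum f x Y, sum_inner]
  refine Finset.sum_congr rfl fun i _ => ?_
  rw [inner_sum]
  refine Finset.sum_congr rfl fun j _ => ?_
  rw [real_inner_smul_left, real_inner_smul_right, Submanifold.metricMat, Matrix.of_apply]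
  ring

theorem egr_bil (f : EE n → EE N) (x X Y : EE n) :
    bil (Submanifold.metricMat f x) X Y = ⟪fderiv ℝ f x X, fderiv ℝ f x Y⟫_ℝ := by
  rw [bil_apply, egr_sum]

theorem egr_posDef {x : EE n} (hx : Function.Injective (fderiv ℝ f x)) :
    (Submanifold.metricMat f x).PosDef := by
  refine Matrix.PosDef.of_dotProduct_mulVec_pos ?_ ?_
  · ext i j
    simp only [Matrix.conjTranspose_apply, star_trivial, Submanifold.metricMat, Matrix.of_apply]
    exact real_inner_comm _ _
  · intro v hv
    have h1 : star v ⬝ᵥ (Submanifold.metricMat f x).mulVec v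
        = ⟪fderiv ℝ f x (WithLp.toLp 2 v), fderiv ℝ f x (WithLp.toLp 2 v)⟫_ℝ := by
      rw [← egr_sum]
      simp only [dotProduct, Matrix.mulVec, star_trivial, Finset.mul_sum]
      refine Finset.sum_congr rfl fun i _ => Finset.sum_congr rfl fun j _ => ?_
      ring
    rw [h1]
    refine real_inner_self_pos.2 fun h => hv ?_
    have h2 : (WithLp.toLp 2 v : EE n) = 0 := hx (by rw [h, map_zero])
    exact (WithLp.toLp_eq_zero 2).1 h2

theorem egr_riem (hV : IsOpen V) (hf : ContDiffOn ℝ ∞ f V)
    (hinj : ∀ x ∈ V, Function.Injective (fderiv ℝ f x)) :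
    IsRiemannianOn (Submanifold.metricMat f) V where
  isOpen := hV
  contDiffOn i j := by
    have h1 : ContDiffOn ℝ ∞ (fderiv ℝ f) V := hf.fderiv_of_isOpen hV (by simp)
    exact (h1.clm_apply contDiffOn_const).inner ℝ (h1.clm_apply contDiffOn_const)
  posDef x hx := egr_posDef (hinj x hx)

theorem egr_normal (hV : IsOpen V) (hf : ContDiffOn ℝ ∞ f V)
    (hinj : ∀ x ∈ V, Function.Injective (fderiv ℝ f x)) {x : EE n} (hx : x ∈ V) (X Y Z : EE n) :
    ⟪fderiv ℝ (fderiv ℝ f) x X Y - fderiv ℝ f x (Gam (Submanifold.metricMat f) x X Y),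
      fderiv ℝ f x Z⟫_ℝ = 0 := by
  have hg := egr_riem hV hf hinj
  have hd := differentiableAt_entry hg hx
  refine egr_lc (G := Gf (Submanifold.metricMat f))
    ((hf.contDiffAt (hV.mem_nhds hx)).of_le Crest.Agent.R241.Geo.two_le_infty)
    (Eventually.of_forall fun z X Y => egr_bil f z X Y) (hasFDerivAt_Gf hd).differentiableAt
    (isLC_Gam hd ?_ (metric_symm hg hx)) X Y Z
  exact (hg.posDef x hx).det_pos.ne'.isUnit

theorem egr_sff (hV : IsOpen V) (hf : ContDiffOn ℝ ∞ f V)
    (hinj : ∀ x ∈ V, Function.Injective (fderiv ℝ f x)) {x : EE n} (hx : x ∈ V) (i j : Fin n) :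
    Submanifold.sff f x i j =
      fderiv ℝ (fderiv ℝ f) x (EuclideanSpace.single i 1) (EuclideanSpace.single j 1)
        - fderiv ℝ f x (Gam (Submanifold.metricMat f) x (EuclideanSpace.single i 1)
          (EuclideanSpace.single j 1)) := by
  have hdd : DifferentiableAt ℝ (fderiv ℝ f) x :=
    ((hf.fderiv_of_isOpen (m := ∞) hV (by simp)).contDiffAt (hV.mem_nhds hx)).differentiableAt
      (by simp)
  have hh : Submanifold.hess f x i j =
      fderiv ℝ (fderiv ℝ f) x (EuclideanSpace.single i 1) (EuclideanSpace.single j 1) :=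
    egr_d1 hdd _ _
  rw [Submanifold.sff, Submanifold.normalPart, hh]
  congr 1
  refine Submodule.eq_starProjection_of_mem_of_inner_eq_zero ?_ ?_
  · rw [Crest.Agent.R241.Geo.tangentAt_eq_range]
    exact ⟨_, rfl⟩
  · intro w hw
    rw [Crest.Agent.R241.Geo.tangentAt_eq_range] at hw
    obtain ⟨Z, rfl⟩ := hw
    exact egr_normal hV hf hinj hx _ _ Z

theorem egr_curv (hV : IsOpen V) (hf : ContDiffOn ℝ ∞ f V)
    (hinj : ∀ x ∈ V, Function.Injective (fderiv ℝ f x)) {x : EE n} (hx : x ∈ V)
    (i j k l : Fin n) :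
    Submanifold.riem f x i j k l = bil (Submanifold.metricMat f x)
      (curv (Gam (Submanifold.metricMat f)) x (EuclideanSpace.single i 1)
        (EuclideanSpace.single j 1) (EuclideanSpace.single k 1)) (EuclideanSpace.single l 1) := by
  have hg := egr_riem hV hf hinj
  have h3 : (3 : WithTop ℕ∞) ≤ ∞ := by
    have : ((3 : ℕ∞) : WithTop ℕ∞) ≤ ((⊤ : ℕ∞) : WithTop ℕ∞) := WithTop.coe_le_coe.2 le_top
    exact this
  rw [egr_bil, egr_gauss ((hf.contDiffAt (hV.mem_nhds hx)).of_le h3)
    (hasFDerivAt_Gam (differentiableAt_christoffel hg hx)).differentiableAt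
    (by filter_upwards [hV.mem_nhds hx] with z hz using egr_normal hV hf hinj hz),
    Submanifold.riem, egr_sff hV hf hinj hx, egr_sff hV hf hinj hx, egr_sff hV hf hinj hx,
    egr_sff hV hf hinj hx, real_inner_comm (fderiv ℝ (fderiv ℝ f) x (EuclideanSpace.single j 1)
      (EuclideanSpace.single l 1) - _)]

theorem egr_raise {M : Matrix (Fin n) (Fin n) ℝ} (hM : M.PosDef) (u : EE n) (a : Fin n) :
    ∑ b, M⁻¹ a b * bil M u (EuclideanSpace.single b 1) = u a := by
  have hs : ∀ i j, M i j = M j i := fun i j => by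
    have := hM.isHermitian.apply j i
    simpa using this
  have h1 : ∀ b, bil M u (EuclideanSpace.single b 1) = ∑ i, M b i * u i := by
    intro b
    rw [bil_apply]
    refine Finset.sum_congr rfl fun i _ => ?_
    rw [Finset.sum_eq_single b]
    · simp [hs i b]
    · intro c _ hc
      simp [hc]
    · simp
  have h2 : M⁻¹ * M = 1 := Matrix.nonsing_inv_mul M hM.det_pos.ne'.isUnit
  simp only [h1, Finset.mul_sum]
  rw [Finset.sum_comm]
  have h3 : ∀ i, ∑ b, M⁻¹ a b * (M b i * u i) = (1 : Matrix (Fin n) (Fin n) ℝ) a i * u i := by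
    intro i
    rw [← h2, Matrix.mul_apply, Finset.sum_mul]
    exact Finset.sum_congr rfl fun b _ => by ring
  simp only [h3, Matrix.one_apply, ite_mul, one_mul, zero_mul, Finset.sum_ite_eq,
    Finset.mem_univ, if_true]

theorem egr_ricci (hV : IsOpen V) (hf : ContDiffOn ℝ ∞ f V)
    (hinj : ∀ x ∈ V, Function.Injective (fderiv ℝ f x)) {x : EE n} (hx : x ∈ V) (i j : Fin n) :
    Submanifold.ricci f x i j = ricci (Submanifold.metricMat f) x j i := by
  have hg := egr_riem hV hf hinj
  have h1 := ricci_form hg hx (EuclideanSpace.single i 1) (EuclideanSpace.single j 1)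
  have h2 : ∑ a, ∑ b, ricci (Submanifold.metricMat f) x a b *
      (EuclideanSpace.single j (1 : ℝ) : EE n) a * (EuclideanSpace.single i (1 : ℝ) : EE n) b
      = ricci (Submanifold.metricMat f) x j i := by
    rw [Finset.sum_eq_single j, Finset.sum_eq_single i]
    · simp
    · intro c _ hc
      simp [hc]
    · simp
    · intro c _ hc
      simp [hc]
    · simp
  rw [← h2, h1, Submanifold.ricci]
  refine Finset.sum_congr rfl fun a _ => ?_
  simp only [egr_curv hV hf hinj hx]
  exact egr_raise (hg.posDef x hx) _ a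

theorem egr : EgrStmt := by
  intro n N f V hV hf hinj
  have hg := egr_riem hV hf hinj
  refine ⟨hg, fun x hx => ⟨egr_curv hV hf hinj hx, ?_⟩⟩
  rw [Submanifold.scalar, scal, Finset.sum_comm]
  refine Finset.sum_congr rfl fun j _ => Finset.sum_congr rfl fun i _ => ?_
  rw [egr_ricci hV hf hinj hx]
  congr 1
  have := (hg.posDef x hx).inv.isHermitian.apply j i
  simpa [inverseField] using this

end Crest.Agent.N222.D
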