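import Crest.Agent.N222.D.Line

/-!
# Row 222, part D: flat or degenerate (helper55)
-/

set_option autoImplicit false
set_option linter.unusedSectionVars false

open Set Filter Topology Bundle Metric
open scoped ContDiff Manifold
open Crest.GeometryTopology.CoordMetric Crest.GeometryTopology.ChartCurvature
  Crest.GeometryTopology.PointedLimit
open Crest.Agent.R202.Tens Crest.Agent.R247.Bo84 Crest.Agent.R273.RMan_798 Crest.Agent.R247

noncomputable section

namespace Crest.Agent.N222.D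

section Kl

variable {n : ℕ} {M : Type} [TopologicalSpace M] [ChartedSpace (EE n) M] [IsManifold (𝓡 n) ∞ M]
  [RiemannianBundle (fun x : M => TangentSpace (𝓡 n) x)]
  [IsContMDiffRiemannianBundle (𝓡 n) ∞ (EE n) (fun x : M => TangentSpace (𝓡 n) x)]
  {x : M} {v : TangentSpace (𝓡 n) x} {f h : M → ℝ}

/-- the differential of `f` kills `v` -/
def Kl (x : M) (v : TangentSpace (𝓡 n) x) (f : M → ℝ) : Prop :=
  MDifferentiableAt (𝓡 n) 𝓘(ℝ, ℝ) f x ∧ (inner ℝ (mgrad n f x) v : ℝ) = 0

theorem Kl.add (hf : Kl x v f) (hh : Kl x v h) : Kl x v fun y => f y + h y :=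
  ⟨hf.1.add hh.1, by rw [mgrad_add hf.1 hh.1, inner_add_left, hf.2, hh.2, add_zero]⟩

theorem Kl.mul (hf : Kl x v f) (hh : Kl x v h) : Kl x v fun y => f y * h y :=
  ⟨hf.1.mul hh.1, by
    rw [mgrad_mul hf.1 hh.1, inner_add_left, real_inner_smul_left, real_inner_smul_left, hf.2, hh.2]
    simp⟩

theorem Kl.comp (hf : Kl x v f) {φ : ℝ → ℝ} (hφ : DifferentiableAt ℝ φ (f x)) :
    Kl x v fun y => φ (f y) :=
  ⟨hφ.mdifferentiableAt.comp x hf.1, by
    rw [mgrad_comp hφ hf.1, real_inner_smul_left, hf.2, mul_zero]⟩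

theorem Kl.sum {ι : Type} (s : Finset ι) {F : ι → M → ℝ} (hF : ∀ i, Kl x v (F i)) :
    Kl x v fun y => ∑ i ∈ s, F i y := by
  classical
  induction s using Finset.induction_on with
  | empty => exact ⟨mdifferentiableAt_const, by
      simp only [Finset.sum_empty]; rw [mgrad_const, inner_zero_left]⟩
  | insert a s ha ih => simpa only [Finset.sum_insert ha] using (hF a).add ih

theorem Kl.congr (hf : Kl x v f) (e : h =ᶠ[𝓝 x] f) : Kl x v h :=
  ⟨hf.1.congr_of_eventuallyEq e, by rw [mgrad_congr e, hf.2]⟩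

end Kl

/-- **flat or degenerate** -/
theorem frame (hS : SplitStmt) : FrameStmt := by
  intro n M _ _ _ _ _ _ _ _ Γ _ _ hric hsm hn hd ⟨K, hK, hcov⟩ hfin
  have hI : ∀ g : Γ, LocIso n fun x : M => g • x := fun g => ⟨hsm g, hn g⟩
  have := HR216.properSpace_of_riemannian n M
  refine (flat_or_ker (n := n) (M := M)).imp_right fun hker => ?_
  obtain ⟨p⟩ : Nonempty M := inferInstance
  obtain ⟨k, v, hv, hsp⟩ := exists_span (n := n) p
  have hbd := bounded_sublevel hS hric hI hd hK hcov p hv hsp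
  set ρ : M → ℝ := fun x => ∑ i, v i x * v i x with hρ
  have hρs : Sm n M ρ := contMDiff_finsetSum fun i _ => (hv i).1.mul (hv i).1
  obtain ⟨R, hR⟩ := hK.exists_bound_of_continuousOn hρs.continuous.continuousOn
  set φ : ℝ → ℝ := fun t => expNegInvGlue (R + 1 - t) with hφ
  have hφs : ContDiff ℝ ∞ φ := expNegInvGlue.contDiff.comp (contDiff_const.sub contDiff_id)
  set Q : M → ℝ := fun x => φ (ρ x) with hQ
  have hQs : Sm n M Q := hφs.contMDiff.comp hρs
  have hQ0 : ∀ x, 0 ≤ Q x := fun x => expNegInvGlue.nonneg _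
  have hQK : ∀ x ∈ K, 0 < Q x := fun x hx =>
    expNegInvGlue.pos_of_pos (by linarith [(le_abs_self _).trans (hR x hx)])
  have hQc : HasCompactSupport Q := by
    refine HasCompactSupport.intro (hbd (R + 2)).isCompact_closure fun x hx => ?_
    refine expNegInvGlue.zero_of_nonpos (not_lt.1 fun h => hx (subset_closure fun i => ?_))
    have h1 : v i x * v i x ≤ ρ x := Finset.single_le_sum (f := fun i => v i x * v i x)
      (fun i _ => mul_self_nonneg _) (Finset.mem_univ i)
    rw [← abs_mul_abs_self] at h1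
    nlinarith [abs_nonneg (v i x), sq_nonneg (|v i x| - 1)]
  have hloc : ∀ x : M, ∃ T : Finset Γ, ∀ y ∈ ball x 1,
      (Function.support fun g : Γ => Q (g • y)) ⊆ T := fun x => by
    have hf := hfin _ (hQc.isCompact.union (isCompact_closedBall x 1))
    refine ⟨hf.toFinset, fun y hy g hg => ?_⟩
    rw [Finite.coe_toFinset]
    exact ⟨y, Or.inr (ball_subset_closedBall hy), Or.inl (subset_tsupport _ hg)⟩
  set D : M → ℝ := fun x => ∑ᶠ g : Γ, Q (g • x) with hD
  have hDl : ∀ x : M, ∃ T : Finset Γ, D =ᶠ[𝓝 x] fun y => ∑ g ∈ T, Q (g • y) := fun x => by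
    obtain ⟨T, hT⟩ := hloc x
    refine ⟨T, ?_⟩
    filter_upwards [ball_mem_nhds x one_pos] with y hy
    exact finsum_eq_sum_of_support_subset _ (hT y hy)
  have hfs : ∀ x : M, (Function.support fun g : Γ => Q (g • x)).Finite := fun x => by
    obtain ⟨T, hT⟩ := hloc x
    exact T.finite_toSet.subset (hT x (mem_ball_self one_pos))
  have hDp : ∀ x, 0 < D x := fun x => by
    obtain ⟨g, hg⟩ := hcov x
    exact finsum_pos (fun g => hQ0 _) ⟨g, hQK _ hg⟩ (hfs x)
  have hDi : ∀ (h : Γ) (x : M), D (h • x) = D x := fun h x => by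
    simp only [hD, ← mul_smul]
    exact finsum_comp_equiv (Equiv.mulRight h) (f := fun g => Q (g • x))
  have hDs : Sm n M D := fun x => by
    obtain ⟨T, hT⟩ := hDl x
    exact (contMDiff_finsetSum (fun g _ => hQs.comp (hsm g)) x).congr_of_eventuallyEq hT
  refine ⟨fun x => Q x * (D x)⁻¹, hQs.mul (hDs.inv₀ fun x => (hDp x).ne'), hQc.mul_right,
    fun x => mul_nonneg (hQ0 x) (inv_nonneg.2 (hDp x).le), fun x => ?_, fun x => ?_⟩
  · simp only [hDi]
    rw [← finsum_mul' _ _ (hfs x)]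
    exact mul_inv_cancel₀ (hDp x).ne'
  · obtain ⟨w, hw0, hw⟩ := hker x
    refine ⟨w, hw0, fun g => ?_⟩
    have h1 : ∀ (g : Γ) i, Kl x w fun y => v i (g • y) := fun g i =>
      ⟨((hI g).aff (hv i)).1.md x, by rw [inner_mgrad]; exact hw _ ((hI g).aff (hv i))⟩
    have h2 : ∀ g : Γ, Kl x w fun y => Q (g • y) := fun g =>
      (Kl.sum Finset.univ fun i => (h1 g i).mul (h1 g i)).comp (hφs.differentiable (by simp) _)
    obtain ⟨T, hT⟩ := hDl x
    have h3 : Kl x w D := (Kl.sum T h2).congr hT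
    have h4 := (h2 g).mul (h3.comp (differentiableAt_inv (hDp x).ne'))
    rw [← inner_mgrad]
    exact (h4.congr (Eventually.of_forall fun y => by simp only [hDi])).2

end Crest.Agent.N222.D
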