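import Crest.Agent.N222.D.Defs

/-!
# Row 222, part D: local isometries of Riemannian manifolds (helper55)
-/

set_option autoImplicit false
set_option linter.unusedSectionVars false

open Set Filter Topology Bundle
open scoped ContDiff Manifold
open Crest.GeometryTopology.CoordMetric Crest.GeometryTopology.ChartCurvature
  Crest.GeometryTopology.PointedLimit
open Crest.Agent.R202.Tens Crest.Agent.R247.Bo84 Crest.Agent.R273.RMan_798

noncomputable section

namespace Crest.Agent.N222.D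

variable {n : ℕ} {M : Type} [TopologicalSpace M] [ChartedSpace (EE n) M] [IsManifold (𝓡 n) ∞ M]
  [RiemannianBundle (fun x : M => TangentSpace (𝓡 n) x)]
  [IsContMDiffRiemannianBundle (𝓡 n) ∞ (EE n) (fun x : M => TangentSpace (𝓡 n) x)]
  {M' : Type} [TopologicalSpace M'] [ChartedSpace (EE n) M'] [IsManifold (𝓡 n) ∞ M']
  [RiemannianBundle (fun x : M' => TangentSpace (𝓡 n) x)]
  [IsContMDiffRiemannianBundle (𝓡 n) ∞ (EE n) (fun x : M' => TangentSpace (𝓡 n) x)]

variable (n) in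
/-- smooth local isometries -/
structure LocIso (F : M → M') : Prop where
  sm : ContMDiff (𝓡 n) (𝓡 n) ∞ F
  norm : ∀ (x : M) (v : TangentSpace (𝓡 n) x), ‖mfderiv (𝓡 n) (𝓡 n) F x v‖ = ‖v‖

/-- a map read in charts -/
def trF (n : ℕ) {M M' : Type} [TopologicalSpace M] [ChartedSpace (EE n) M] [TopologicalSpace M']
    [ChartedSpace (EE n) M'] (F : M → M') (x₀ : M) (x₁ : M') (y : EE n) : EE n :=
  chartAt (EE n) x₁ (F ((chartAt (EE n) x₀).symm y))

/-- its domain -/
def tdF (n : ℕ) {M M' : Type} [TopologicalSpace M] [ChartedSpace (EE n) M] [TopologicalSpace M']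
    [ChartedSpace (EE n) M'] (F : M → M') (x₀ : M) (x₁ : M') : Set (EE n) :=
  (chartAt (EE n) x₀).target ∩ (chartAt (EE n) x₀).symm ⁻¹' (F ⁻¹' (chartAt (EE n) x₁).source)

variable {F : M → M'}

theorem LocIso.inner (h : LocIso n F) (x : M) (v w : TangentSpace (𝓡 n) x) :
    (inner ℝ (mfderiv (𝓡 n) (𝓡 n) F x v) (mfderiv (𝓡 n) (𝓡 n) F x w) : ℝ) = inner ℝ v w := by
  rw [real_inner_eq_norm_add_mul_self_sub_norm_mul_self_sub_norm_mul_self_div_two,
    real_inner_eq_norm_add_mul_self_sub_norm_mul_self_sub_norm_mul_self_div_two v w,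
    ← map_add, h.norm, h.norm, h.norm]

theorem LocIso.md (h : LocIso n F) (x : M) : MDifferentiableAt (𝓡 n) (𝓡 n) F x :=
  (h.sm x).mdifferentiableAt (by simp)

theorem LocIso.fderiv_trF (h : LocIso n F) {x₀ : M} {x₁ : M'} {y : EE n} (hy : y ∈ tdF n F x₀ x₁)
    (u : EE n) : fderiv ℝ (trF n F x₀ x₁) y u = dCh x₁ (F ((chartAt (EE n) x₀).symm y))
      (mfderiv (𝓡 n) (𝓡 n) F ((chartAt (EE n) x₀).symm y) (dSy x₀ y u)) := by
  have h1 : MDifferentiableAt (𝓡 n) (𝓡 n) (chartAt (EE n) x₀).symm y :=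
    (mdifferentiable_chart (I := 𝓡 n) x₀).mdifferentiableAt_symm hy.1
  have h2 : MDifferentiableAt (𝓡 n) (𝓡 n) (chartAt (EE n) x₁) (F ((chartAt (EE n) x₀).symm y)) :=
    (mdifferentiable_chart (I := 𝓡 n) x₁).mdifferentiableAt hy.2
  have h3 := mfderiv_comp y (h.md _) h1
  have h4 := mfderiv_comp y h2 ((h.md _).comp y h1)
  have h5 : fderiv ℝ (trF n F x₀ x₁) y = mfderiv (𝓡 n) (𝓡 n)
      ((chartAt (EE n) x₁) ∘ (F ∘ (chartAt (EE n) x₀).symm)) y := by
    rw [mfderiv_eq_fderiv]; rfl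
  rw [h5, h4, h3]
  rfl

theorem LocIso.pull (h : LocIso n F) (x₀ : M) (x₁ : M') :
    Pull (chartMetric n M x₀) (chartMetric n M' x₁) (trF n F x₀ x₁) (tdF n F x₀ x₁)
      (chartAt (EE n) x₁).target := by
  have key : ∀ y ∈ tdF n F x₀ x₁, ∀ u v, bil (chartMetric n M' x₁ (trF n F x₀ x₁ y))
      (fderiv ℝ (trF n F x₀ x₁) y u) (fderiv ℝ (trF n F x₀ x₁) y v) =
      bil (chartMetric n M x₀ y) u v := by
    intro y hy u v
    rw [h.fderiv_trF hy, h.fderiv_trF hy, bil_chartMetric x₀]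
    exact (inner_eq_bil x₁ hy.2 _ _).symm.trans (h.inner _ _ _)
  refine ⟨(chartAt (EE n) x₀).isOpen_inter_preimage_symm
    ((chartAt (EE n) x₁).open_source.preimage h.sm.continuous), isRiemannianOn_chartMetric x₁,
    fun y hy => (chartAt (EE n) x₁).map_source hy.2, ?_, fun y hy i j => ?_, fun y hy => ?_⟩
  · rw [← contMDiffOn_iff_contDiffOn]
    have h1 : ContMDiffOn (𝓡 n) (𝓡 n) ∞ (chartAt (EE n) x₀).symm (chartAt (EE n) x₀).target :=
      contMDiffOn_chart_symm
    have h2 : ContMDiffOn (𝓡 n) (𝓡 n) ∞ (chartAt (EE n) x₁) (chartAt (EE n) x₁).source :=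
      contMDiffOn_chart
    exact h2.comp (h.sm.comp_contMDiffOn (h1.mono inter_subset_left)) fun y hy => hy.2
  · rw [← bil_apply, key y hy, bil_apply]
    simp
  · rw [injective_iff_map_eq_zero]
    intro u hu
    have h1 := key y hy u u
    rw [hu, map_zero, bil_chartMetric] at h1
    refine dSy_injective hy.1 ?_
    rw [map_zero]
    exact (inner_self_eq_zero (𝕜 := ℝ)
      (E := TangentSpace (𝓡 n) ((chartAt (EE n) x₀).symm y))).1 h1.symm

theorem symm_centre (p : M) : (chartAt (EE n) p).symm (chartCentre n M p) = p :=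
  (chartAt (EE n) p).left_inv (mem_chart_source (EE n) p)

theorem centre_tdF (F : M → M') (p : M) : chartCentre n M p ∈ tdF n F p (F p) :=
  ⟨centre_mem p, by rw [mem_preimage, symm_centre]; exact mem_chart_source (EE n) (F p)⟩

theorem trF_centre (F : M → M') (p : M) :
    trF n F p (F p) (chartCentre n M p) = chartCentre n M' (F p) := by
  rw [trF, symm_centre]; rfl

theorem LocIso.inCh (h : LocIso n F) (f : M' → ℝ) (p : M) :
    inCh n p (fun x => f (F x)) =ᶠ[𝓝 (chartCentre n M p)]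
      fun y => inCh n (F p) f (trF n F p (F p) y) := by
  filter_upwards [(h.pull p (F p)).isOpen.mem_nhds (centre_tdF F p)] with y hy
  simp only [R247.Bo84.inCh, trF, (chartAt (EE n) (F p)).left_inv hy.2]

theorem LocIso.mHessSq (h : LocIso n F) {f : M' → ℝ} (hf : Sm n M' f) (p : M) :
    mHessSq n (fun x => f (F x)) p = mHessSq n f (F p) := by
  rw [R247.Bo84.mHessSq, hessSq_congr (h.inCh f p), hessSq_pull (h.pull p (F p)) (centre_tdF F p)
    (by rw [trF_centre]; exact contDiffAt_centre two_le_infty ((hf _).of_le two_le_infty)),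
    trF_centre]
  rfl

theorem LocIso.ricci (h : LocIso n F) {K : ℝ} (hK : HasRicciLowerBound n M' K) :
    HasRicciLowerBound n M K := by
  intro p v
  rw [(h.pull p (F p)).ricci_pull (centre_tdF F p), (h.pull p (F p)).quadForm_pull (centre_tdF F p),
    trF_centre]
  exact hK _ _

theorem LocIso.flat (h : LocIso n F) (hs : Function.Surjective F) (hM : Flat n M) : Flat n M' := by
  intro q X Y Z
  obtain ⟨p, rfl⟩ := hs q
  have hP := h.pull p (F p)
  obtain ⟨X, rfl⟩ := hP.surj (centre_tdF F p) X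
  obtain ⟨Y, rfl⟩ := hP.surj (centre_tdF F p) Y
  obtain ⟨Z, rfl⟩ := hP.surj (centre_tdF F p) Z
  rw [← trF_centre, ← hP.curv_eq (centre_tdF F p), hM, map_zero]

theorem LocIso.norm_mgrad (h : LocIso n F) {f : M' → ℝ} (hf : Sm n M' f) (p : M) :
    ‖mgrad n (fun x => f (F x)) p‖ ≤ ‖mgrad n f (F p)‖ := by
  set u := mgrad n (fun x => f (F x)) p with hu
  have h1 : ‖u‖ * ‖u‖ ≤ ‖mgrad n f (F p)‖ * ‖u‖ := by
    rw [← real_inner_self_eq_norm_mul_norm, ← h.norm p u]
    refine le_trans (le_of_eq ?_) (real_inner_le_norm _ _)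
    nth_rw 1 [hu]
    rw [inner_mgrad, inner_mgrad]
    exact congrArg (fun L : TangentSpace (𝓡 n) p →L[ℝ] ℝ => L u)
      (mfderiv_comp p ((hf (F p)).mdifferentiableAt (by simp)) (h.md p))
  rcases (norm_nonneg u).eq_or_lt with h0 | h0
  · rw [← h0]; exact norm_nonneg _
  · exact le_of_mul_le_mul_right h1 h0

end Crest.Agent.N222.D
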