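import Crest.Agent.N222.D.Aff

/-!
# Row 222, part D: the affine coordinates are proper (helper55)
-/

set_option autoImplicit false
set_option linter.unusedSectionVars false

open Set Filter Topology Bundle Metric
open scoped ContDiff Manifold
open Crest.GeometryTopology.CoordMetric Crest.GeometryTopology.ChartCurvature
  Crest.GeometryTopology.PointedLimit
open Crest.Agent.R202.Tens Crest.Agent.R247.Bo84 Crest.Agent.R273.RMan_798 Crest.Agent.R247
open Crest.Agent.R247.Ray97

noncomputable section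

namespace Crest.Agent.N222.D

/-- limits of longer and longer minimisers -/
theorem exists_line {X : Type*} [MetricSpace X] [ProperSpace X] (γ : ℕ → ℝ → X) (p : X) (r : ℝ)
    (h0 : ∀ j, dist (γ j 0) p ≤ r)
    (hγ : ∀ (j : ℕ) (s t : ℝ), |s| ≤ j → |t| ≤ j → dist (γ j s) (γ j t) = |s - t|) :
    ∃ c : ℝ → X, (∀ s t, dist (c s) (c t) = |s - t|) ∧
      ∀ t, Tendsto (fun j => γ j t) (hyperfilter ℕ) (𝓝 (c t)) := by
  have hU : (hyperfilter ℕ : Filter ℕ) ≤ atTop := Nat.hyperfilter_le_atTop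
  have hev : ∀ t : ℝ, ∀ᶠ j : ℕ in (hyperfilter ℕ : Filter ℕ), |t| ≤ j := fun t =>
    hU (tendsto_natCast_atTop_atTop.eventually (eventually_ge_atTop |t|))
  have key : ∀ t, ∃ a, Tendsto (fun j => γ j t) (hyperfilter ℕ) (𝓝 a) := fun t => by
    obtain ⟨a, -, ha⟩ := (isCompact_closedBall p (|t| + r)).ultrafilter_le_nhds
      ((hyperfilter ℕ).map fun j => γ j t) (by
        rw [Ultrafilter.coe_map, le_principal_iff, mem_map]
        filter_upwards [hev t] with j hj
        have h1 := hγ j t 0 hj (by simp)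
        rw [sub_zero] at h1
        exact mem_closedBall.2 ((dist_triangle _ (γ j 0) _).trans (by linarith [h0 j])))
    exact ⟨a, ha⟩
  choose c hc using key
  refine ⟨c, fun s t => tendsto_nhds_unique ((hc s).dist (hc t)) (tendsto_const_nhds.congr' ?_), hc⟩
  filter_upwards [hev s, hev t] with j hs ht using (hγ j s t hs ht).symm

variable {n : ℕ} {M : Type} [MetricSpace M] [CompleteSpace M] [ConnectedSpace M]
  [ChartedSpace (EE n) M] [IsManifold (𝓡 n) ∞ M]
  [RiemannianBundle (fun x : M => TangentSpace (𝓡 n) x)]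
  [IsContMDiffRiemannianBundle (𝓡 n) ∞ (EE n) (fun x : M => TangentSpace (𝓡 n) x)]
  [IsRiemannianManifold (𝓡 n) M]

variable (n) in
include n in
theorem exists_ray {x y : M} (h : 0 < dist x y) :
    ∃ c : ℝ → M, IsRay x c 1 (dist x y) ∧ c (dist x y) = y := by
  obtain ⟨γ, h0, h1, hγ⟩ := HR216.exists_geodesic_of_riemannian n x y
  refine ⟨fun t => γ (t / dist x y), ⟨one_pos, h, by simpa using h0, fun s hs t ht => ?_⟩,
    by simpa [div_self h.ne'] using h1⟩
  rw [hγ _ ⟨div_nonneg hs.1 h.le, (div_le_one h).2 hs.2⟩ _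
    ⟨div_nonneg ht.1 h.le, (div_le_one h).2 ht.2⟩, ← sub_div, abs_div, abs_of_pos h]
  field_simp

theorem bounded_sublevel (hS : SplitStmt) {Γ : Type} [Group Γ] [MulAction Γ M]
    (hric : HasRicciLowerBound n M 0) (hI : ∀ g : Γ, LocIso n fun x : M => g • x)
    (hd : ∀ (g : Γ) (x y : M), dist (g • x) (g • y) = dist x y) {K : Set M} (hK : IsCompact K)
    (hcov : ∀ x : M, ∃ g : Γ, g • x ∈ K) (p : M) {k : ℕ} {v : Fin k → M → ℝ}
    (hv : ∀ i, v i ∈ Aff n M) (hsp : ∀ w ∈ Aff n M, ∃ c : Fin k → ℝ,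
      (∀ i, |c i| ≤ ‖mgrad n w p‖) ∧ ∀ x y, w x - w y = ∑ i, c i * (v i x - v i y)) (R : ℝ) :
    Bornology.IsBounded {x | ∀ i, |v i x| ≤ R} := by
  have := HR216.properSpace_of_riemannian n M
  by_contra hb
  rw [isBounded_iff_subset_closedBall p] at hb
  have h1 : ∀ j : ℕ, ∃ x, (∀ i, |v i x| ≤ R) ∧ 2 * (j + 1 : ℝ) < dist p x := fun j => by
    by_contra h
    push Not at h
    exact hb ⟨_, fun x hx => by rw [mem_closedBall, dist_comm]; exact h x hx⟩
  choose x hx hL using h1
  have hpos : ∀ j, 0 < dist p (x j) := fun j => lt_trans (by positivity) (hL j)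
  choose c hc hcx using fun j => exists_ray n (hpos j)
  choose g hg using fun j => hcov (c j (dist p (x j) / 2))
  obtain ⟨r, hr⟩ := hK.isBounded.subset_closedBall p
  have hmem : ∀ (j : ℕ) (t : ℝ), |t| ≤ j + 1 → dist p (x j) / 2 + t ∈ Icc 0 (dist p (x j)) :=
    fun j t ht => ⟨by linarith [hL j, neg_abs_le t], by linarith [hL j, le_abs_self t]⟩
  obtain ⟨γ, hγ, hlim⟩ := exists_line (fun j t => g j • c j (dist p (x j) / 2 + t)) p r
    (fun j => by simpa using hr (hg j)) fun j s t hs ht => by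
      rw [hd, (hc j).dist' _ (hmem j s (by linarith)) _ (hmem j t (by linarith)), one_mul]
      congr 1; ring
  obtain ⟨b, hbs, hbh, hbγ⟩ := hS n M hric γ hγ
  have hba := aff_of_sq hbs hbh
  set D := ∑ i, ‖mgrad n b p‖ * (R + |v i p|) with hD
  have h2 : ∀ j : ℕ, b (g j • c j (dist p (x j) / 2 + 1)) - b (g j • c j (dist p (x j) / 2 + 0)) ≤
      D / (j + 1 : ℝ) := fun j => by
    obtain ⟨a, ha, ha'⟩ := hsp _ ((hI (g j)).aff hba)
    have hj : (0 : ℝ) ≤ j := Nat.cast_nonneg j
    rw [ha', hD, Finset.sum_div]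
    refine Finset.sum_le_sum fun i _ => (le_abs_self _).trans ?_
    rw [aff_ray (hv i) (hc j) (hmem j 0 (by simp; linarith)) (hmem j 1 (by simp)), hcx, abs_mul,
      abs_mul, mul_div_assoc]
    refine mul_le_mul ((ha i).trans (((hI (g j)).norm_mgrad hbs p).trans
      (norm_const hba _ p).le)) ?_ (by positivity) (norm_nonneg _)
    rw [show dist p (x j) / 2 + 1 - (dist p (x j) / 2 + 0) = 1 by ring,
      abs_of_pos (one_div_pos.2 (hpos j)), div_eq_inv_mul (R + _)]
    refine mul_le_mul ?_ ((abs_sub _ _).trans (by linarith [hx j i])) (abs_nonneg _)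
      (by positivity)
    rw [one_div]
    exact inv_anti₀ (by positivity) (by linarith [hL j])
  have h3 := ((hbs.continuous.tendsto _).comp (hlim 1)).sub ((hbs.continuous.tendsto _).comp (hlim 0))
  have h4 : Tendsto (fun j : ℕ => D / (j + 1 : ℝ)) (hyperfilter ℕ) (𝓝 0) :=
    (tendsto_const_nhds.div_atTop (tendsto_atTop_add_const_right _ 1
      tendsto_natCast_atTop_atTop)).mono_left Nat.hyperfilter_le_atTop
  have h5 := le_of_tendsto_of_tendsto' h3 h4 h2
  rw [hbγ, hbγ] at h5
  norm_num at h5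

end Crest.Agent.N222.D
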