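import Crest.Agent.N222.D.Defs

/-!
# Row 222, part D: the exact Palatini identity (helper91)
-/

set_option autoImplicit false

open Set Filter Topology
open scoped ContDiff
open Crest.GeometryTopology.CoordMetric Crest.GeometryTopology.ChartCurvature
open Crest.Agent.R202.Tens Crest.Agent.R247.Bo84 Crest.Agent.R273.RMan_798

noncomputable section

namespace Crest.Agent.N222.D

namespace Pal

section Alg
variable {ι : Type} [Fintype ι]

/-- reindexing of a fourfold sum -/
theorem sum4 {f g : ι → ι → ι → ι → ℝ} (e e' : ι × ι × ι × ι → ι × ι × ι × ι)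
    (h1 : ∀ p, e' (e p) = p) (h2 : ∀ p, e (e' p) = p)
    (h : ∀ p : ι × ι × ι × ι, f p.1 p.2.1 p.2.2.1 p.2.2.2 =
      g (e p).1 (e p).2.1 (e p).2.2.1 (e p).2.2.2) :
    ∑ a, ∑ b, ∑ c, ∑ d, f a b c d = ∑ a, ∑ b, ∑ c, ∑ d, g a b c d := by
  have := Fintype.sum_equiv ⟨e, e', h1, h2⟩ (fun p => f p.1 p.2.1 p.2.2.1 p.2.2.2)
    (fun p => g p.1 p.2.1 p.2.2.1 p.2.2.2) h
  simpa only [Fintype.sum_prod_type] using this

theorem alg (I : ι → ι → ℝ) (C D dI : ι → ι → ι → ℝ) (dD : ι → ι → ι → ι → ℝ)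
    (hI : ∀ i j, I i j = I j i) (hC : ∀ k i j, C k i j = C k j i) (hD : ∀ k i j, D k i j = D k j i)
    (hdI : ∀ k i j, dI k i j = -∑ l, (C i k l * I l j + C j k l * I i l)) :
    ∑ i, ∑ j, I i j * (∑ k, dD k k i j - ∑ k, dD j k k i
      + (∑ k, ∑ l, D k k l * C l i j + ∑ k, ∑ l, C k k l * D l i j - ∑ k, ∑ l, D k k l * D l i j)
      - (∑ k, ∑ l, D k j l * C l k i + ∑ k, ∑ l, C k j l * D l k i - ∑ k, ∑ l, D k j l * D l k i))
    = (∑ k, (∑ i, ∑ j, (dI k i j * D k i j + I i j * dD k k i j)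
          - ∑ i, (dI k i k * ∑ l, D l l i + I i k * ∑ l, dD k l l i))
        + ∑ k, (∑ l, C l l k) * (∑ i, ∑ j, I i j * D k i j - ∑ i, I i k * ∑ l, D l l i))
      + ∑ i, ∑ j, I i j * (∑ k, ∑ l, D k j l * D l k i - ∑ k, ∑ l, D k k l * D l i j) := by
  have T1 : ∑ i, ∑ j, I i j * ∑ k, dD k k i j = ∑ k, ∑ i, ∑ j, I i j * dD k k i j := by
    simp only [Finset.mul_sum]
    exact (Finset.sum_congr rfl fun i _ => Finset.sum_comm).trans Finset.sum_comm
  have T2 : ∑ i, ∑ j, I i j * ∑ k, dD j k k i = ∑ k, ∑ i, I i k * ∑ l, dD k l l i :=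
    Finset.sum_comm
  have T3 : ∑ k, ∑ i, dI k i k * ∑ l, D l l i = -(∑ i, ∑ j, I i j * ∑ k, ∑ l, D k k l * C l i j)
      - ∑ k, (∑ l, C l l k) * ∑ i, I i k * ∑ l, D l l i := by
    have a1 : ∑ k, ∑ i, ∑ m, ∑ l, C i k l * I l k * D m m i =
        ∑ i, ∑ j, ∑ k, ∑ l, I i j * (D k k l * C l i j) :=
      sum4 (fun p => (p.1, p.2.2.2, p.2.2.1, p.2.1)) (fun p => (p.1, p.2.2.2, p.2.2.1, p.2.1))
        (fun _ => rfl) (fun _ => rfl) fun p => by rw [hI p.1]; ring
    have a2 : ∑ k, ∑ i, ∑ m, ∑ l, C k k l * I i l * D m m i =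
        ∑ k, ∑ i, ∑ m, ∑ l, C l l k * (I i k * D m m i) :=
      sum4 (fun p => (p.2.2.2, p.2.1, p.2.2.1, p.1)) (fun p => (p.2.2.2, p.2.1, p.2.2.1, p.1))
        (fun _ => rfl) (fun _ => rfl) fun p => by ring
    simp only [hdI, Finset.mul_sum, Finset.sum_mul, neg_mul, add_mul, Finset.sum_add_distrib,
      Finset.sum_neg_distrib]
    rw [a1, a2]
    ring
  have T4 : ∑ i, ∑ j, I i j * ∑ k, ∑ l, C k k l * D l i j =
      ∑ k, (∑ l, C l l k) * ∑ i, ∑ j, I i j * D k i j := by
    simp only [Finset.mul_sum, Finset.sum_mul]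
    exact sum4 (fun p => (p.2.2.2, p.1, p.2.1, p.2.2.1)) (fun p => (p.2.1, p.2.2.1, p.2.2.2, p.1))
      (fun _ => rfl) (fun _ => rfl) fun p => by ring
  have T5 : ∑ k, ∑ i, ∑ j, dI k i j * D k i j =
      -(∑ i, ∑ j, I i j * ∑ k, ∑ l, D k j l * C l k i)
        - ∑ i, ∑ j, I i j * ∑ k, ∑ l, C k j l * D l k i := by
    have a1 : ∑ k, ∑ i, ∑ j, ∑ l, C i k l * I l j * D k i j =
        ∑ i, ∑ j, ∑ k, ∑ l, I i j * (D k j l * C l k i) :=
      sum4 (fun p => (p.2.2.2, p.2.2.1, p.1, p.2.1)) (fun p => (p.2.2.1, p.2.2.2, p.2.1, p.1))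
        (fun _ => rfl) (fun _ => rfl) fun p => by rw [hD p.1 p.2.1]; ring
    have a2 : ∑ k, ∑ i, ∑ j, ∑ l, C j k l * I i l * D k i j =
        ∑ i, ∑ j, ∑ k, ∑ l, I i j * (C k j l * D l k i) :=
      sum4 (fun p => (p.2.1, p.2.2.2, p.2.2.1, p.1)) (fun p => (p.2.2.2, p.1, p.2.2.1, p.2.1))
        (fun _ => rfl) (fun _ => rfl) fun p => by rw [hD p.1 p.2.1, hC p.2.2.1 p.1]; ring
    simp only [hdI, Finset.mul_sum, Finset.sum_mul, neg_mul, add_mul, Finset.sum_add_distrib,
      Finset.sum_neg_distrib]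
    rw [a1, a2]
    ring
  simp only [mul_add, mul_sub, Finset.sum_add_distrib, Finset.sum_sub_distrib]
  rw [T1, T2, T3, T4, T5]
  ring

end Alg

variable {n : ℕ} {g g' : MetricField n} {U : Set (EE n)} {x : EE n}

theorem pd_sum {ι : Type} [Fintype ι] {f : ι → EE n → ℝ} (hf : ∀ i, DifferentiableAt ℝ (f i) x)
    (k : Fin n) : pderiv k (fun y => ∑ i, f i y) x = ∑ i, pderiv k (f i) x := by
  unfold pderiv
  rw [fderiv_fun_sum fun i _ => hf i, sum_apply]

theorem pd_sub {f h : EE n → ℝ} (hf : DifferentiableAt ℝ f x) (hh : DifferentiableAt ℝ h x)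
    (k : Fin n) : pderiv k (fun y => f y - h y) x = pderiv k f x - pderiv k h x := by
  unfold pderiv
  rw [fderiv_fun_sub hf hh, sub_apply]

theorem pd_mul {f h : EE n → ℝ} (hf : DifferentiableAt ℝ f x) (hh : DifferentiableAt ℝ h x)
    (k : Fin n) : pderiv k (fun y => f y * h y) x = pderiv k f x * h x + f x * pderiv k h x := by
  unfold pderiv
  rw [fderiv_fun_mul hf hh]
  simp only [add_apply, smul_apply, smul_eq_mul]
  ring

theorem diff_inv (hg : IsRiemannianOn g U) (hx : x ∈ U) (i j : Fin n) :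
    DifferentiableAt ℝ (fun y => inverseField g y i j) x :=
  ((contDiffOn_inv_entry hg i j).contDiffAt (hg.isOpen.mem_nhds hx)).differentiableAt (by simp)

/-- the derivative of the inverse metric -/
theorem pd_inv (hg : IsRiemannianOn g U) (hx : x ∈ U) (k i j : Fin n) :
    pderiv k (fun y => inverseField g y i j) x = -∑ l, (christoffel g x i k l * inverseField g x l j
      + christoffel g x j k l * inverseField g x i l) := by
  have hu : ∀ y ∈ U, IsUnit (g y).det := fun y hy => (det_pos hg hy).ne'.isUnit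
  set dG : Matrix (Fin n) (Fin n) ℝ := Matrix.of fun a b => pderiv k (fun y => g y a b) x
  set dI : Matrix (Fin n) (Fin n) ℝ := Matrix.of fun a b => pderiv k (fun y => inverseField g y a b) x
  set C : Matrix (Fin n) (Fin n) ℝ := Matrix.of fun a b => christoffel g x a k b
  have h1 : dG * (g x)⁻¹ + g x * dI = 0 := by
    ext a b
    have e : (fun y => ∑ c, g y a c * inverseField g y c b) =ᶠ[𝓝 x]
        fun _ => (1 : Matrix (Fin n) (Fin n) ℝ) a b := by
      filter_upwards [hg.isOpen.mem_nhds hx] with y hy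
      rw [← Matrix.mul_nonsing_inv _ (hu y hy), Matrix.mul_apply]
      rfl
    have h0 : pderiv k (fun y => ∑ c, g y a c * inverseField g y c b) x = 0 := by
      unfold pderiv
      rw [e.fderiv_eq]
      simp
    rw [pd_sum (fun c => (differentiableAt_entry hg hx a c).fun_mul (diff_inv hg hx c b))] at h0
    simp only [pd_mul (differentiableAt_entry hg hx a _) (diff_inv hg hx _ b),
      Finset.sum_add_distrib] at h0
    exact h0
  have hT : (g x).transpose = g x := by
    ext a b; exact metric_symm hg hx b a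
  have h2 : dG = C.transpose * g x + g x * C := by
    ext a b
    have e1 := sum_g_christoffel (hu x hx) b k a
    have e2 := sum_g_christoffel (hu x hx) a k b
    have e3 : (C.transpose * g x) a b = ∑ c, g x b c * christoffel g x c k a := by
      rw [Matrix.mul_apply]
      exact Finset.sum_congr rfl fun c _ => by rw [metric_symm hg hx b c, mul_comm]; rfl
    have e4 : (g x * C) a b = ∑ c, g x a c * christoffel g x c k b := rfl
    rw [Matrix.add_apply, e3, e4, e1, e2, low, low, pderiv_metric_symm hg hx k b a]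
    change pderiv k (fun y => g y a b) x = _
    ring
  have h3 : dI = -(C * (g x)⁻¹ + (g x)⁻¹ * C.transpose) := by
    have e := congrArg ((g x)⁻¹ * ·) h1
    simp only [Matrix.mul_add, h2, Matrix.add_mul, ← Matrix.mul_assoc,
      Matrix.nonsing_inv_mul _ (hu x hx), Matrix.one_mul, Matrix.mul_zero] at e
    rw [Matrix.mul_assoc _ (g x), Matrix.mul_nonsing_inv _ (hu x hx), Matrix.mul_one] at e
    rw [eq_neg_iff_add_eq_zero, ← e]
    abel
  have := congrFun (congrFun h3 i) j
  simp only [Matrix.neg_apply, Matrix.add_apply, Matrix.mul_apply] at this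
  rw [Finset.sum_add_distrib]
  refine this.trans (congrArg Neg.neg (congrArg₂ (· + ·) rfl
    (Finset.sum_congr rfl fun l _ => mul_comm _ _)))

theorem divg_eq (hg : IsRiemannianOn g U) (hx : x ∈ U) {V : EE n → EE n}
    (hV : ∀ i, DifferentiableAt ℝ (fun y => V y i) x) :
    divg g V x = ∑ k, pderiv k (fun y => V y k) x + ∑ k, (∑ l, christoffel g x l l k) * V x k := by
  have hs : DifferentiableAt ℝ (fun y => Real.sqrt (g y).det) x :=
    (contDiffAt_sqrt_det hg hx).differentiableAt (by simp)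
  have hne : Real.sqrt (g x).det ≠ 0 := (Real.sqrt_pos.2 (det_pos hg hx)).ne'
  rw [divg, ← Finset.sum_add_distrib, Finset.mul_sum]
  refine Finset.sum_congr rfl fun k _ => ?_
  rw [pd_mul hs (hV k), pderiv_sqrt_det hg hx]
  field_simp
  ring

end Pal

open Pal in
/-- the exact Palatini identity -/
theorem pal : PalStmt := by
  intro n g g' U hg hg' x hx
  have dC := differentiableAt_christoffel hg hx
  have dC' := differentiableAt_christoffel hg' hx
  have dD : ∀ k i j, DifferentiableAt ℝ (fun y => dG g g' y k i j) x :=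
    fun k i j => (dC' k i j).sub (dC k i j)
  have dI := diff_inv hg' hx
  have d1 : ∀ k i j, DifferentiableAt ℝ (fun y => inverseField g' y i j * dG g g' y k i j) x :=
    fun k i j => (dI i j).mul (dD k i j)
  have d2 : ∀ i, DifferentiableAt ℝ (fun y => ∑ l, dG g g' y l l i) x :=
    fun i => DifferentiableAt.fun_sum fun l _ => dD l l i
  have d3 : ∀ k i, DifferentiableAt ℝ (fun y => ∑ j, inverseField g' y i j * dG g g' y k i j) x :=
    fun k i => DifferentiableAt.fun_sum fun j _ => d1 k i j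
  have d4 : ∀ k i, DifferentiableAt ℝ (fun y => inverseField g' y i k * ∑ l, dG g g' y l l i) x :=
    fun k i => (dI i k).mul (d2 i)
  have d5 := fun k => DifferentiableAt.fun_sum (u := Finset.univ) fun i _ => d3 k i
  have d6 := fun k => DifferentiableAt.fun_sum (u := Finset.univ) fun i _ => d4 k i
  have hV : ∀ k, (fun y => palV g g' y k) = fun y => ∑ i, ∑ j, inverseField g' y i j *
      dG g g' y k i j - ∑ i, inverseField g' y i k * ∑ l, dG g g' y l l i := fun _ => rfl
  have key := alg (inverseField g' x) (christoffel g' x) (dG g g' x)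
    (fun k i j => pderiv k (fun y => inverseField g' y i j) x)
    (fun l k i j => pderiv l (fun y => dG g g' y k i j) x) (inv_symm hg' hx)
    (christoffel_symm hg' hx)
    (fun k i j => by rw [dG, dG, christoffel_symm hg hx, christoffel_symm hg' hx]) (pd_inv hg' hx)
  have e1 : ∀ k, pderiv k (fun y => palV g g' y k) x =
      ∑ i, ∑ j, (pderiv k (fun y => inverseField g' y i j) x * dG g g' x k i j +
        inverseField g' x i j * pderiv k (fun y => dG g g' y k i j) x)
      - ∑ i, (pderiv k (fun y => inverseField g' y i k) x * ∑ l, dG g g' x l l i +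
        inverseField g' x i k * ∑ l, pderiv k (fun y => dG g g' y l l i) x) := fun k => by
    rw [hV, pd_sub (d5 k) (d6 k), pd_sum (d3 k), pd_sum (d4 k)]
    simp only [pd_sum (d1 k _), pd_mul (dI _ _) (dD _ _ _), pd_mul (dI _ _) (d2 _),
      pd_sum fun l => dD l l _]
  have e2 : ∀ i j, ricci g' x i j = ricci g x i j +
      (∑ k, pderiv k (fun y => dG g g' y k i j) x - ∑ k, pderiv j (fun y => dG g g' y k k i) x
      + (∑ k, ∑ l, dG g g' x k k l * christoffel g' x l i j
        + ∑ k, ∑ l, christoffel g' x k k l * dG g g' x l i j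
        - ∑ k, ∑ l, dG g g' x k k l * dG g g' x l i j)
      - (∑ k, ∑ l, dG g g' x k j l * christoffel g' x l k i
        + ∑ k, ∑ l, christoffel g' x k j l * dG g g' x l k i
        - ∑ k, ∑ l, dG g g' x k j l * dG g g' x l k i)) := fun i j => by
    simp only [ricci, dG, pd_sub (dC' _ _ _) (dC _ _ _), pd_sum fun k => dC k k i,
      pd_sum fun k => dC' k k i, mul_sub, sub_mul, Finset.sum_sub_distrib]
    ring
  rw [divg_eq hg' hx fun k => by rw [hV]; exact (d5 k).sub (d6 k), add_assoc]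
  simp only [e1]
  refine Eq.trans ?_ (congrArg _ key)
  simp only [scal, e2, ← Finset.sum_add_distrib, ← mul_add]

end Crest.Agent.N222.D
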