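import Crest.Agent.N222.D.Pert2
import Crest.Agent.N222.D.DivNeg
import Crest.Agent.N222.D.Pal

/-!
# Row 222, part D1: `R ≥ 0` and a negative Ricci direction give a state with `E > 0`

The metric is `g + s χ² dl ⊗ dl`, the drift is `V_s / 2 + t s β` with `V_s` the Palatini field and
`div β < 0` off the support of `χ`.
-/

set_option autoImplicit false
set_option linter.unusedSectionVars false

open Set Filter Topology Bundle Function
open scoped ContDiff Manifold
open Crest.GeometryTopology.CoordMetric Crest.GeometryTopology.ChartCurvature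
  Crest.GeometryTopology.PointedLimit
open Crest.Agent.R202.Tens Crest.Agent.R247.Bo84 Crest.Agent.R273.RMan_798

noncomputable section

namespace Crest.Agent.N222.D

namespace Pt

variable {n : ℕ} {N : Type} [TopologicalSpace N] [T2Space N] {R : RAtl n N} {p : R.M}

/-- a chart function cut off by a bump -/
def psh (η : SmoothBumpFunction (𝓡 n) p) (f : EE n → ℝ) (q : R.M) : ℝ :=
  η q • f (R.c (R.idx p) q)

theorem sm_psh (η : SmoothBumpFunction (𝓡 n) p) {f : EE n → ℝ}
    (hf : ContDiffOn ℝ ∞ f (R.c (R.idx p)).target) : Sm n R.M (psh η f) :=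
  η.contMDiff_smul ((contMDiffOn_iff_contDiffOn.2 hf).comp
    (contMDiffOn_chart (I := 𝓡 n) (n := ∞) (x := p)) fun _ hq => (R.c (R.idx p)).map_source hq)

theorem psh_ev {η : SmoothBumpFunction (𝓡 n) p} (f : EE n → ℝ) {q : R.M}
    (hq : q ∈ (R.c (R.idx p)).source) (h1 : η =ᶠ[𝓝 q] 1) :
    (fun z => psh η f ((R.c (R.idx p)).symm z)) =ᶠ[𝓝 (R.c (R.idx p) q)] f := by
  filter_upwards [tendsto_symm R _ hq h1,
    (R.c (R.idx p)).open_target.mem_nhds ((R.c (R.idx p)).map_source hq)] with z hz hz'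
  have : η ((R.c (R.idx p)).symm z) = 1 := hz
  rw [psh, this, one_smul, (R.c (R.idx p)).right_inv hz']

/-- `Ric (ξ♯, ξ♯)` -/
def FF (g : MetricField n) (ξ : Fin n → ℝ) (y : EE n) : ℝ :=
  ∑ i, ∑ j, (∑ a, ∑ b, inverseField g y i a * (ξ a * ξ b) * inverseField g y b j) * ricci g y i j

theorem continuousOn_FF {g : MetricField n} {U : Set (EE n)} (hg : IsRiemannianOn g U)
    (ξ : Fin n → ℝ) : ContinuousOn (FF g ξ) U :=
  continuousOn_finsetSum _ fun i _ => continuousOn_finsetSum _ fun j _ =>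
    (continuousOn_finsetSum _ fun a _ => continuousOn_finsetSum _ fun b _ =>
      ((contDiffOn_inv_entry hg i a).continuousOn.mul continuousOn_const).mul
        (contDiffOn_inv_entry hg b j).continuousOn).mul (continuousOn_ricci hg i j)

theorem FF_lower {g : MetricField n} {U : Set (EE n)} (hg : IsRiemannianOn g U) {y : EE n}
    (hy : y ∈ U) (v : EE n) :
    FF g (fun a => ∑ b, v b * g y b a) y = ∑ i, ∑ j, ricci g y i j * v i * v j := by
  have h1 : ∀ j, ∑ a, (∑ b, v b * g y b a) * inverseField g y a j = v j := by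
    intro j
    simp only [Finset.sum_mul, mul_assoc]
    rw [Finset.sum_comm]
    simp [← Finset.mul_sum, mul_inv_apply hg hy]
  refine Finset.sum_congr rfl fun i _ => Finset.sum_congr rfl fun j _ => ?_
  rw [mul_assoc, mul_comm, ← h1 i, ← h1 j, Finset.sum_mul_sum]
  congr 1
  refine Finset.sum_congr rfl fun a _ => Finset.sum_congr rfl fun b _ => ?_
  rw [inv_symm hg hy i a]; ring

theorem pderiv_lin (ξ : Fin n → ℝ) (a : Fin n) (y : EE n) :
    pderiv a (fun z : EE n => ∑ b, ξ b * z b) y = ξ a := by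
  have : (fun z : EE n => ∑ b, ξ b * z b) =
      (∑ b, ξ b • (EuclideanSpace.proj b : EE n →L[ℝ] ℝ) : EE n →L[ℝ] ℝ) := by
    ext z; simp
  rw [pderiv, this, ContinuousLinearMap.fderiv]
  simp [PiLp.single_apply]

theorem mid_hh {η : SmoothBumpFunction (𝓡 n) p} (χ : R.M → ℝ) (ξ : Fin n → ℝ) {q : R.M}
    (hq : q ∈ (R.c (R.idx p)).source) (h1 : η =ᶠ[𝓝 q] 1) :
    ∑ i, ∑ j, mid (R.G (R.idx p)) (hh R χ (psh η fun z => ∑ b, ξ b * z b) (R.idx p)) 0
      (R.c (R.idx p) q) i j * ricci (R.G (R.idx p)) (R.c (R.idx p) q) i j =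
      χ q ^ 2 * FF (R.G (R.idx p)) ξ (R.c (R.idx p) q) := by
  have hw : ∀ a, ww R χ (psh η fun z => ∑ b, ξ b * z b) (R.idx p) (R.c (R.idx p) q) a =
      χ q * ξ a := by
    intro a
    rw [ww, (R.c (R.idx p)).left_inv hq, pderiv, (psh_ev _ hq h1).fderiv_eq, ← pderiv, pderiv_lin]
  simp only [mid, gs_zero, hh, Matrix.vecMulVec_apply, hw, FF, Finset.mul_sum, Finset.sum_mul]
  exact Finset.sum_congr rfl fun i _ => Finset.sum_congr rfl fun j _ =>
    Finset.sum_congr rfl fun a _ => Finset.sum_congr rfl fun b _ => by ring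

end Pt

open Pt in
theorem pert (hP : PalStmt) (hD : DivNegStmt) : PertStmt := by
  intro n N _ _ _ _ R hS hR
  have : CompactSpace R.M := inferInstanceAs (CompactSpace N)
  obtain ⟨p, v, hv⟩ : ∃ (p : R.M) (v : EE n),
      ∑ i, ∑ j, ricci (R.G (R.idx p)) (R.c (R.idx p) p) i j * v i * v j < 0 := by
    by_contra hc
    push Not at hc
    refine hR fun x v => ?_
    have := fun a b => ricci_congr (chartMetric_ev R x (R.mem_target x)) a b
    have h2 := hc x v
    simp only [← this] at h2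
    rw [zero_mul]
    exact h2
  have hg := riemR R (R.idx p)
  set c := R.c (R.idx p) with hc
  set g := R.G (R.idx p) with hgd
  set ξ : Fin n → ℝ := fun a => ∑ b, v b * g (c p) b a with hξ
  obtain ⟨η⟩ : Nonempty (SmoothBumpFunction (𝓡 n) p) := inferInstance
  have hS1 : ∀ᶠ q in 𝓝 p, η =ᶠ[𝓝 q] 1 ∧ FF g ξ (c q) < 0 := by
    refine η.eventuallyEq_one.eventually_nhds.and ?_
    have h1 : ContinuousAt (fun q : R.M => FF g ξ (c q)) p :=
      ContinuousAt.comp (f := fun q : R.M => c q) ((continuousOn_FF hg ξ).continuousAt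
        (c.open_target.mem_nhds (R.mem_target p))) (c.continuousAt (R.idx_mem p))
    exact h1.eventually (gt_mem_nhds ((FF_lower hg (R.mem_target p) v).trans_lt hv))
  obtain ⟨χ, -, hχS⟩ := (SmoothBumpFunction.nhds_basis_tsupport (I := 𝓡 n) p).mem_iff.1 hS1
  have hχs : tsupport χ ⊆ c.source := χ.tsupport_subset_chartAt_source
  obtain ⟨ι, _, φ, ψ, hφ, hψ, hdv⟩ := hD n R.M (support χ) χ.isOpen_support χ.nonempty_support
  have hχ : Sm n R.M χ := χ.contMDiff
  set l := psh η fun z => ∑ b, ξ b * z b with hl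
  have hls : Sm n R.M l := sm_psh η (ContDiffOn.sum fun b _ =>
    contDiffOn_const.mul (contDiff_coord b).contDiffOn)
  have D := dat hχ hls (R.idx p)
  set h := hh R χ l (R.idx p) with hh0
  set dv : R.M → ℝ := fun q => ∑ k, (mGam n (φ k) (ψ k) q + φ k q * mLap n (ψ k) q) with hdvd
  have hdvc : Continuous dv := DN.Dv.continuous ⟨ι, inferInstance, φ, ψ, hφ, hψ, fun _ => rfl⟩
  -- the choice of `t`
  obtain ⟨t, ht, htK⟩ : ∃ t : ℝ, 0 < t ∧
      ∀ q ∈ tsupport χ, 0 < -(χ q ^ 2 * FF g ξ (c q)) - 2 * t * dv q := by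
    have hK : IsCompact (tsupport χ ∩ {q | 0 ≤ dv q}) :=
      χ.hasCompactSupport.isCompact.inter_right (isClosed_le continuous_const hdvc)
    have hf : ContinuousOn (fun q : R.M => -(χ q ^ 2 * FF g ξ (c q)))
        (tsupport χ ∩ {q | 0 ≤ dv q}) :=
      ((χ.continuous.continuousOn.pow 2).mul ((continuousOn_FF hg ξ).comp
        (c.continuousOn.mono fun q hq => hχs hq.1) fun q hq => c.map_source (hχs hq.1))).neg
    have hpos : ∀ q ∈ tsupport χ ∩ {q | 0 ≤ dv q}, 0 < -(χ q ^ 2 * FF g ξ (c q)) := by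
      intro q hq
      have h0 : χ q ≠ 0 := fun h0 => (hdv q (by simpa using h0)).not_ge hq.2
      have := mul_neg_of_pos_of_neg (sq_pos_of_ne_zero h0) (hχS hq.1).2
      linarith
    obtain ⟨a, ha⟩ := hK.bddAbove_image (hdvc.continuousOn.div hf fun q hq => (hpos q hq).ne')
    refine ⟨1 / (2 * (|a| + 1)), by positivity, fun q hq => ?_⟩
    have h2 : 2 * (1 / (2 * (|a| + 1))) * dv q = dv q / (|a| + 1) := by field_simp
    rw [h2, sub_pos, div_lt_iff₀ (by positivity)]
    rcases le_or_gt 0 (dv q) with h0 | h0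
    · have h3 : dv q / -(χ q ^ 2 * FF g ξ (c q)) ≤ a := ha (mem_image_of_mem _ ⟨hq, h0⟩)
      have h4 := hpos q ⟨hq, h0⟩
      rw [div_le_iff₀ h4] at h3
      nlinarith [le_abs_self a]
    · have := mul_nonpos_of_nonneg_of_nonpos (sq_nonneg (χ q)) (hχS hq).2.le
      nlinarith [abs_nonneg a]
  obtain ⟨H, hH, hH0, hHs⟩ := cE_pert hP D (fun k => contDiffOn_ch (hφ k) (R.idx p))
    (fun k => contDiffOn_ch (hψ k) (R.idx p)) t
  have hA := hH.eventually_pos c.open_target (K := c '' tsupport χ)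
    (χ.hasCompactSupport.isCompact.image_of_continuousOn (c.continuousOn.mono hχs))
    (by rintro _ ⟨q, hq, rfl⟩; exact c.map_source (hχs hq)) (by
      rintro _ ⟨q, hq, rfl⟩
      rw [hH0, ← mdv_chartR R (hχs hq) φ hψ, mid_hh χ ξ (hχs hq) (hχS hq).1]
      exact htK q hq)
  obtain ⟨a, ha⟩ := DN.exists_lt_mul (K := (support χ)ᶜ) χ.isOpen_support.isClosed_compl.isCompact
    hdvc.neg (g := fun q => ∑ k, ∑ l, φ k q * φ l q * mGam n (ψ k) (ψ l) q)
    (continuous_finsetSum _ fun k _ => continuous_finsetSum _ fun l _ =>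
      ((hφ k).continuous.mul (hφ l).continuous).mul (DN.continuous_mGam (hψ k) (hψ l)))
    fun q hq => neg_pos.2 (hdv q hq)
  have hB : ∀ᶠ s in 𝓝[>] (0 : ℝ), t * s * a < 2 :=
    nhdsWithin_le_nhds (ContinuousAt.eventually_lt (f := fun s : ℝ => t * s * a) (by fun_prop)
      continuousAt_const (by simp))
  obtain ⟨s, ⟨hsA, hsB⟩, hs⟩ := ((hA.and hB).and self_mem_nhdsWithin).exists
  have hs0 : 0 < s := hs
  set V : Fin n → R.M → ℝ := fun k => psh η
    fun z => (1 / 2) * ∑ l, gs g h s z k l * palV g (gs g h s) z l with hV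
  set X : Fin n → R.M → ℝ := fun k => psh η fun z => z k with hX
  have hVs : ∀ k, Sm n R.M (V k) := fun k => sm_psh η (contDiffOn_const.mul (ContDiffOn.sum
    fun l _ => ((D.gs_riem hs0.le).contDiffOn k l).mul (contDiffOn_palV hg (D.gs_riem hs0.le) l)))
  have hΨ : ∀ k, Sm n R.M (Sum.elim X ψ k) :=
    Sum.forall.2 ⟨fun k => sm_psh η (contDiff_coord k).contDiffOn, hψ⟩
  refine ⟨pertA hχ hls hs0.le, Fin n ⊕ ι, inferInstance, Sum.elim V fun k q => t * s * φ k q,
    Sum.elim X ψ, Sum.forall.2 ⟨hVs, fun k => contMDiff_const.mul (hφ k)⟩, hΨ, fun q => ?_⟩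
  by_cases hq : (q : R.M) ∈ tsupport χ
  · have hqs := hχs hq
    refine lt_of_lt_of_eq ?_ (mE_chartR (pertA hχ hls hs0.le) (p := p) hqs _ hΨ).symm
    refine lt_of_lt_of_eq ?_ ((hHs s hs0.le _ (c.map_source hqs)).symm.trans
      (cE_congr EventuallyEq.rfl (Sum.forall.2 ⟨fun k => (psh_ev _ hqs (hχS hq).1).symm,
        fun k => EventuallyEq.rfl⟩) (Sum.forall.2 ⟨fun k => (psh_ev _ hqs (hχS hq).1).symm,
          fun k => EventuallyEq.rfl⟩)))
    rw [← mScal_chartR R hqs]
    exact add_pos_of_nonneg_of_pos (hS q) (mul_pos hs0 (hsA _ (mem_image_of_mem _ hq)))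
  · have hV0 : ∀ k, ∀ q' : R.M, q' ∉ tsupport χ → V k q' = 0 := by
      intro k q' hq'
      by_cases hqs : q' ∈ c.source
      · have h0 : ∀ l, palV g (gs g h s) (R.c (R.idx p) q') l = 0 :=
          palV_eq_zero (gs_ev (R.idx p) hqs hq' s)
        simp [hV, psh, h0]
      · have : η q' = 0 := notMem_support.1 fun h => hqs (η.support_subset_source h)
        simp only [hV, psh, this, zero_smul]
    have hqq := R.idx_mem q
    refine lt_of_lt_of_eq ?_ (mE_chartR (pertA hχ hls hs0.le) (p := q) hqq _ hΨ).symm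
    refine lt_of_lt_of_eq ?_ ((mE_chartR R (p := q) hqq
      (Sum.elim (fun _ _ => 0) fun k q => t * s * φ k q) hΨ).trans
      (cE_congr (gs_ev (R.idx q) hqq hq s).symm (Sum.forall.2 ⟨fun k => ?_,
        fun k => EventuallyEq.rfl⟩) fun k => EventuallyEq.rfl))
    · rw [mE_zero_sum ψ hφ]
      have h1 : (q : R.M) ∉ support χ := fun h => hq (subset_tsupport _ h)
      have h2 := ha q h1
      have h3 := hdv q h1
      have h4 := hS q
      have h5 := mul_pos ht hs0
      have h6 := mul_lt_mul_of_pos_left h2 (pow_pos h5 2)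
      have h7 := mul_pos (mul_pos h5 (neg_pos.2 h3)) (sub_pos.2 hsB)
      simp only [hdvd, Pi.neg_apply] at h6
      nlinarith
    · filter_upwards [tendsto_symm R _ hqq ((isClosed_tsupport χ).isOpen_compl.mem_nhds hq)]
        with z hz
      exact (hV0 k _ hz).symm

theorem pert' : PertStmt := pert pal divNeg

end Crest.Agent.N222.D
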