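import Crest.Agent.R247.Smv0_126

/-!
# Row 222, part D: weak superharmonicity of far distance functions and a strong minimum principle
(helper55), over `GradS` and `WLap` of R247.
-/

set_option autoImplicit false
set_option linter.unusedSectionVars false

open Set Filter Topology MeasureTheory Metric
open scoped RealInnerProductSpace
open Crest.Agent.R247.Dir593 Crest.Agent.R247.Dir593.GradS Crest.Agent.R247.Smv126

noncomputable section

namespace Crest.Agent.N222.D

theorem hasDerivAt_pos_sq (t : ℝ) : HasDerivAt (fun s : ℝ => (max s 0) ^ 2) (2 * max t 0) t := by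
  rcases lt_trichotomy t 0 with h | h | h
  · rw [max_eq_right h.le, mul_zero]
    refine (hasDerivAt_const t (0 : ℝ)).congr_of_eventuallyEq ?_
    filter_upwards [Iio_mem_nhds h] with s hs
    rw [max_eq_right (le_of_lt hs)]; ring
  · subst h
    rw [max_self, mul_zero, hasDerivAt_iff_isLittleO_nhds_zero]
    have h1 : (fun s : ℝ => s ^ 2) =o[𝓝 0] fun s => s := by
      simpa using Asymptotics.isLittleO_pow_id (𝕜 := ℝ) (n := 2) one_lt_two
    refine Asymptotics.IsBigO.trans_isLittleO ?_ h1
    refine Asymptotics.IsBigO.of_bound 1 (Eventually.of_forall fun s => ?_)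
    rcases le_total s 0 with h | h
    · simp [max_eq_right h, sq_nonneg]
    · simp [max_eq_left h]
  · rw [max_eq_left h.le]
    have := (hasDerivAt_id t).pow 2
    refine (this.congr_deriv (by simp)).congr_of_eventuallyEq ?_
    filter_upwards [Ioi_mem_nhds h] with s hs
    rw [max_eq_left (le_of_lt hs)]; rfl

/-- `C¹` regularisation of `r` near `0` -/
def mm (ε r : ℝ) : ℝ := r + (max (ε - r) 0) ^ 2 / (2 * ε)

/-- its derivative -/
def mm' (ε r : ℝ) : ℝ := 1 - max (ε - r) 0 / ε

theorem hasDerivAt_mm {ε : ℝ} (hε : 0 < ε) (r : ℝ) : HasDerivAt (mm ε) (mm' ε r) r := by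
  have h1 := ((hasDerivAt_pos_sq (ε - r)).comp r ((hasDerivAt_id r).const_sub ε)).div_const (2 * ε)
  refine ((hasDerivAt_id r).add h1).congr_deriv ?_
  unfold mm'; field_simp; ring

theorem continuous_mm' (ε : ℝ) : Continuous (mm' ε) := by unfold mm'; fun_prop

theorem contDiff_of_hasDerivAt {f f' : ℝ → ℝ} (h : ∀ s, HasDerivAt f (f' s) s)
    (hc : Continuous f') : ContDiff ℝ 1 f := by
  refine contDiff_one_iff_deriv.2 ⟨fun s => (h s).differentiableAt, ?_⟩
  rw [show deriv f = f' from funext fun s => (h s).deriv]; exact hc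

theorem mm_of_le {ε r : ℝ} (h : ε ≤ r) : mm ε r = r := by
  unfold mm; rw [max_eq_right (by linarith)]; simp

theorem mm'_of_le {ε r : ℝ} (h : ε ≤ r) : mm' ε r = 1 := by
  unfold mm'; rw [max_eq_right (by linarith)]; simp

theorem mm_ge {ε : ℝ} (hε : 0 < ε) (r : ℝ) : ε / 2 ≤ mm ε r := by
  rcases le_total ε r with h | h
  · rw [mm_of_le h]; linarith
  · unfold mm
    rw [max_eq_left (by linarith)]
    have : r + (ε - r) ^ 2 / (2 * ε) = ε / 2 + r ^ 2 / (2 * ε) := by field_simp; ring
    rw [this]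
    have : 0 ≤ r ^ 2 / (2 * ε) := by positivity
    linarith

theorem mm_pos {ε : ℝ} (hε : 0 < ε) (r : ℝ) : 0 < mm ε r := lt_of_lt_of_le (by positivity) (mm_ge hε r)

theorem mm_le {ε r b : ℝ} (hε : 0 < ε) (hr : 0 ≤ r) (hεb : ε ≤ b) (hrb : r ≤ b) : mm ε r ≤ b := by
  rcases le_total ε r with h | h
  · rw [mm_of_le h]; exact hrb
  · unfold mm
    rw [max_eq_left (by linarith)]
    have h1 : (ε - r) ^ 2 / (2 * ε) ≤ ε - r := by
      rw [div_le_iff₀ (by positivity)]; nlinarith
    linarith

theorem mm'_nonneg {ε r : ℝ} (hε : 0 < ε) (hr : 0 ≤ r) : 0 ≤ mm' ε r := by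
  unfold mm'
  have : max (ε - r) 0 / ε ≤ 1 := by
    rw [div_le_one hε]; exact max_le (by linarith) hε.le
  linarith

variable {X : Type*} [MetricSpace X] [MeasurableSpace X] {F : Type*}
  [NormedAddCommGroup F] [InnerProductSpace ℝ F] {μ : Measure X} [BorelSpace X]
  [IsFiniteMeasureOnCompacts μ] [ProperSpace X] {S : GradS X F μ} {n : ℕ}

theorem int_GG {f φ : X → ℝ} (hf : LocallyLipschitz f) (hφ : IsT φ) :
    Integrable (fun z => ⟪S.G f z, S.G φ z⟫) μ :=
  memLp_one_iff_integrable.1 (memLp_GG S hf hφ 1)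

theorem int_T {φ : X → ℝ} (hφ : IsT φ) : Integrable φ μ :=
  hφ.1.continuous.integrable_of_hasCompactSupport hφ.2

/-- far distance functions are almost superharmonic -/
theorem far (W : WLap S n 0) (q : X) {φ : X → ℝ} (hφ : IsT φ) (h0 : ∀ z, 0 ≤ φ z) {ρ : ℝ}
    (hρ : 0 < ρ) (hs : ∀ z ∈ tsupport φ, ρ ≤ dist q z) :
    -(n / ρ * ∫ z, φ z ∂μ) ≤ ∫ z, ⟪S.G (dist q) z, S.G φ z⟫ ∂μ := by
  let κ : ℝ → ℝ := fun s => (mm ρ s)⁻¹
  have hκd : ∀ s, HasDerivAt κ (-mm' ρ s / mm ρ s ^ 2) s := fun s =>
    (hasDerivAt_mm hρ s).inv (mm_pos hρ s).ne'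
  have hmc : Continuous (mm ρ) := continuous_iff_continuousAt.2 fun s =>
    (hasDerivAt_mm hρ s).continuousAt
  have hκ : ContDiff ℝ 1 κ := contDiff_of_hasDerivAt hκd
    ((continuous_mm' ρ).neg.div (hmc.pow 2) fun s => (pow_pos (mm_pos hρ s) 2).ne')
  have hκl : LocallyLipschitz fun z => κ (dist q z) := hκ.locallyLipschitz.comp (locLip_dist q)
  have hT : IsT fun z => φ z * κ (dist q z) := hφ.mul hκl
  have key := W.lap q hT fun z => mul_nonneg (h0 z) (inv_nonneg.2 (mm_pos hρ _).le)
  have h1 : ∫ z, (((n : ℝ) + 0 * dist q z ^ 2) * (φ z * κ (dist q z)) +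
      ⟪S.G (hf q) z, S.G (fun z => φ z * κ (dist q z)) z⟫) ∂μ ≤
      ∫ z, (n / ρ * φ z + ⟪S.G (dist q) z, S.G φ z⟫) ∂μ := by
    refine integral_mono_ae ?_ (((int_T hφ).const_mul _).add (int_GG (locLip_dist q) hφ)) ?_
    · refine Integrable.add ?_ (int_GG (locLip_hf q) hT)
      simpa using (int_T hT).const_mul (n : ℝ)
    · have hz := S.zero_of_open hφ.1 (isClosed_tsupport φ).isOpen_compl
        (fun x hx => image_eq_zero_of_notMem_tsupport hx)
      filter_upwards [S.mul hφ.1 hκl, G_comp S q hκ, G_hf S q, W.unit q, hz] with z e1 e2 e3 e4 e5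
      rw [e1, e2, e3, (hκd _).deriv, real_inner_smul_left, inner_add_right, real_inner_smul_right,
        real_inner_smul_right, real_inner_smul_right, real_inner_self_eq_norm_sq, e4]
      by_cases hzs : z ∈ tsupport φ
      · have hr := hs z hzs
        have hr0 : 0 < dist q z := hρ.trans_le hr
        simp only [κ, mm_of_le hr, mm'_of_le hr]
        have a1 : (n : ℝ) * (φ z * (dist q z)⁻¹) ≤ n / ρ * φ z := by
          have : (dist q z)⁻¹ ≤ ρ⁻¹ := inv_anti₀ hρ hr
          calc (n : ℝ) * (φ z * (dist q z)⁻¹) ≤ n * (φ z * ρ⁻¹) := by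
                gcongr; exact h0 z
            _ = _ := by ring
        have a2 : dist q z * (φ z * (-1 / dist q z ^ 2 * 1 ^ 2)) ≤ 0 := by
          have : 0 ≤ dist q z * (φ z * (1 / dist q z ^ 2)) := by have := h0 z; positivity
          calc _ = -(dist q z * (φ z * (1 / dist q z ^ 2))) := by ring
            _ ≤ 0 := by linarith
        have a3 : dist q z * ((dist q z)⁻¹ * ⟪S.G (dist q) z, S.G φ z⟫) =
            ⟪S.G (dist q) z, S.G φ z⟫ := by field_simp
        rw [mul_add, a3]
        linarith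
      · rw [image_eq_zero_of_notMem_tsupport hzs, e5 hzs]; simp
  rw [integral_add ((int_T hφ).const_mul _) (int_GG (locLip_dist q) hφ), integral_const_mul] at h1
  linarith

/-- the radial inequality -/
theorem radial (W : WLap S n 0) (y : X) {h : X → ℝ} (hh : LocallyLipschitz h) (h0 : ∀ z, 0 ≤ h z)
    {b δ : ℝ} (hsup : ∀ φ : X → ℝ, IsT φ → (∀ z, 0 ≤ φ z) → tsupport φ ⊆ closedBall y b →
      -(δ * ∫ z, φ z ∂μ) ≤ ∫ z, ⟪S.G h z, S.G φ z⟫ ∂μ)
    {η η' ζ : ℝ → ℝ} (hη : ∀ s, HasDerivAt η (η' s) s) (hη' : Continuous η')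
    (hη0 : ∀ s, 0 ≤ η s) (hηb : ∀ s, b ≤ s → η s = 0) (hζ : ∀ s, HasDerivAt ζ (-(s * η s)) s)
    (hζ0 : ∀ s, 0 ≤ s → 0 ≤ ζ s) (hζb : ∀ s, b ≤ s → ζ s = 0) :
    0 ≤ ∫ z, h z * (n * η (dist y z) + dist y z * η' (dist y z)) ∂μ +
      δ * ∫ z, ζ (dist y z) ∂μ := by
  have hηc : ContDiff ℝ 1 η := contDiff_of_hasDerivAt hη hη'
  have hζc : ContDiff ℝ 1 ζ := contDiff_of_hasDerivAt hζ (continuous_id.mul hηc.continuous).neg
  have hTη := isT_radial y hηc hηb
  have hTζ := isT_radial y hζc hζb
  have hT : IsT fun z => h z * η (dist y z) := IsT.mul' hh hTη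
  have k1 := W.lap y hT fun z => mul_nonneg (h0 z) (hη0 _)
  have k2 := hsup _ hTζ (fun z => hζ0 _ dist_nonneg) (by
    refine closure_minimal (fun z hz => ?_) isClosed_closedBall
    by_contra hb
    rw [mem_closedBall, not_le, dist_comm] at hb
    exact hz (hζb _ hb.le))
  have i2 := int_GG (S := S) hh hTζ
  have i1 : Integrable (fun z => ((n : ℝ) + 0 * dist y z ^ 2) * (h z * η (dist y z)) +
      ⟪S.G (hf y) z, S.G (fun z => h z * η (dist y z)) z⟫) μ := by
    refine Integrable.add ?_ (int_GG (locLip_hf y) hT)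
    simpa using (int_T hT).const_mul (n : ℝ)
  have e : ∫ z, h z * (n * η (dist y z) + dist y z * η' (dist y z)) ∂μ =
      ∫ z, ((((n : ℝ) + 0 * dist y z ^ 2) * (h z * η (dist y z)) +
      ⟪S.G (hf y) z, S.G (fun z => h z * η (dist y z)) z⟫) +
        ⟪S.G h z, S.G (fun z => ζ (dist y z)) z⟫) ∂μ := by
    refine integral_congr_ae ?_
    filter_upwards [S.mul hh hTη.1, G_comp S y hηc, G_comp S y hζc, G_hf S y, W.unit y]
      with z e1 e2 e3 e4 e5
    rw [e1, e2, e3, e4, (hη _).deriv, (hζ _).deriv, real_inner_smul_left, inner_add_right,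
      real_inner_smul_right, real_inner_smul_right, real_inner_smul_right, real_inner_smul_right,
      real_inner_self_eq_norm_sq, e5, real_inner_comm]
    ring
  rw [e, integral_add i1 i2]
  linarith

/-- **strong minimum principle** for limits of almost superharmonic functions -/
theorem min_principle [μ.IsOpenPosMeasure] (W : WLap S n 0) (y : X) {h : X → ℝ}
    (hc : Continuous h) (h0 : ∀ z, 0 ≤ h z) {L C : ℝ} (hL : ∀ z, h z ≤ L * dist y z)
    (hC : ∀ ε : ℝ, 0 < ε → μ.real (ball y ε) ≤ C * ε ^ n)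
    (happ : ∀ b δ : ℝ, 0 < δ → ∃ h' : X → ℝ, LocallyLipschitz h' ∧ (∀ z, 0 ≤ h' z) ∧
      (∀ z ∈ closedBall y b, |h' z - h z| ≤ δ) ∧
      ∀ φ : X → ℝ, IsT φ → (∀ z, 0 ≤ φ z) → tsupport φ ⊆ closedBall y b →
        -(δ * ∫ z, φ z ∂μ) ≤ ∫ z, ⟪S.G h' z, S.G φ z⟫ ∂μ) (z₀ : X) : h z₀ = 0 := by
  by_contra hne
  have hpos : 0 < h z₀ := lt_of_le_of_ne (h0 z₀) (Ne.symm hne)
  have hd : 0 < dist y z₀ := by
    by_contra hd
    have : dist y z₀ = 0 := le_antisymm (not_lt.1 hd) dist_nonneg
    have h1 := hL z₀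
    rw [this, mul_zero] at h1
    linarith
  have hL0 : 0 ≤ L := by
    by_contra hn
    have := hL z₀
    nlinarith [not_le.1 hn]
  set b := dist y z₀ + 1 with hb
  have hb0 : 0 < b := by positivity
  have hdc : Continuous fun z => dist y z := continuous_const.dist continuous_id
  have hcs : ∀ {w : ℝ → ℝ}, (∀ s, b ≤ s → w s = 0) → HasCompactSupport fun z => w (dist y z) := by
    intro w hw
    refine HasCompactSupport.intro (isCompact_closedBall y b) fun z hz => ?_
    rw [mem_closedBall, not_le, dist_comm] at hz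
    exact hw _ hz.le
  -- the positive quantity
  let u : X → ℝ := fun z => h z * (dist y z * max (b - dist y z) 0)
  have huc : Continuous u := by fun_prop
  have hus : HasCompactSupport u := (hcs (w := fun s => s * max (b - s) 0) fun s hs => by
    rw [max_eq_right (by linarith), mul_zero]).mul_left
  have hu0 : ∀ z, 0 ≤ u z := fun z =>
    mul_nonneg (h0 z) (mul_nonneg dist_nonneg (le_max_right _ _))
  have hI : 0 < ∫ z, u z ∂μ := by
    refine huc.integral_pos_of_hasCompactSupport_nonneg_nonzero hus hu0 (x := z₀) ?_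
    have : max (b - dist y z₀) 0 = 1 := by rw [hb]; simp
    simp only [u, this]; positivity
  have main : ∀ ε : ℝ, 0 < ε → ε ≤ b →
      2 * (b ^ n)⁻¹ * ∫ z, u z ∂μ ≤ (n * 2 ^ n * b ^ 2 * L * C) * ε := by
    intro ε hε hεb
    have hmp := mm_pos hε
    have hmc : Continuous (mm ε) := continuous_iff_continuousAt.2 fun s =>
      (hasDerivAt_mm hε s).continuousAt
    let η : ℝ → ℝ := fun s => (mm ε s ^ n)⁻¹ * (max (b - s) 0) ^ 2
    let η' : ℝ → ℝ := fun s => -(n * mm ε s ^ (n - 1) * mm' ε s) / (mm ε s ^ n) ^ 2 *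
      (max (b - s) 0) ^ 2 + (mm ε s ^ n)⁻¹ * (2 * max (b - s) 0 * (-1))
    have hη : ∀ s, HasDerivAt η (η' s) s := fun s =>
      (((hasDerivAt_mm hε s).pow n).inv (pow_pos (hmp s) n).ne').mul
        ((hasDerivAt_pos_sq (b - s)).comp s ((hasDerivAt_id s).const_sub b))
    have hη' : Continuous η' := by
      have := continuous_mm' ε
      refine Continuous.add (Continuous.mul (Continuous.div (by fun_prop) (by fun_prop) ?_)
        (by fun_prop)) (Continuous.mul (Continuous.inv₀ (by fun_prop) ?_) (by fun_prop))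
      · exact fun s => (pow_pos (pow_pos (hmp s) n) 2).ne'
      · exact fun s => (pow_pos (hmp s) n).ne'
    have hηc : Continuous η := continuous_iff_continuousAt.2 fun s => (hη s).continuousAt
    have hη0 : ∀ s, 0 ≤ η s := fun s => mul_nonneg (inv_nonneg.2 (pow_pos (hmp s) n).le) (sq_nonneg _)
    have hmb : ∀ s, b ≤ s → max (b - s) 0 = 0 := fun s hs => max_eq_right (by linarith)
    have hηb : ∀ s, b ≤ s → η s = 0 := fun s hs => by simp [η, hmb s hs]
    let ζ : ℝ → ℝ := fun s => -∫ t in b..s, t * η t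
    have hsη : Continuous fun t => t * η t := continuous_id.mul hηc
    have hζ : ∀ s, HasDerivAt ζ (-(s * η s)) s := fun s =>
      (intervalIntegral.integral_hasDerivAt_right (hsη.intervalIntegrable _ _)
        (hsη.stronglyMeasurableAtFilter _ _) hsη.continuousAt).neg
    have hζb : ∀ s, b ≤ s → ζ s = 0 := fun s hs => by
      simp only [ζ]
      rw [intervalIntegral.integral_congr (g := fun _ => 0) fun t ht => by
        rw [uIcc_of_le hs] at ht; simp [hηb t ht.1]]
      simp
    have hζ0 : ∀ s, 0 ≤ s → 0 ≤ ζ s := fun s hs => by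
      rcases le_total b s with h1 | h1
      · rw [hζb s h1]
      · simp only [ζ]
        rw [← intervalIntegral.integral_symm]
        exact intervalIntegral.integral_nonneg h1 fun t ht => mul_nonneg (hs.trans ht.1) (hη0 t)
    let w : X → ℝ := fun z => n * η (dist y z) + dist y z * η' (dist y z)
    have hwc : Continuous w := by fun_prop
    have hwb : ∀ s, b ≤ s → n * η s + s * η' s = 0 := fun s hs => by simp [η, η', hmb s hs]
    have hws : HasCompactSupport w := hcs (w := fun s => n * η s + s * η' s) hwb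
    have iw : Integrable w μ := hwc.integrable_of_hasCompactSupport hws
    have ihw : ∀ {k : X → ℝ}, Continuous k → Integrable (fun z => k z * w z) μ := fun hk =>
      (hk.mul hwc).integrable_of_hasCompactSupport hws.mul_left
    have step1 : 0 ≤ ∫ z, h z * w z ∂μ := by
      refine le_of_forall_pos_le_add fun θ hθ => ?_
      set A := ∫ z, |w z| ∂μ + |∫ z, ζ (dist y z) ∂μ| with hA
      have hA0 : 0 ≤ A := add_nonneg (integral_nonneg fun _ => abs_nonneg _) (abs_nonneg _)
      obtain ⟨h', l1, l2, l3, l4⟩ := happ b (θ / (A + 1)) (by positivity)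
      have k1 := radial W y l1 l2 l4 hη hη' hη0 hηb hζ hζ0 hζb
      have k2 : ∫ z, h' z * w z ∂μ ≤ ∫ z, (h z * w z + θ / (A + 1) * |w z|) ∂μ := by
        refine integral_mono (ihw l1.continuous) ((ihw hc).add (iw.abs.const_mul _)) fun z => ?_
        by_cases hz : z ∈ closedBall y b
        · have := l3 z hz
          have h2 : (h' z - h z) * w z ≤ θ / (A + 1) * |w z| :=
            (le_abs_self _).trans (by rw [abs_mul]; gcongr)
          show h' z * w z ≤ h z * w z + θ / (A + 1) * |w z|
          linarith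
        · rw [mem_closedBall, not_le, dist_comm] at hz
          have : w z = 0 := hwb _ hz.le
          simp [this]
      rw [integral_add (ihw hc) (iw.abs.const_mul _), integral_const_mul] at k2
      have k3 : θ / (A + 1) * ∫ z, ζ (dist y z) ∂μ ≤ θ / (A + 1) * |∫ z, ζ (dist y z) ∂μ| := by
        gcongr; exact le_abs_self _
      have k4 : θ / (A + 1) * A ≤ θ := by
        rw [div_mul_eq_mul_div, div_le_iff₀ (by positivity)]; nlinarith
      have k5 : θ / (A + 1) * A = θ / (A + 1) * ∫ z, |w z| ∂μ +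
          θ / (A + 1) * |∫ z, ζ (dist y z) ∂μ| := by rw [hA]; ring
      change 0 ≤ ∫ z, h' z * w z ∂μ + _ at k1
      linarith
    set K : ℝ := n * (2 / ε) ^ n * b ^ 2 * (L * ε) with hK
    have hK0 : 0 ≤ K := by positivity
    have step2 : ∫ z, h z * w z ∂μ ≤
        ∫ z, ((ball y ε).indicator (fun _ => K) z - 2 * (b ^ n)⁻¹ * u z) ∂μ := by
      refine integral_mono (ihw hc) (Integrable.sub ?_
        ((huc.integrable_of_hasCompactSupport hus).const_mul _)) fun z => ?_
      · exact (integrable_indicator_iff measurableSet_ball).2 (integrableOn_const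
          ((measure_mono ball_subset_closedBall).trans_lt
            (isCompact_closedBall y ε).measure_lt_top).ne)
      · set r := dist y z with hr
        have hr0 : 0 ≤ r := dist_nonneg
        set m := mm ε r with hm
        have hm0 : 0 < m := hmp r
        set t := max (b - r) 0 with ht
        have ht0 : 0 ≤ t := le_max_right _ _
        have e1 : w z = n * (m ^ n)⁻¹ * t ^ 2 * (1 - r * mm' ε r / m) - 2 * (m ^ n)⁻¹ * (r * t) := by
          simp only [w, η, η', ← hr, ← hm, ← ht]
          rcases Nat.eq_zero_or_pos n with h | h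
          · subst h; simp; ring
          · obtain ⟨k, rfl⟩ : ∃ k, n = k + 1 := ⟨n - 1, by omega⟩
            simp only [Nat.add_sub_cancel]
            field_simp
            ring
        have e2 : 2 * (b ^ n)⁻¹ * u z ≤ h z * (2 * (m ^ n)⁻¹ * (r * t)) := by
          rcases le_total b r with h | h
          · have : t = 0 := hmb r h
            simp [u, ← hr, ← ht, this]
          · have h1 : (b ^ n)⁻¹ ≤ (m ^ n)⁻¹ :=
              inv_anti₀ (pow_pos hm0 n) (pow_le_pow_left₀ hm0.le (mm_le hε hr0 hεb h) n)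
            have h2 : 0 ≤ u z := hu0 z
            calc 2 * (b ^ n)⁻¹ * u z ≤ 2 * (m ^ n)⁻¹ * u z := by gcongr
              _ = _ := by simp only [u, ← hr, ← ht]; ring
        have e3 : h z * (n * (m ^ n)⁻¹ * t ^ 2 * (1 - r * mm' ε r / m)) ≤
            (ball y ε).indicator (fun _ => K) z := by
          by_cases hz : z ∈ ball y ε
          · rw [indicator_of_mem hz]
            have hrε : r ≤ ε := by rw [mem_ball, dist_comm] at hz; exact hz.le
            have h1 : (m ^ n)⁻¹ ≤ (2 / ε) ^ n := by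
              rw [← inv_pow]
              refine pow_le_pow_left₀ (by positivity) ?_ n
              rw [← inv_div ε 2]
              exact inv_anti₀ (by positivity) (mm_ge hε r)
            have h2 : t ≤ b := max_le (by linarith) hb0.le
            have h3 : 1 - r * mm' ε r / m ≤ 1 := by
              have := mm'_nonneg hε hr0
              have : 0 ≤ r * mm' ε r / m := by positivity
              linarith
            have h4 : h z ≤ L * ε := (hL z).trans (by gcongr)
            have h5 : n * (m ^ n)⁻¹ * t ^ 2 * (1 - r * mm' ε r / m) ≤ n * (2 / ε) ^ n * b ^ 2 := by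
              calc _ ≤ n * (m ^ n)⁻¹ * t ^ 2 * 1 := by gcongr
                _ ≤ n * (2 / ε) ^ n * b ^ 2 * 1 := by gcongr
                _ = _ := mul_one _
            calc _ ≤ h z * (n * (2 / ε) ^ n * b ^ 2) := mul_le_mul_of_nonneg_left h5 (h0 z)
              _ ≤ (L * ε) * (n * (2 / ε) ^ n * b ^ 2) := by gcongr
              _ = K := by rw [hK]; ring
          · rw [indicator_of_notMem hz]
            have hrε : ε ≤ r := by rw [mem_ball, not_lt, dist_comm] at hz; exact hz
            have hr' : 0 < r := hε.trans_le hrε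
            rw [hm, mm_of_le hrε, mm'_of_le hrε, mul_one, div_self hr'.ne']
            simp
        show h z * w z ≤ _ - _
        rw [e1, mul_sub]
        linarith
    rw [integral_sub ((integrable_indicator_iff measurableSet_ball).2 (integrableOn_const
          ((measure_mono ball_subset_closedBall).trans_lt
            (isCompact_closedBall y ε).measure_lt_top).ne))
      ((huc.integrable_of_hasCompactSupport hus).const_mul _), integral_const_mul,
      integral_indicator_const _ measurableSet_ball, smul_eq_mul] at step2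
    have h6 : μ.real (ball y ε) * K ≤ C * ε ^ n * K := mul_le_mul_of_nonneg_right (hC ε hε) hK0
    have h7 : C * ε ^ n * K = (n * 2 ^ n * b ^ 2 * L * C) * ε := by
      rw [hK, div_pow]; field_simp
    linarith
  have hP : 0 < 2 * (b ^ n)⁻¹ * ∫ z, u z ∂μ := by positivity
  set P := 2 * (b ^ n)⁻¹ * ∫ z, u z ∂μ
  set A := (n * 2 ^ n * b ^ 2 * L * C : ℝ)
  have h8 := main (min b (P / (2 * (|A| + 1)))) (by positivity) (min_le_left _ _)
  have h9 : A * min b (P / (2 * (|A| + 1))) ≤ |A| * (P / (2 * (|A| + 1))) :=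
    mul_le_mul (le_abs_self _) (min_le_right _ _) (by positivity) (abs_nonneg _)
  have h10 : |A| * (P / (2 * (|A| + 1))) ≤ P / 2 := by
    rw [mul_div_assoc', div_le_div_iff₀ (by positivity) (by positivity)]
    nlinarith [abs_nonneg A]
  linarith

end Crest.Agent.N222.D
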