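import Crest.Agent.N222.D.Defs
import Crest.Agent.N222.D.Mean
import Crest.Agent.R247.Rdg6_879
import Crest.Agent.R247.Iso2_311
import Crest.Agent.R247.Bgr3_546
import Crest.Agent.R247.Ar3_659

/-!
# Row 222, part D: the Busemann function of a line (Cheeger-Gromoll) (helper55)
-/

set_option autoImplicit false
set_option linter.unusedSectionVars false

open Set Filter Topology MeasureTheory Metric Bundle
open scoped RealInnerProductSpace ContDiff Manifold
open Crest.Agent.R247 Crest.Agent.R247.Dir593 Crest.Agent.R247.Dir593.GradS Crest.Agent.R247.Smv126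
open Crest.GeometryTopology.CoordMetric Crest.GeometryTopology.ChartCurvature
  Crest.GeometryTopology.PointedLimit
open Crest.Agent.R202.Tens Crest.Agent.R247.Bo84 Crest.Agent.R273.RMan_798

noncomputable section

namespace Crest.Agent.N222.D

section Metric

variable {X : Type*} [MetricSpace X] {γ : ℝ → X}

/-- isometric lines -/
def IsLine (γ : ℝ → X) : Prop := ∀ s t, dist (γ s) (γ t) = |s - t|

theorem IsLine.rev (h : IsLine γ) : IsLine fun s => γ (-s) := fun s t => by
  rw [h, ← abs_neg]; congr 1; ring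

/-- approximate Busemann functions -/
def bs (γ : ℝ → X) (s : ℝ) (x : X) : ℝ := dist (γ s) x - s

/-- the Busemann function -/
def bus (γ : ℝ → X) (x : X) : ℝ := ⨅ s, bs γ s x

theorem IsLine.anti (h : IsLine γ) (x : X) : Antitone fun s => bs γ s x := fun s t hst => by
  have h1 := dist_triangle (γ t) (γ s) x
  rw [h, abs_of_nonneg (sub_nonneg.2 hst)] at h1
  unfold bs; linarith

theorem IsLine.ge (h : IsLine γ) (s : ℝ) (x : X) : -dist (γ 0) x ≤ bs γ s x := by
  have h1 := dist_triangle_right (γ s) (γ 0) x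
  rw [h, sub_zero] at h1
  have := le_abs_self s
  unfold bs; linarith

theorem IsLine.abs_le (h : IsLine γ) {s : ℝ} (hs : 0 ≤ s) (x : X) :
    |bs γ s x| ≤ dist (γ 0) x := by
  refine _root_.abs_le.2 ⟨h.ge s x, ?_⟩
  have := h.anti x hs
  simpa [bs] using this

theorem IsLine.bdd (h : IsLine γ) (x : X) : BddBelow (range fun s => bs γ s x) :=
  ⟨-dist (γ 0) x, by rintro _ ⟨s, rfl⟩; exact h.ge s x⟩

theorem IsLine.tendsto (h : IsLine γ) (x : X) :
    Tendsto (fun s => bs γ s x) atTop (𝓝 (bus γ x)) := tendsto_atTop_ciInf (h.anti x) (h.bdd x)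

theorem IsLine.bus_le (h : IsLine γ) (s : ℝ) (x : X) : bus γ x ≤ bs γ s x := ciInf_le (h.bdd x) s

theorem IsLine.bus_sub (h : IsLine γ) (x y : X) : |bus γ x - bus γ y| ≤ dist x y := by
  refine le_of_tendsto' ((h.tendsto x).sub (h.tendsto y)).abs fun s => ?_
  have := abs_dist_sub_le x y (γ s)
  rw [dist_comm x, dist_comm y] at this
  simpa [bs] using this

theorem IsLine.continuous (h : IsLine γ) : Continuous (bus γ) :=
  (LipschitzWith.of_dist_le_mul (K := 1) fun x y => by
    simpa [Real.dist_eq] using h.bus_sub x y).continuous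

theorem IsLine.bus_line (h : IsLine γ) (t : ℝ) : bus γ (γ t) = -t := by
  refine tendsto_nhds_unique (h.tendsto _) (tendsto_const_nhds.congr' ?_)
  filter_upwards [eventually_ge_atTop t] with s hs
  unfold bs; rw [h, abs_of_nonneg (sub_nonneg.2 hs)]; ring

theorem IsLine.sum_nonneg (h : IsLine γ) {s : ℝ} (hs : 0 ≤ s) (x : X) :
    0 ≤ bs γ s x + bs (fun t => γ (-t)) s x := by
  have h1 := dist_triangle_right (γ s) (γ (-s)) x
  rw [h, abs_of_nonneg (by linarith)] at h1
  unfold bs; linarith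

theorem continuous_bs (γ : ℝ → X) (s : ℝ) : Continuous (bs γ s) := by unfold bs; fun_prop

theorem locLip_bs (γ : ℝ → X) (s : ℝ) : LocallyLipschitz (bs γ s) :=
  (LipschitzWith.dist_right (γ s)).locallyLipschitz.sub (LocallyLipschitz.const s)

variable [ProperSpace X]

theorem IsLine.unif (h : IsLine γ) (y : X) (b : ℝ) {δ : ℝ} (hδ : 0 < δ) :
    ∀ᶠ s in atTop, ∀ z ∈ closedBall y b, |bs γ s z - bus γ z| ≤ δ := by
  have h1 := Antitone.tendstoUniformlyOn_of_forall_tendsto (F := bs γ) (isCompact_closedBall y b)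
    (fun s => (continuous_bs γ s).continuousOn) (fun x _ => h.anti x) h.continuous.continuousOn
    fun x _ => h.tendsto x
  filter_upwards [Metric.tendstoUniformlyOn_iff.1 h1 δ hδ] with s hs z hz
  have := hs z hz
  rw [dist_comm, Real.dist_eq] at this
  exact this.le

/-- asymptotic points -/
theorem IsLine.asym (h : IsLine γ) (hm : Sm879.ExM X) (x : X) {r : ℝ} (hr : 0 ≤ r) :
    ∃ z, dist z x = r ∧ bus γ z ≤ bus γ x - r := by
  have key : ∀ᶠ s in atTop, ∃ z ∈ sphere x r, bus γ z ≤ bs γ s x - r := by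
    filter_upwards [eventually_ge_atTop (r + dist (γ 0) x)] with s hs
    have h1 := h.ge s x
    have h2 : r ≤ dist x (γ s) := by rw [dist_comm]; unfold bs at h1; linarith
    obtain ⟨c, hc1, hc2⟩ := hm.pt x (γ s) hr h2
    refine ⟨c, by rw [mem_sphere, dist_comm, hc1], (h.bus_le s c).trans (le_of_eq ?_)⟩
    unfold bs; rw [dist_comm, hc2, dist_comm]; ring
  obtain ⟨s₀, z₀, hz₀, -⟩ := key.exists
  obtain ⟨z, hz, hmin⟩ := (isCompact_sphere x r).exists_isMinOn ⟨z₀, hz₀⟩ h.continuous.continuousOn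
  refine ⟨z, hz, ge_of_tendsto ((h.tendsto x).sub_const r) ?_⟩
  filter_upwards [key] with s ⟨w, hw, hws⟩
  exact (hmin hw).trans hws

variable [MeasurableSpace X] {F : Type*}
  [NormedAddCommGroup F] [InnerProductSpace ℝ F] {μ : Measure X} [BorelSpace X]
  [IsFiniteMeasureOnCompacts μ] {S : GradS X F μ} {n : ℕ}

theorem IsLine.weak (h : IsLine γ) (W : WLap S n 0) (y : X) (b : ℝ) {δ : ℝ} (hδ : 0 < δ) :
    ∀ᶠ s in atTop, ∀ φ : X → ℝ, IsT φ → (∀ z, 0 ≤ φ z) → tsupport φ ⊆ closedBall y b →
      -(δ * ∫ z, φ z ∂μ) ≤ ∫ z, ⟪S.G (bs γ s) z, S.G φ z⟫ ∂μ := by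
  filter_upwards [eventually_ge_atTop (n / δ + 1 + dist (γ 0) y + b)] with s hs φ hφ h0 hs'
  have hρ : 0 < n / δ + 1 := by positivity
  have h1 := far W (γ s) hφ h0 hρ fun z hz => by
    have h2 := h.ge s z
    have h3 := dist_triangle_right (γ 0) z y
    have h4 : dist z y ≤ b := hs' hz
    have h5 := dist_triangle (γ 0) y z
    rw [dist_comm y z] at h5
    unfold bs at h2; linarith
  have h2 : ∫ z, ⟪S.G (bs γ s) z, S.G φ z⟫ ∂μ = ∫ z, ⟪S.G (dist (γ s)) z, S.G φ z⟫ ∂μ := by
    refine integral_congr_ae ?_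
    filter_upwards [S.sub (locLip_dist (γ s)) (LocallyLipschitz.const s), S.const s] with z e1 e2
    change ⟪S.G (fun y => dist (γ s) y - s) z, _⟫ = _
    rw [e1, e2, sub_zero]
  rw [h2]
  refine le_trans (neg_le_neg (mul_le_mul_of_nonneg_right ?_ (integral_nonneg h0))) h1
  rw [div_le_iff₀ hρ]
  have : δ * (n / δ) = n := by field_simp
  nlinarith

/-- the two Busemann functions of a line are opposite -/
theorem IsLine.bus_add [μ.IsOpenPosMeasure] (h : IsLine γ) (W : WLap S n 0) {C : ℝ}
    (hC : ∀ ε : ℝ, 0 < ε → μ.real (ball (γ 0) ε) ≤ C * ε ^ n) (x : X) :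
    bus γ x + bus (fun t => γ (-t)) x = 0 := by
  refine min_principle (h := fun x => bus γ x + bus (fun t => γ (-t)) x) (L := 2) W (γ 0)
    (h.continuous.add h.rev.continuous) (fun z => ?_) (fun z => ?_) hC (fun b δ hδ => ?_) x
  · refine ge_of_tendsto ((h.tendsto z).add (h.rev.tendsto z)) ?_
    filter_upwards [eventually_ge_atTop 0] with s hs using h.sum_nonneg hs z
  · have h1 := h.bus_le 0 z
    have h2 := h.rev.bus_le 0 z
    simp only [bs, neg_zero, sub_zero] at h1 h2
    linarith
  · have hδ2 : 0 < δ / 2 := by positivity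
    obtain ⟨s, hs0, hs1, hs2, hs3, hs4⟩ := ((eventually_ge_atTop 0).and
      ((h.unif (γ 0) b hδ2).and ((h.rev.unif (γ 0) b hδ2).and
      ((h.weak W (γ 0) b hδ2).and (h.rev.weak W (γ 0) b hδ2))))).exists
    refine ⟨fun z => bs γ s z + bs (fun t => γ (-t)) s z, (locLip_bs _ s).add (locLip_bs _ s),
      h.sum_nonneg hs0, fun z hz => ?_, fun φ hφ h0 hs => ?_⟩
    · have h1 := _root_.abs_le.1 (hs1 z hz)
      have h2 := _root_.abs_le.1 (hs2 z hz)
      exact _root_.abs_le.2 ⟨by linarith, by linarith⟩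
    · have h1 := hs3 φ hφ h0 hs
      have h2 := hs4 φ hφ h0 hs
      have h3 : ∫ z, ⟪S.G (fun z => bs γ s z + bs (fun t => γ (-t)) s z) z, S.G φ z⟫ ∂μ =
          ∫ z, ⟪S.G (bs γ s) z, S.G φ z⟫ ∂μ +
            ∫ z, ⟪S.G (bs (fun t => γ (-t)) s) z, S.G φ z⟫ ∂μ := by
        rw [← integral_add (int_GG (locLip_bs _ s) hφ) (int_GG (locLip_bs _ s) hφ)]
        refine integral_congr_ae ?_
        filter_upwards [S.add (locLip_bs γ s) (locLip_bs (fun t => γ (-t)) s)] with z e1
        rw [e1, inner_add_left]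
      rw [h3]; linarith

end Metric

section Mfd

variable {n : ℕ} {M : Type} [MetricSpace M] [ChartedSpace (EE n) M] [IsManifold (𝓡 n) ∞ M]
  [RiemannianBundle (fun x : M => TangentSpace (𝓡 n) x)]
  [IsContMDiffRiemannianBundle (𝓡 n) ∞ (EE n) (fun x : M => TangentSpace (𝓡 n) x)]
  [IsRiemannianManifold (𝓡 n) M] [MeasurableSpace M] [BorelSpace M]
  [SecondCountableTopology M] [Nonempty M]

theorem mLap_off {φ : M → ℝ} {z : M} (hz : z ∉ tsupport φ) : mLap n φ z = 0 := by
  have hev : φ =ᶠ[𝓝 z] fun _ => 0 := by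
    filter_upwards [(isClosed_tsupport φ).isOpen_compl.mem_nhds hz] with y hy
    exact image_eq_zero_of_notMem_tsupport hy
  rw [mLap_congr hev, mLap_const]

theorem Sm.locLip {φ : M → ℝ} (hφ : Sm n M φ) : LocallyLipschitz φ :=
  (Ms322.LLo.of_contMDiffAt (n := n) (U := univ) fun z _ => (hφ z).of_le (by simp)).loc

/-- integration by parts against a smooth test function -/
theorem ibp_test {f φ : M → ℝ} (hf : LocallyLipschitz f) (hφ : Sm n M φ)
    (hc : HasCompactSupport φ) :
    ∫ z, ⟪Ms322.Gr (n := n) f z, Ms322.Gr (n := n) φ z⟫ ∂(Measure.euclideanHausdorffMeasure n) =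
      -∫ z, f z * mLap n φ z ∂(Measure.euclideanHausdorffMeasure n) := by
  have := Ms322.locallyCompactSpace n M
  obtain ⟨χ, ⟨L, hL⟩, hχc, -, ⟨V, hVo, hKV, hV1⟩, -⟩ :=
    Ms322.exists_lip_cutoff hc.isCompact isOpen_univ (subset_univ _)
  have h1 := Ms322.ibp_mLap (n := n) isOpen_univ (f := φ) (φ := fun z => χ z * f z)
    (fun z _ => (hφ z).of_le two_le_infty) (locLip_mul hL.locallyLipschitz hf) hχc.mul_right
    (subset_univ _)
  convert h1 using 3 with z z
  · by_cases hz : z ∈ tsupport φ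
    · rw [real_inner_comm]
      congr 1
      refine Ms322.Gr_congr ?_
      filter_upwards [hVo.mem_nhds (hKV hz)] with y hy
      rw [hV1 y hy, one_mul]
    · rw [Ms322.Gr_zero_off hz, inner_zero_left, inner_zero_right]
  · funext z
    by_cases hz : z ∈ tsupport φ
    · rw [hV1 z (hKV hz), one_mul]
    · rw [mLap_off hz, mul_zero, mul_zero]

theorem int_mLap {f φ : M → ℝ} (hf : Continuous f) (hφ : Sm n M φ) (hc : HasCompactSupport φ) :
    Integrable (fun z => f z * mLap n φ z) (Measure.euclideanHausdorffMeasure n) := by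
  have := Ms322.isLocallyFiniteMeasure n M
  have h1 : Continuous (mLap n φ) := continuousOn_univ.1
    (Ms322.continuousOn_mLap fun z _ => (hφ z).of_le two_le_infty)
  refine (hf.mul h1).integrable_of_hasCompactSupport (HasCompactSupport.mul_left ?_)
  exact HasCompactSupport.intro hc.isCompact fun z hz => mLap_off hz

variable [ProperSpace M]

/-- the Busemann function is weakly superharmonic -/
theorem IsLine.super {γ : ℝ → M} (h : IsLine γ) (W : WLap (Ms322.gradS n M) n 0) {φ : M → ℝ}
    (hφ : Sm n M φ) (hc : HasCompactSupport φ) (h0 : ∀ x, 0 ≤ φ x) :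
    ∫ z, bus γ z * mLap n φ z ∂(Measure.euclideanHausdorffMeasure n) ≤ 0 := by
  have := Ms322.isLocallyFiniteMeasure n M
  have hlim : Tendsto (fun s => ∫ z, bs γ s z * mLap n φ z ∂(Measure.euclideanHausdorffMeasure n))
      atTop (𝓝 (∫ z, bus γ z * mLap n φ z ∂(Measure.euclideanHausdorffMeasure n))) := by
    refine tendsto_integral_filter_of_dominated_convergence
      (fun z => ‖dist (γ 0) z * mLap n φ z‖) (Eventually.of_forall fun s =>
        (int_mLap (continuous_bs γ s) hφ hc).1) ?_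
      (int_mLap (f := dist (γ 0)) (by fun_prop) hφ hc).norm
      (Eventually.of_forall fun z => (h.tendsto z).mul_const _)
    filter_upwards [eventually_ge_atTop 0] with s hs
    refine Eventually.of_forall fun z => ?_
    rw [norm_mul, norm_mul]
    refine mul_le_mul_of_nonneg_right ?_ (norm_nonneg _)
    rw [Real.norm_eq_abs, Real.norm_eq_abs, abs_of_nonneg dist_nonneg]
    exact h.abs_le hs z
  obtain ⟨b, hb⟩ := hc.isCompact.isBounded.subset_closedBall (γ 0)
  set I := ∫ z, φ z ∂(Measure.euclideanHausdorffMeasure n : Measure M)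
  have hI : 0 ≤ I := integral_nonneg h0
  refine le_of_forall_pos_le_add fun ε hε => le_of_tendsto hlim ?_
  have hδ : 0 < ε / (I + 1) := by positivity
  filter_upwards [h.weak W (γ 0) b hδ] with s hs
  have h1 := hs φ ⟨hφ.locLip, hc⟩ h0 hb
  rw [Ms322.gradS_G, ibp_test (locLip_bs γ s) hφ hc] at h1
  have h2 : ε / (I + 1) * I ≤ ε := by
    rw [div_mul_eq_mul_div, div_le_iff₀ (by positivity)]; nlinarith
  linarith

end Mfd

/-- **Cheeger-Gromoll** -/
theorem split (hW : WeylStmt) : SplitStmt := by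
  intro n M _ _ _ _ _ _ _ _ hric γ hγ
  rcases Nat.eq_zero_or_pos n with hn | hn
  · subst hn
    have := Bgr546.subsingleton_of_zero M
    have h1 := hγ 1 0
    rw [Subsingleton.elim (γ 1) (γ 0), dist_self] at h1
    norm_num at h1
  borelize M
  have := HR216.properSpace_of_riemannian n M
  have := Ms322.isLocallyFiniteMeasure n M
  have := Ms322.isOpenPosMeasure n M
  obtain ⟨C⟩ := Bgr546.rad_all n 0 le_rfl M (by rwa [neg_zero])
  have W := Rdg879.wlap_block C hn le_rfl
  have h : IsLine γ := hγ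
  have hadd := h.bus_add W (C := (volume (ball (0 : EE n) 1)).toReal) fun ε hε => by
    have h1 := Iso311.bishop C le_rfl (γ 0) ε
    have h2 := ENNReal.toReal_mono (ENNReal.mul_ne_top ENNReal.ofReal_ne_top
      measure_ball_lt_top.ne) h1
    rw [ENNReal.toReal_mul, ENNReal.toReal_ofReal (by positivity)] at h2
    simpa [Measure.real, mul_comm] using h2
  set b : M → ℝ := bus fun t => γ (-t) with hb
  have hb' : ∀ x, bus γ x = -b x := fun x => by linarith [hadd x]
  obtain ⟨hs, hl⟩ := hW n M b h.rev.continuous fun φ hφ hc h0 => by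
    have h1 := h.super W hφ hc h0
    simp only [hb', neg_mul, integral_neg] at h1
    linarith [h.rev.super W hφ hc h0]
  have hg : mGam n b b = fun _ => 1 := by
    funext p
    have hd : MDifferentiableAt (𝓡 n) 𝓘(ℝ) b p := (hs p).mdifferentiableAt (by simp)
    have h1 : ‖Ms322.Gr (n := n) b p‖ ≤ 1 := Ar659.norm_Gr_le_pt zero_le_one hd
      (Eventually.of_forall fun y => by rw [one_mul]; exact h.rev.bus_sub y p)
    have h2 : 1 ≤ ‖Ms322.Gr (n := n) b p‖ := by
      refine le_of_forall_pos_le_add fun ε hε => ?_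
      obtain ⟨r, hr, h3⟩ := Metric.eventually_nhds_iff.1 (Ar659.ev_le hd hε)
      obtain ⟨z, hz, hz'⟩ := h.rev.asym (Rdg879.exM_block n M) p (half_pos hr).le
      have h4 := h3 (y := z) (by rw [hz]; linarith)
      rw [hz] at h4
      have h5 := neg_abs_le (b z - b p)
      by_contra h6
      push Not at h6
      nlinarith
    rw [← Ms322.norm_Gr_sq_eq_mGam, le_antisymm h1 h2, one_pow]
  refine ⟨b, hs, fun p => le_antisymm ?_ (mHessSq_nonneg ((hs p).of_le two_le_infty)), fun t => ?_⟩
  · have h1 := mBochner_ineq hric ((hs p).of_le three_le_infty)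
    rw [hg, show mLap n b = fun _ => 0 from funext hl, mLap_const, mGam_const_right] at h1
    linarith
  · have := h.rev.bus_line (-t)
    simpa using this

end Crest.Agent.N222.D
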