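import Crest.Agent.N222.D.Egr

/-!
# Row 222, part D: the atlas of all local parametrisations of a submanifold (helper36)
-/

set_option autoImplicit false

open Set Filter Topology
open scoped ContDiff InnerProductSpace
open Crest.GeometryTopology Crest.GeometryTopology.CoordMetric
open Crest.Agent.R202.Tens Crest.Agent.R247.Bo84 Crest.Agent.R273.RMan_798
open Crest.Agent.R241.Geo

noncomputable section

namespace Crest.Agent.N222.D

variable {n N : ℕ} {S : Set (EE N)} {p p' : EE N} {f f' : EE n → EE N} {V V' : Set (EE n)}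

theorem sub_inv (h : Submanifold.IsLocalParam n N S p f V) {y : EE n} (hy : y ∈ V) :
    Function.invFunOn f V (f y) = y :=
  h.injOn.leftInvOn_invFunOn hy

/-- the inverse of a parametrisation is locally the restriction of a smooth map -/
theorem sub_loc (h : Submanifold.IsLocalParam n N S p f V) {y : EE n} (hy : y ∈ V) :
    ∃ (ρ : EE N → EE n) (U : Set (EE N)), IsOpen U ∧ f y ∈ U ∧ ContDiffOn ℝ ∞ ρ U ∧
      ∀ x ∈ S, x ∈ U → Function.invFunOn f V x = ρ x := by
  obtain ⟨ρ, U, W, hl⟩ := exists_linv (lp_translate h hy)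
  refine ⟨fun x => ρ x + y, U, hl.isOpen, hl.mem, hl.smooth.add contDiffOn_const, ?_⟩
  intro x hx hxU
  have h1 : ρ x + y ∈ V := hl.W_sub (hl.maps x hxU)
  have h2 : f (ρ x + y) = x := hl.right x hx hxU
  conv_lhs => rw [← h2]
  exact sub_inv h h1

open Classical in
/-- the chart of a local parametrisation -/
def subChart (h : Submanifold.IsLocalParam n N S p f V) : OpenPartialHomeomorph S (EE n) where
  toFun x := Function.invFunOn f V x.1
  invFun y := if hy : y ∈ V then ⟨f y, lp_mem h hy⟩ else ⟨p, lp_base_mem h⟩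
  source := {x | x.1 ∈ f '' V}
  target := V
  map_source' := by
    rintro x ⟨y, hy, hx⟩
    exact Function.invFunOn_mem ⟨y, hy, hx⟩
  map_target' := by
    intro y hy
    simp only [dif_pos hy, mem_ofPred_eq]
    exact mem_image_of_mem f hy
  left_inv' := by
    rintro x ⟨y, hy, hx⟩
    have h1 : Function.invFunOn f V x.1 ∈ V := Function.invFunOn_mem ⟨y, hy, hx⟩
    simp only [dif_pos h1]
    exact Subtype.ext (Function.invFunOn_eq ⟨y, hy, hx⟩)
  right_inv' := by
    intro y hy
    simp only [dif_pos hy]
    exact sub_inv h hy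
  open_source := by
    obtain ⟨U, hU, hU'⟩ := h.image_open V Subset.rfl h.isOpen
    have : {x : S | x.1 ∈ f '' V} = Subtype.val ⁻¹' U := by
      ext x
      simp only [hU', mem_ofPred_eq, mem_inter_iff, mem_preimage]
      exact ⟨fun a => a.2, fun a => ⟨x.2, a⟩⟩
    rw [this]
    exact hU.preimage continuous_subtype_val
  open_target := h.isOpen
  continuousOn_toFun := by
    rintro x ⟨y, hy, hx⟩
    obtain ⟨ρ, U, hU, hyU, hρ, hρ'⟩ := sub_loc h hy
    rw [hx] at hyU
    have h1 : ContinuousAt (fun z : S => ρ z.1) x :=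
      ContinuousAt.comp (f := Subtype.val) (hρ.continuousOn.continuousAt (hU.mem_nhds hyU))
        continuous_subtype_val.continuousAt
    refine (h1.congr ?_).continuousWithinAt
    filter_upwards [(hU.preimage continuous_subtype_val).mem_nhds hyU] with z hz
    exact (hρ' z.1 z.2 hz).symm
  continuousOn_invFun := by
    rw [IsInducing.subtypeVal.continuousOn_iff]
    refine h.contDiffOn.continuousOn.congr fun y hy => ?_
    simp only [Function.comp_apply, dif_pos hy]

theorem subChart_apply (h : Submanifold.IsLocalParam n N S p f V) (x : S) :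
    subChart h x = Function.invFunOn f V x.1 := rfl

theorem subChart_symm (h : Submanifold.IsLocalParam n N S p f V) {y : EE n} (hy : y ∈ V) :
    (((subChart h).symm y : S) : EE N) = f y := by
  classical
  change ((if hy : y ∈ V then ⟨f y, lp_mem h hy⟩ else ⟨p, lp_base_mem h⟩ : S) : EE N) = f y
  rw [dif_pos hy]

theorem subChart_tr (h : Submanifold.IsLocalParam n N S p f V)
    (h' : Submanifold.IsLocalParam n N S p' f' V') {y : EE n} (hy : y ∈ V)
    (hy' : f y ∈ f' '' V') :
    ContDiffAt ℝ ∞ (fun z => subChart h' ((subChart h).symm z)) y := by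
  obtain ⟨y', hy', e⟩ := hy'
  obtain ⟨ρ, U, hU, hyU, hρ, hρ'⟩ := sub_loc h' hy'
  rw [e] at hyU
  have hf := lp_contDiffAt h hy
  have h1 : ContDiffAt ℝ ∞ (fun z => ρ (f z)) y :=
    ContDiffAt.comp (f := f) y (hρ.contDiffAt (hU.mem_nhds hyU)) hf
  refine h1.congr_of_eventuallyEq ?_
  filter_upwards [h.isOpen.mem_nhds hy, hf.continuousAt.preimage_mem_nhds (hU.mem_nhds hyU)]
    with z hz hzU
  rw [subChart_apply, subChart_symm h hz]
  exact hρ' _ (lp_mem h hz) hzU

theorem subChart_fderiv (h : Submanifold.IsLocalParam n N S p f V)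
    (h' : Submanifold.IsLocalParam n N S p' f' V') {x : S} (hx : x ∈ (subChart h).source)
    (hx' : x ∈ (subChart h').source) (v : EE n) :
    fderiv ℝ f (subChart h x) v = fderiv ℝ f' (subChart h' x)
      (fderiv ℝ (fun z => subChart h' ((subChart h).symm z)) (subChart h x) v) := by
  have hy : subChart h x ∈ V := (subChart h).map_source hx
  have hy' : subChart h' x ∈ V' := (subChart h').map_source hx'
  have hl : (subChart h).symm (subChart h x) = x := (subChart h).left_inv hx
  have hfx : f (subChart h x) = x.1 := by rw [← subChart_symm h hy, hl]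
  have ht := (subChart_tr h h' hy (by rw [hfx]; exact hx')).differentiableAt (by simp)
  have e1 : f =ᶠ[𝓝 (subChart h x)] fun z => f' (subChart h' ((subChart h).symm z)) := by
    have hc : ContinuousAt (subChart h).symm (subChart h x) :=
      (subChart h).continuousAt_symm hy
    have h2 : (subChart h').source ∈ 𝓝 ((subChart h).symm (subChart h x)) := by
      rw [hl]
      exact (subChart h').open_source.mem_nhds hx'
    filter_upwards [h.isOpen.mem_nhds hy, hc.preimage_mem_nhds h2] with z hz hz'
    rw [← subChart_symm h' ((subChart h').map_source hz'), (subChart h').left_inv hz',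
      subChart_symm h hz]
  have hd : DifferentiableAt ℝ f' (subChart h' ((subChart h).symm (subChart h x))) := by
    rw [hl]
    exact (lp_contDiffAt h' hy').differentiableAt (by simp)
  rw [e1.fderiv_eq, fderiv_fun_comp (f := fun z => subChart h' ((subChart h).symm z))
    (subChart h x) hd ht]
  simp only [hl, ContinuousLinearMap.comp_apply]

/-- the index type: all local parametrisations -/
def SubIx (n N : ℕ) (S : Set (EE N)) : Type :=
  {q : EE N × (EE n → EE N) × Set (EE n) // Submanifold.IsLocalParam n N S q.1 q.2.1 q.2.2}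

/-- the atlas of all local parametrisations -/
def subAtl (hS : Submanifold.IsSubmanifold n N S) : RAtl n S where
  ι := SubIx n N S
  c q := subChart q.2
  cover x := by
    obtain ⟨f, V, h⟩ := hS x.1 x.2
    exact ⟨⟨(x.1, f, V), h⟩, 0, h.zero_mem, h.map_zero⟩
  smt q r y hy := by
    refine (subChart_tr q.2 r.2 hy.1 ?_).contDiffWithinAt
    rw [← subChart_symm q.2 hy.1]
    exact hy.2
  G q := Submanifold.metricMat q.1.2.1
  Gsm q := (egr_riem q.2.isOpen q.2.contDiffOn q.2.injective_fderiv).contDiffOn
  Gpd q := (egr_riem q.2.isOpen q.2.contDiffOn q.2.injective_fderiv).posDef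
  Gtr q r x hx v w := by
    rw [egr_sum, egr_sum, subChart_fderiv q.2 r.2 hx.1 hx.2 v,
      subChart_fderiv q.2 r.2 hx.1 hx.2 w]

theorem sub : SubStmt := by
  intro n N S hS
  refine ⟨subAtl hS, fun q => ⟨q.1.1, q.1.2.1, q.1.2.2, q.2, rfl, rfl,
    fun y hy => subChart_symm q.2 hy⟩, fun p f V h => ⟨⟨(p, f, V), h⟩, rfl, rfl⟩⟩

end Crest.Agent.N222.D
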