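import Crest.Agent.N222.D.Defs
import Crest.Agent.R247.Ms4_322
import Crest.Agent.R202.EllFinal

/-!
# Row 222, part D: Weyl's lemma on a Riemannian manifold (helper17)

In a chart, `mLap` is `(1/√det g) · divA (√det g · g⁻¹)`; apply `ell_regularity` (R202).
-/

set_option autoImplicit false
set_option linter.unusedSectionVars false

open Set Filter Topology Bundle MeasureTheory
open scoped ContDiff Manifold
open Crest.GeometryTopology.CoordMetric Crest.GeometryTopology.ChartCurvature
  Crest.GeometryTopology.PointedLimit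
open Crest.Agent.R202.Tens Crest.Agent.R247.Bo84 Crest.Agent.R273.RMan_798
open Crest.Agent.R202.Ell (divA ell_regularity tsupport_divA_subset)

noncomputable section

namespace Crest.Agent.N222.D

namespace Weyl

section Euclid

variable {n : ℕ} {g : MetricField n} {U : Set (EE n)}

/-- the coefficient matrix `√det g · g⁻¹` -/
def cA (g : MetricField n) (y : EE n) : Matrix (Fin n) (Fin n) ℝ :=
  Real.sqrt (g y).det • inverseField g y

theorem cA_apply (g : MetricField n) (y : EE n) (i j : Fin n) :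
    cA g y i j = Real.sqrt (g y).det * inverseField g y i j := rfl

theorem lap_eq_divA (g : MetricField n) (f : EE n → ℝ) (x : EE n) :
    laplaceBeltrami g f x = (1 / Real.sqrt (g x).det) * divA (cA g) f x := by
  unfold laplaceBeltrami divA
  congr 1
  refine Finset.sum_congr rfl fun i _ => ?_
  congr 1
  funext y
  rw [Finset.mul_sum]
  exact Finset.sum_congr rfl fun j _ => by rw [cA_apply]; ring

theorem divA_eq (hg : IsRiemannianOn g U) {x : EE n} (hx : x ∈ U) (f : EE n → ℝ) :
    divA (cA g) f x = Real.sqrt (g x).det * laplaceBeltrami g f x := by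
  have h : 0 < Real.sqrt (g x).det := Real.sqrt_pos.2 (det_pos hg hx)
  rw [lap_eq_divA]
  field_simp

theorem cA_smooth (hg : IsRiemannianOn g U) (i j : Fin n) :
    ContDiffOn ℝ ∞ (fun y => cA g y i j) U := fun _ hx =>
  ((contDiffAt_sqrt_det hg hx).mul (contDiffAt_inv hg hx i j)).contDiffWithinAt

theorem cA_posDef (hg : IsRiemannianOn g U) {x : EE n} (hx : x ∈ U) : (cA g x).PosDef :=
  (hg.posDef x hx).inv.smul (Real.sqrt_pos.2 (det_pos hg hx))

theorem divA_zero_off (A : EE n → Matrix (Fin n) (Fin n) ℝ) {f : EE n → ℝ} {x : EE n}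
    (hx : x ∉ tsupport f) : divA A f x = 0 :=
  image_eq_zero_of_notMem_tsupport fun h => hx (tsupport_divA_subset A f h)

theorem continuousOn_divA (hg : IsRiemannianOn g U) {f : EE n → ℝ} (hf : ContDiff ℝ ∞ f) :
    ContinuousOn (divA (cA g) f) U := by
  refine ContinuousOn.congr (f := fun x => Real.sqrt (g x).det * laplaceBeltrami g f x)
    (fun x hx => ?_) fun x hx => divA_eq hg hx f
  exact ((contDiffAt_sqrt_det hg hx).continuousAt.mul
    (contDiffAt_lap hg hx (m := 0) (hf.contDiffAt (x := x)) (by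
      norm_num; exact two_le_infty) (by simp)).continuousAt).continuousWithinAt

theorem integrable_mul_divA (hg : IsRiemannianOn g U) {u f : EE n → ℝ} (hu : ContinuousOn u U)
    (hf : ContDiff ℝ ∞ f) (hc : HasCompactSupport f) (hs : tsupport f ⊆ U) :
    Integrable fun x => u x * divA (cA g) f x := by
  refine (integrableOn_iff_integrable_of_support_subset (s := tsupport f) ?_).1 ?_
  · intro x hx
    by_contra h
    exact hx (by simp [divA_zero_off _ h])
  · exact ((hu.mul (continuousOn_divA hg hf)).mono hs).integrableOn_compact hc.isCompact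

theorem exists_cut {K : Set (EE n)} (hK : IsCompact K) (hU : IsOpen U) (hKU : K ⊆ U) :
    ∃ η : EE n → ℝ, ContDiff ℝ ∞ η ∧ HasCompactSupport η ∧ tsupport η ⊆ U ∧ (∀ x, 0 ≤ η x) ∧
      ∀ x ∈ K, η x = 1 := by
  obtain ⟨L, hL, hKL, hLU⟩ := exists_compact_between hK hU hKU
  obtain ⟨η, h1, h2, h3, h4⟩ := exists_contMDiff_support_eq_eq_one_iff (n := (⊤ : ℕ∞))
    𝓘(ℝ, EE n) isOpen_interior hK.isClosed hKL
  have h5 : tsupport η ⊆ L := by
    unfold tsupport
    rw [h3]
    exact closure_minimal interior_subset hL.isClosed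
  exact ⟨η, h1.contDiff, hL.of_isClosed_subset (isClosed_tsupport η) h5, h5.trans hLU,
    fun x => (h2 ⟨x, rfl⟩).1, fun x hx => (h4 x).1 hx⟩

/-- from nonnegative test functions to all test functions -/
theorem test_all (hg : IsRiemannianOn g U) {u : EE n → ℝ} (hu : ContinuousOn u U)
    (h : ∀ f : EE n → ℝ, ContDiff ℝ ∞ f → HasCompactSupport f → tsupport f ⊆ U →
      (∀ x, 0 ≤ f x) → ∫ x, u x * divA (cA g) f x = 0)
    {f : EE n → ℝ} (hf : ContDiff ℝ ∞ f) (hc : HasCompactSupport f) (hs : tsupport f ⊆ U) :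
    ∫ x, u x * divA (cA g) f x = 0 := by
  obtain ⟨η, h1, h2, h3, h4, h5⟩ := exists_cut hc.isCompact hg.isOpen hs
  obtain ⟨C, hC⟩ := hc.isCompact.exists_bound_of_continuousOn hf.continuous.continuousOn
  set D := max C 0 with hD
  have hD0 : 0 ≤ D := le_max_right _ _
  have e1 : ContDiff ℝ ∞ fun x => D * η x := contDiff_const.mul h1
  have s1 : tsupport (fun x => D * η x) ⊆ tsupport η := tsupport_mul_subset_right
  have c1 : HasCompactSupport fun x => D * η x := h2.mul_left
  have e2 : ContDiff ℝ ∞ fun x => f x + D * η x := hf.add e1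
  have c2 : HasCompactSupport fun x => f x + D * η x := hc.add c1
  have s2 : tsupport (fun x => f x + D * η x) ⊆ U :=
    (tsupport_add f fun x => D * η x).trans (union_subset hs (s1.trans h3))
  have p2 : ∀ x, 0 ≤ f x + D * η x := by
    intro x
    by_cases hx : x ∈ tsupport f
    · have := hC x hx
      rw [h5 x hx, Real.norm_eq_abs] at *
      linarith [neg_abs_le (f x), le_max_left C 0]
    · rw [image_eq_zero_of_notMem_tsupport hx, zero_add]
      exact mul_nonneg hD0 (h4 x)
  have i1 := h _ e1 c1 (s1.trans h3) fun x => mul_nonneg hD0 (h4 x)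
  have i2 := h _ e2 c2 s2 p2
  have key : ∀ x, u x * divA (cA g) f x =
      u x * divA (cA g) (fun x => f x + D * η x) x - u x * divA (cA g) (fun x => D * η x) x := by
    intro x
    by_cases hx : x ∈ U
    · have two : (2 : WithTop ℕ∞) ≤ ∞ := two_le_infty
      rw [divA_eq hg hx, divA_eq hg hx, divA_eq hg hx,
        lap_add hg hx (hf.contDiffAt.of_le two) (e1.contDiffAt.of_le two)]
      ring
    · rw [divA_zero_off _ fun h => hx (hs h), divA_zero_off _ fun h => hx (s2 h),
        divA_zero_off _ fun h => hx (h3 (s1 h))]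
      ring
  simp_rw [key]
  rw [integral_sub (integrable_mul_divA hg hu e2 c2 s2)
    (integrable_mul_divA hg hu e1 c1 (s1.trans h3)), i1, i2, sub_zero]

end Euclid

section Mfd

variable {n : ℕ} {M : Type} [MetricSpace M] [ChartedSpace (EE n) M] [IsManifold (𝓡 n) ∞ M]
  [RiemannianBundle (fun x : M => TangentSpace (𝓡 n) x)]
  [IsContMDiffRiemannianBundle (𝓡 n) ∞ (EE n) (fun x : M => TangentSpace (𝓡 n) x)]

open Classical in
/-- push a function on the chart target to the manifold -/
def psh (x₀ : M) (f : EE n → ℝ) (p : M) : ℝ :=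
  if p ∈ (chartAt (EE n) x₀).source then f (chartAt (EE n) x₀ p) else 0

theorem psh_symm (x₀ : M) (f : EE n → ℝ) {y : EE n} (hy : y ∈ (chartAt (EE n) x₀).target) :
    inCh n x₀ (psh x₀ f) y = f y := by
  unfold inCh psh
  rw [if_pos ((chartAt (EE n) x₀).map_target hy), (chartAt (EE n) x₀).right_inv hy]

theorem psh_ev (x₀ : M) (f : EE n → ℝ) {y : EE n} (hy : y ∈ (chartAt (EE n) x₀).target) :
    inCh n x₀ (psh x₀ f) =ᶠ[𝓝 y] f := by
  filter_upwards [(chartAt (EE n) x₀).open_target.mem_nhds hy] with z hz using psh_symm x₀ f hz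

theorem isCompact_img (x₀ : M) {f : EE n → ℝ} (hc : HasCompactSupport f)
    (hs : tsupport f ⊆ (chartAt (EE n) x₀).target) :
    IsCompact ((chartAt (EE n) x₀).symm '' tsupport f) :=
  hc.isCompact.image_of_continuousOn ((chartAt (EE n) x₀).continuousOn_symm.mono hs)

theorem psh_zero (x₀ : M) (f : EE n → ℝ) {p : M}
    (hp : p ∉ (chartAt (EE n) x₀).symm '' tsupport f) : psh x₀ f p = 0 := by
  unfold psh
  split_ifs with h
  · refine image_eq_zero_of_notMem_tsupport fun h' => hp ⟨_, h', ?_⟩
    exact (chartAt (EE n) x₀).left_inv h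
  · rfl

theorem psh_ev_zero (x₀ : M) {f : EE n → ℝ} (hc : HasCompactSupport f)
    (hs : tsupport f ⊆ (chartAt (EE n) x₀).target) {p : M}
    (hp : p ∉ (chartAt (EE n) x₀).source) : psh x₀ f =ᶠ[𝓝 p] fun _ => 0 := by
  have h1 : p ∉ (chartAt (EE n) x₀).symm '' tsupport f := by
    rintro ⟨y, hy, rfl⟩
    exact hp ((chartAt (EE n) x₀).map_target (hs hy))
  filter_upwards [(isCompact_img x₀ hc hs).isClosed.isOpen_compl.mem_nhds h1] with q hq
  exact psh_zero x₀ f hq

theorem psh_sm (x₀ : M) {f : EE n → ℝ} (hf : ContDiff ℝ ∞ f) (hc : HasCompactSupport f)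
    (hs : tsupport f ⊆ (chartAt (EE n) x₀).target) : Sm n M (psh x₀ f) := by
  intro p
  by_cases hp : p ∈ (chartAt (EE n) x₀).source
  · exact contMDiffAt_of_inCh le_rfl hp
      (hf.contDiffAt.congr_of_eventuallyEq (psh_ev x₀ f ((chartAt (EE n) x₀).map_source hp)))
  · exact contMDiffAt_const.congr_of_eventuallyEq (psh_ev_zero x₀ hc hs hp)

theorem psh_cs (x₀ : M) {f : EE n → ℝ} (hc : HasCompactSupport f)
    (hs : tsupport f ⊆ (chartAt (EE n) x₀).target) : HasCompactSupport (psh x₀ f) :=
  HasCompactSupport.intro (isCompact_img x₀ hc hs) fun _ hp => psh_zero x₀ f hp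

theorem psh_nonneg (x₀ : M) {f : EE n → ℝ} (h : ∀ x, 0 ≤ f x) (p : M) : 0 ≤ psh x₀ f p := by
  unfold psh
  split_ifs
  · exact h _
  · exact le_rfl

variable [IsRiemannianManifold (𝓡 n) M] [MeasurableSpace M] [BorelSpace M]

theorem integral_psh (x₀ : M) (b : M → ℝ) {f : EE n → ℝ} (hf : ContDiff ℝ ∞ f)
    (hc : HasCompactSupport f) (hs : tsupport f ⊆ (chartAt (EE n) x₀).target) :
    ∫ x, b x * mLap n (psh x₀ f) x ∂(Measure.euclideanHausdorffMeasure n) =
      ∫ y, inCh n x₀ b y * divA (cA (chartMetric n M x₀)) f y := by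
  have two : (2 : WithTop ℕ∞) ≤ ∞ := two_le_infty
  rw [R247.Ms322.integral_eq_of_support x₀ _ fun z hz => by
    rw [mLap_congr (psh_ev_zero x₀ hc hs hz), mLap_const, mul_zero]]
  rw [← setIntegral_eq_integral_of_forall_compl_eq_zero (s := (chartAt (EE n) x₀).target)
    (f := fun y => inCh n x₀ b y * divA (cA (chartMetric n M x₀)) f y) fun y hy => by
      rw [divA_zero_off _ fun h => hy (hs h), mul_zero]]
  refine setIntegral_congr_fun (chartAt (EE n) x₀).open_target.measurableSet fun y hy => ?_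
  rw [mLap_chart hy ((psh_sm x₀ hf hc hs _).of_le two), lap_congr (psh_ev x₀ f hy),
    divA_eq (isRiemannianOn_chartMetric x₀) hy, smul_eq_mul]
  unfold R247.Ms322.dens inCh
  ring

end Mfd

end Weyl

open Weyl in
/-- Weyl's lemma -/
theorem weyl : WeylStmt := by
  intro n M _ _ _ _ _ _ _ _ b hb h
  have main : ∀ x₀ : M, ContDiffOn ℝ ∞ (inCh n x₀ b) (chartAt (EE n) x₀).target ∧
      ∀ y ∈ (chartAt (EE n) x₀).target,
        laplaceBeltrami (chartMetric n M x₀) (inCh n x₀ b) y = 0 := by
    intro x₀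
    have hg := isRiemannianOn_chartMetric (n := n) x₀
    have hU := (chartAt (EE n) x₀).open_target
    have hu : ContinuousOn (inCh n x₀ b) (chartAt (EE n) x₀).target :=
      hb.comp_continuousOn (chartAt (EE n) x₀).continuousOn_symm
    obtain ⟨v, hv, hvu, hv0⟩ := ell_regularity n _ hU (cA (chartMetric n M x₀)) (cA_smooth hg)
      (fun x hx => cA_posDef hg hx) (fun _ => 0) contDiffOn_const (inCh n x₀ b)
      (hu.locallyIntegrableOn hU.measurableSet) fun φ h1 h2 h3 => by
        simp only [zero_mul, integral_zero]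
        refine test_all hg hu (fun f e1 e2 e3 e4 => ?_) h1 h2 h3
        rw [← integral_psh x₀ b e1 e2 e3]
        exact h _ (psh_sm x₀ e1 e2 e3) (psh_cs x₀ e2 e3) (psh_nonneg x₀ e4)
    have he : EqOn v (inCh n x₀ b) (chartAt (EE n) x₀).target :=
      Measure.eqOn_open_of_ae_eq ((ae_restrict_iff' hU.measurableSet).2 hvu) hU
        hv.continuousOn hu
    refine ⟨hv.congr fun y hy => (he hy).symm, fun y hy => ?_⟩
    have hev : inCh n x₀ b =ᶠ[𝓝 y] v := by
      filter_upwards [hU.mem_nhds hy] with z hz using (he hz).symm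
    rw [lap_congr hev, lap_eq_divA, hv0 y hy, mul_zero]
  refine ⟨fun p => ?_, fun p => (main p).2 _ (centre_mem p)⟩
  exact contMDiffAt_of_inCh le_rfl (mem_chart_source (EE n) p)
    ((main p).1.contDiffAt ((chartAt (EE n) p).open_target.mem_nhds (centre_mem p)))

end Crest.Agent.N222.D
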