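import Crest.Agent.N222.D.Frame
import Crest.Agent.N222.D.Split
import Crest.Agent.N222.D.Weyl
import Crest.Agent.N222.D.Pert
import Crest.Agent.N222.D.Egr
import Crest.Agent.N222.D.Sub

/-!
# Row 222, part D: assembly (helper55).  `s0343_of : NoPosStmt → EssStmt → (S0343)`.
-/

set_option autoImplicit false
set_option linter.unusedSectionVars false

open Set Filter Topology Bundle Metric
open scoped ContDiff Manifold
open Crest.GeometryTopology.CoordMetric Crest.GeometryTopology.ChartCurvature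
  Crest.GeometryTopology.PointedLimit
open Crest.Agent.R202.Tens Crest.Agent.R247.Bo84 Crest.Agent.R273.RMan_798 Crest.Agent.R247

noncomputable section

namespace Crest.Agent.N222.D

/-- cocompact isometric actions force completeness -/
theorem complete_of_cocpt {X Γ : Type} [MetricSpace X] [LocallyCompactSpace X] [Group Γ]
    [MulAction Γ X] (hd : ∀ (g : Γ) (x y : X), dist (g • x) (g • y) = dist x y) {K : Set X}
    (hK : IsCompact K) (hcov : ∀ x : X, ∃ g : Γ, g • x ∈ K) : CompleteSpace X := by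
  obtain ⟨δ, hδ, hc⟩ := hK.exists_isCompact_cthickening
  refine ⟨fun {f} hf => ?_⟩
  obtain ⟨t, ht, htd⟩ := (Metric.cauchy_iff.1 hf).2 δ hδ
  have := hf.1
  obtain ⟨x, hx⟩ := Filter.nonempty_of_mem ht
  obtain ⟨g, hg⟩ := hcov x
  have hi : Isometry fun y : X => g⁻¹ • y := Isometry.of_dist_eq (hd _)
  obtain ⟨a, -, ha⟩ := (hc.image hi.continuous).isComplete f hf (le_principal_iff.2 <|
    mem_of_superset ht fun y hy => ⟨g • y, mem_cthickening_of_dist_le _ _ _ _ hg
      (by rw [hd]; exact (htd y hy x hx).le), inv_smul_smul g y⟩)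
  exact ⟨a, ha⟩

section Lift

variable {n : ℕ} {N : Type} [TopologicalSpace N] (R : RAtl n N) (C : Gal N)

theorem chIso_pr : RAtl.ChIso (lift R C) R C.pr := by
  intro x
  obtain ⟨k, hk⟩ := (lift R C).cover x
  refine ⟨k, k.1, hk, ?_, rfl⟩
  filter_upwards [((lift R C).ch k).open_source.mem_nhds hk] with y hy
  exact ⟨k.2.app y ▸ hy.2, congrArg (R.c k.1) (k.2.app y).symm⟩

theorem chIso_smul (g : C.Γ) : RAtl.ChIso (lift R C) (lift R C) fun x => g • x := by
  intro x
  obtain ⟨k, hk⟩ := (lift R C).cover x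
  obtain ⟨e, he, hpr⟩ := C.loc (g • (show C.M from x))
  refine ⟨k, (k.1, ⟨e, hpr⟩), hk, ?_, rfl⟩
  filter_upwards [((lift R C).ch k).open_source.mem_nhds hk,
    (C.cont g).continuousAt.preimage_mem_nhds (e.open_source.mem_nhds he)] with y hy hy'
  have e1 : e (g • (show C.M from y)) = k.2.1 y := by rw [← hpr, C.deck, k.2.app]
  have h2 : k.2.1 y ∈ (R.c k.1).source := hy.2
  have h3 : e (g • (show C.M from y)) ∈ (R.c k.1).source := e1 ▸ h2
  exact ⟨⟨hy', h3⟩, congrArg (R.c k.1) e1⟩

theorem locIso_pr : LocIso n (M := (lift R C).M) (M' := R.M) C.pr :=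
  ⟨(chIso_pr R C).contMDiff C.loc.continuous, (chIso_pr R C).norm_mfderiv C.loc.continuous⟩

theorem dist_smul (g : C.Γ) (x y : (lift R C).M) : dist (g • x) (g • y) = dist x y := by
  refine le_antisymm ((chIso_smul R C g).dist_le (C.cont g) x y) ?_
  have := (chIso_smul R C g⁻¹).dist_le (C.cont g⁻¹) (g • x) (g • y)
  simpa only [inv_smul_smul] using this

/-- `Ric ≥ 0` and essential: flat -/
theorem flat_of_ric (hric : HasRicciLowerBound n R.M 0) (hC : ¬ Deg n (lift R C).M C.Γ) :
    Flat n R.M := by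
  obtain ⟨K, hK, hcov⟩ := C.cocpt
  have : CompleteSpace (lift R C).M := complete_of_cocpt (dist_smul R C) hK hcov
  exact (locIso_pr R C).flat C.surj ((frame (split weyl) n (lift R C).M C.Γ
    ((locIso_pr R C).ricci hric) (fun g => (chIso_smul R C g).contMDiff (C.cont g))
    (fun g => (chIso_smul R C g).norm_mfderiv (C.cont g)) (dist_smul R C) ⟨K, hK, hcov⟩
    C.fin).resolve_right hC)

/-- transition maps of the atlas are local isometries -/
theorem pull_atl (i : R.ι) (q : R.M) : Pull (R.G i) (chartMetric n R.M q)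
    (fun y => R.c (R.idx q) ((R.c i).symm y))
    {y | y ∈ (R.c i).target ∧ (R.c i).symm y ∈ (R.c (R.idx q)).source} (R.c (R.idx q)).target := by
  have key : ∀ y, y ∈ (R.c i).target ∧ (R.c i).symm y ∈ (R.c (R.idx q)).source → ∀ v w : EE n,
      ∑ a, ∑ b, R.G i y a b * v a * w b =
      ∑ a, ∑ b, chartMetric n R.M q (R.c (R.idx q) ((R.c i).symm y)) a b *
        (fderiv ℝ (fun y => R.c (R.idx q) ((R.c i).symm y)) y v) a *
        (fderiv ℝ (fun y => R.c (R.idx q) ((R.c i).symm y)) y w) b := by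
    intro y hy v w
    have := R.Gtr i (R.idx q) _ ⟨(R.c i).map_target hy.1, hy.2⟩ v w
    rw [(R.c i).right_inv hy.1] at this
    rw [R.chartMetric_eq q ((R.c _).map_source hy.2), this]
  refine ⟨(R.c i).isOpen_inter_preimage_symm (R.c _).open_source, isRiemannianOn_chartMetric q,
    fun y hy => (R.c _).map_source hy.2, R.smt _ _, fun y hy a b => ?_, fun y hy => ?_⟩
  · rw [← key y hy]
    simp
  · rw [injective_iff_map_eq_zero]
    intro u hu
    by_contra h0
    have h1 := R.bil_pos i hy.1 u h0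
    rw [R.bil_apply, key y hy, hu] at h1
    simp at h1

theorem Flat.chart (h : Flat n R.M) (i : R.ι) {y : EE n} (hy : y ∈ (R.c i).target) (X Y Z : EE n) :
    curv (Gam (R.G i)) y X Y Z = 0 := by
  have hP := pull_atl R i ((R.c i).symm y)
  have hy' := And.intro hy (R.idx_mem ((R.c i).symm y))
  refine hP.inj y hy' ?_
  rw [hP.curv_eq hy', map_zero]
  exact h _ _ _ _

end Lift

/-- rigidity for atlases -/
theorem flat_of (hN : NoPosStmt) (hE : EssStmt) {n : ℕ} {N : Type} [TopologicalSpace N] [T2Space N]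
    [CompactSpace N] [ConnectedSpace N] (R : RAtl n N) (hA : Asph N)
    (hs : ∀ p, 0 ≤ mScal n R.M p) : Flat n R.M := by
  by_cases hric : HasRicciLowerBound n R.M 0
  · obtain ⟨C, hC⟩ := hE n N R hA
    exact flat_of_ric R C hric hC
  · obtain ⟨R', hR'⟩ := pert' n N R hs hric
    exact absurd hR' (hN n N R' hA)

open Crest.GeometryTopology Submanifold

theorem param_shift {n N : ℕ} {S : Set (EE N)} {p : EE N} {f : EE n → EE N} {V : Set (EE n)}
    (h : IsLocalParam n N S p f V) {y : EE n} (hy : y ∈ V) :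
    IsLocalParam n N S (f y) (fun z => f (z + y)) ((fun z => z + y) ⁻¹' V) where
  isOpen := h.isOpen.preimage (by fun_prop)
  zero_mem := by simpa using hy
  map_zero := by simp
  contDiffOn := h.contDiffOn.comp (by fun_prop) fun _ hz => hz
  injOn := fun _ ha _ hb e => add_right_cancel (h.injOn ha hb e)
  injective_fderiv x hx := by rw [fderiv_comp_add_right]; exact h.injective_fderiv _ hx
  image_open W hW hWo := by
    obtain ⟨U, hU, e⟩ := h.image_open ((fun z => z + y) '' W) (by rintro _ ⟨z, hz, rfl⟩; exact hW hz)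
      (isOpenMap_add_right y W hWo)
    exact ⟨U, hU, by rw [← e, image_image]⟩

theorem scalar_shift {n N : ℕ} (f : EE n → EE N) (y : EE n) :
    scalar (fun z => f (z + y)) 0 = scalar f y := by
  have h1 : ∀ x, pd (fun z => f (z + y)) x = pd f (x + y) := fun x => by
    funext i; simp only [pd, fderiv_comp_add_right]
  have h2 : Submanifold.hess (fun z => f (z + y)) 0 = Submanifold.hess f y := by
    funext i j
    simp only [Submanifold.hess, h1]
    rw [fderiv_comp_add_right (f := fun x => pd f x j), zero_add]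
  simp only [scalar, Submanifold.ricci, riem, sff, normalPart, tangentAt, metricMat, h1, h2,
    zero_add]

/-- the scalar curvature of the atlas of parametrisations -/
theorem mScal_sub {n N : ℕ} {S : Set (EE N)} (R : RAtl n S)
    (hR : ∀ i, ∃ p f V, IsLocalParam n N S p f V ∧ (R.c i).target = V ∧
      R.G i = metricMat f ∧ ∀ y ∈ V, (((R.c i).symm y : S) : EE N) = f y) (q : R.M) :
    ∃ p ∈ S, ∃ f V, IsLocalParam n N S p f V ∧ mScal n R.M q = scalar f 0 := by
  obtain ⟨p, f, V, h, hV, hG, hf⟩ := hR (R.idx q)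
  have hy : R.c (R.idx q) q ∈ V := hV ▸ R.mem_target q
  refine ⟨_, hf _ hy ▸ Subtype.prop _, _, _, param_shift h hy, ?_⟩
  rw [scalar_shift, mScal_chartR R (R.idx_mem q), hG,
    ((egr n N f V h.isOpen h.contDiffOn h.injective_fderiv).2 _ hy).2]

/-- **S0343 from the two inputs** -/
theorem s0343_of (hN : NoPosStmt) (hE : EssStmt)
    (n N : ℕ) (S : Set (EuclideanSpace ℝ (Fin N))) (hS : IsSubmanifold n N S)
    (hcpt : IsCompact S) (hconn : IsConnected S)
    (hasph : ∀ k : ℕ, 2 ≤ k → ∀ x : S, Subsingleton (HomotopyGroup (Fin k) S x))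
    (hscal : ∀ p ∈ S, ∀ (f : EuclideanSpace ℝ (Fin n) → EuclideanSpace ℝ (Fin N))
      (V : Set (EuclideanSpace ℝ (Fin n))), IsLocalParam n N S p f V → 0 ≤ scalar f 0) :
    ∀ p ∈ S, ∀ (f : EuclideanSpace ℝ (Fin n) → EuclideanSpace ℝ (Fin N))
      (V : Set (EuclideanSpace ℝ (Fin n))), IsLocalParam n N S p f V →
      ∀ i j k l : Fin n, riem f 0 i j k l = 0 := by
  have := isCompact_iff_compactSpace.1 hcpt
  have := isConnected_iff_connectedSpace.1 hconn
  obtain ⟨R, hR, hR'⟩ := sub n N S hS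
  have hF := flat_of hN hE R hasph fun q => by
    obtain ⟨p, hp, f, V, h, e⟩ := mScal_sub R hR q
    rw [e]; exact hscal p hp f V h
  intro p _ f V h i j k l
  obtain ⟨a, ha, hG⟩ := hR' p f V h
  rw [((egr n N f V h.isOpen h.contDiffOn h.injective_fderiv).2 _ h.zero_mem).1, ← hG,
    hF.chart R a (ha ▸ h.zero_mem)]
  simp

end Crest.Agent.N222.D
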