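import Crest.Agent.N222.D.Defs
import Crest.Agent.R202.GeoCongr

/-!
# Row 222, part D1, file 1: the perturbed metric `g + s h` in coordinates
-/

set_option autoImplicit false

open Set Filter Topology
open scoped ContDiff
open Crest.GeometryTopology.CoordMetric Crest.GeometryTopology.ChartCurvature
open Crest.Agent.R202.Tens Crest.Agent.R247.Bo84 Crest.Agent.R273.RMan_798

noncomputable section

namespace Crest.Agent.N222.D.Pt

variable {n : ℕ} {g h : MetricField n} {U : Set (EE n)} {y : EE n}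

/-- divergence of the drift `∑ φ_k dψ_k` -/
def cdv {ι : Type} [Fintype ι] (g : MetricField n) (φ ψ : ι → EE n → ℝ) (x : EE n) : ℝ :=
  ∑ k, (gam g (φ k) (ψ k) x + φ k x * laplaceBeltrami g (ψ k) x)

theorem lap_coord (hg : IsRiemannianOn g U) (hy : y ∈ U) {f : EE n → ℝ} (hf : ContDiffAt ℝ 2 f y) :
    laplaceBeltrami g f y = ∑ i, ∑ j, inverseField g y i j *
      (pderiv i (pderiv j f) y - ∑ k, christoffel g y k i j * pderiv k f y) := by
  obtain ⟨ξ, hξ⟩ := exists_frame hg hy
  have hd : DifferentiableAt ℝ (fderiv ℝ f) y :=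
    (hf.fderiv_right (m := 1) (by norm_num)).differentiableAt (by norm_num)
  have he : ∀ i j, hess g f y (EuclideanSpace.single i 1) (EuclideanSpace.single j 1) =
      pderiv i (pderiv j f) y - ∑ k, christoffel g y k i j * pderiv k f y := by
    intro i j
    rw [hess_apply, fderiv_eq_sum]
    congr 1
    · change _ = fderiv ℝ (fun z => fderiv ℝ f z (EuclideanSpace.single j 1)) y _
      rw [fderiv_clm_apply hd (differentiableAt_const _)]
      simp
    · refine Finset.sum_congr rfl fun k _ => ?_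
      rw [Gam_apply]
      simp [PiLp.single_apply]
  have hx : ∀ X Y : EE n, hess g f y X Y = ∑ i, ∑ j, X i * Y j *
      hess g f y (EuclideanSpace.single i 1) (EuclideanSpace.single j 1) := by
    intro X Y
    conv_lhs => rw [eq_sum_single X, eq_sum_single Y]
    simp only [map_sum, sum_apply, map_smul, smul_apply, smul_eq_mul, Finset.mul_sum]
    rw [Finset.sum_comm]
    exact Finset.sum_congr rfl fun i _ => Finset.sum_congr rfl fun j _ => by ring
  rw [lap_frame hg hy hf hξ]
  simp only [hx (ξ _), he, inverseField, hξ.inv, Finset.sum_mul]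
  rw [Finset.sum_comm]
  exact Finset.sum_congr rfl fun i _ => Finset.sum_comm

theorem divg_sum {ι : Type} (hg : IsRiemannianOn g U) (hy : y ∈ U) (t : Finset ι)
    {V : ι → EE n → EE n} (hV : ∀ k, DifferentiableAt ℝ (V k) y) :
    divg g (fun z => ∑ k ∈ t, V k z) y = ∑ k ∈ t, divg g (V k) y := by
  classical
  induction t using Finset.induction_on with
  | empty => simp [divg, pderiv]
  | insert a t ha ih =>
    simp only [Finset.sum_insert ha]
    rw [divg_add hg hy (hV a) (DifferentiableAt.fun_sum fun k _ => hV k), ih]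

theorem pderiv_coord (i k : Fin n) (z : EE n) :
    pderiv i (fun w : EE n => w k) z = if k = i then 1 else 0 := by
  have : (fun w : EE n => w k) = (EuclideanSpace.proj k : EE n →L[ℝ] ℝ) := rfl
  rw [pderiv, this, ContinuousLinearMap.fderiv]
  simp [PiLp.single_apply]

theorem contDiff_coord (k : Fin n) : ContDiff ℝ ∞ (fun w : EE n => w k) :=
  (EuclideanSpace.proj k : EE n →L[ℝ] ℝ).contDiff

/-- a vector field as the drift `∑ V_k dx^k` -/
theorem cdv_lower (hg : IsRiemannianOn g U) (hy : y ∈ U) {V : EE n → EE n}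
    (hV : ∀ l, DifferentiableAt ℝ (fun z => V z l) y) :
    cdv g (fun k z => ∑ l, g z k l * V z l) (fun k z => z k) y = divg g V y := by
  have hd : ∀ k, DifferentiableAt ℝ (fun z => ∑ l, g z k l * V z l) y := fun k =>
    DifferentiableAt.fun_sum fun l _ => (differentiableAt_entry hg hy k l).mul (hV l)
  have hgr : ∀ k, DifferentiableAt ℝ (grad g fun w : EE n => w k) y := fun k =>
    differentiableAt_grad hg hy ((contDiff_coord k).contDiffAt.of_le two_le_infty)
  have e : V =ᶠ[𝓝 y] fun z => ∑ k, (∑ l, g z k l * V z l) • grad g (fun w : EE n => w k) z := by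
    filter_upwards [hg.isOpen.mem_nhds hy] with z hz
    ext i
    simp only [WithLp.ofLp_sum, Finset.sum_apply, PiLp.smul_apply, smul_eq_mul, grad_apply,
      pderiv_coord, mul_ite, mul_one, mul_zero, Finset.sum_ite_eq, Finset.mem_univ, if_true,
      Finset.sum_mul]
    rw [Finset.sum_comm]
    have : ∀ l, ∑ k, g z k l * V z l * inverseField g z i k = if l = i then V z l else 0 := by
      intro l
      have h1 := mul_inv_apply hg hz l i
      have h2 : ∑ k, g z k l * V z l * inverseField g z i k =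
          V z l * ∑ k, g z l k * inverseField g z k i := by
        rw [Finset.mul_sum]
        refine Finset.sum_congr rfl fun k _ => ?_
        rw [metric_symm hg hz k l, inv_symm hg hz i k]; ring
      rw [h2, h1]; split_ifs <;> simp
    simp [this]
  rw [divg_congr e, divg_sum (V := fun k z => (∑ l, g z k l * V z l) •
    grad g (fun w : EE n => w k) z) hg hy Finset.univ fun k => (hd k).smul (hgr k), cdv]
  refine Finset.sum_congr rfl fun k _ => ?_
  rw [divg_smul hg hy (hd k) (hgr k), divg_grad, gam_eq_fderiv_grad, add_comm]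

/-- the perturbed metric -/
def gs (g h : MetricField n) (s : ℝ) : MetricField n := fun y => g y + s • h y

theorem gs_apply (s : ℝ) (z : EE n) (i j : Fin n) : gs g h s z i j = g z i j + s * h z i j := rfl

theorem gs_zero : gs g h 0 = g := by funext z; simp [gs]

/-- data of the perturbation -/
structure Dat (g h : MetricField n) (U : Set (EE n)) : Prop where
  riem : IsRiemannianOn g U
  sm : ∀ i j, ContDiffOn ℝ ∞ (fun z => h z i j) U
  psd : ∀ z ∈ U, (h z).PosSemidef

theorem Dat.gs_riem (D : Dat g h U) {s : ℝ} (hs : 0 ≤ s) : IsRiemannianOn (gs g h s) U :=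
  ⟨D.riem.isOpen, fun i j => (D.riem.contDiffOn i j).add (contDiffOn_const.mul (D.sm i j)),
    fun z hz => (D.riem.posDef z hz).add_posSemidef ((D.psd z hz).smul hs)⟩

/-- `I_s h I` -/
def mid (g h : MetricField n) (s : ℝ) (y : EE n) (i j : Fin n) : ℝ :=
  ∑ a, ∑ b, inverseField (gs g h s) y i a * h y a b * inverseField g y b j

theorem Dat.inv_gs (D : Dat g h U) {s : ℝ} (hs : 0 ≤ s) (hy : y ∈ U) (i j : Fin n) :
    inverseField (gs g h s) y i j = inverseField g y i j - s * mid g h s y i j := by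
  have h1 := Matrix.nonsing_inv_mul (gs g h s y) (det_pos (D.gs_riem hs) hy).ne'.isUnit
  have h2 := Matrix.mul_nonsing_inv (g y) (det_pos D.riem hy).ne'.isUnit
  have h3 : (gs g h s y)⁻¹ = (g y)⁻¹ - s • ((gs g h s y)⁻¹ * h y * (g y)⁻¹) := by
    have : (gs g h s y)⁻¹ * gs g h s y * (g y)⁻¹ =
        (gs g h s y)⁻¹ * (g y * (g y)⁻¹) + s • ((gs g h s y)⁻¹ * h y * (g y)⁻¹) := by
      conv_lhs => arg 1; arg 2; rw [gs]
      simp only [Matrix.mul_add, Matrix.add_mul, Matrix.mul_smul, Matrix.smul_mul, Matrix.mul_assoc]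
    rw [h1, h2, Matrix.one_mul, Matrix.mul_one] at this
    exact eq_sub_of_add_eq this.symm
  have h4 := congrFun (congrFun h3 i) j
  simp only [Matrix.sub_apply, Matrix.smul_apply, smul_eq_mul, Matrix.mul_apply,
    Finset.sum_mul] at h4
  rw [Finset.sum_comm] at h4
  exact h4

/-- twice the Christoffel symbols of the first kind -/
def lw (g : MetricField n) (y : EE n) (i j l : Fin n) : ℝ :=
  pderiv i (fun z => g z j l) y + pderiv j (fun z => g z i l) y - pderiv l (fun z => g z i j) y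

theorem Dat.lw_gs (D : Dat g h U) (s : ℝ) (hy : y ∈ U) (i j l : Fin n) :
    lw (gs g h s) y i j l = lw g y i j l + s * lw h y i j l := by
  have : ∀ k a b, pderiv k (fun z => gs g h s z a b) y =
      pderiv k (fun z => g z a b) y + s * pderiv k (fun z => h z a b) y := by
    intro k a b
    have h1 := differentiableAt_entry D.riem hy a b
    have h2 : DifferentiableAt ℝ (fun z => h z a b) y :=
      ((D.sm a b).contDiffAt (D.riem.isOpen.mem_nhds hy)).differentiableAt (by simp)
    simp only [gs_apply, pderiv]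
    rw [fderiv_fun_add h1 (h2.const_mul s), fderiv_const_mul h2]
    rfl
  simp only [lw, this]; ring

/-- `dG = s T` -/
def TT (g h : MetricField n) (s : ℝ) (y : EE n) (k i j : Fin n) : ℝ :=
  (1 / 2) * ∑ l, (inverseField (gs g h s) y k l * lw h y i j l - mid g h s y k l * lw g y i j l)

theorem Dat.dG_gs (D : Dat g h U) {s : ℝ} (hs : 0 ≤ s) (hy : y ∈ U) (k i j : Fin n) :
    dG g (gs g h s) y k i j = s * TT g h s y k i j := by
  change (1 / 2) * ∑ l, inverseField (gs g h s) y k l * lw (gs g h s) y i j l -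
    (1 / 2) * ∑ l, inverseField g y k l * lw g y i j l = _
  rw [TT, ← mul_sub, ← Finset.sum_sub_distrib, mul_left_comm, Finset.mul_sum _ _ s]
  congr 1
  refine Finset.sum_congr rfl fun l _ => ?_
  rw [D.lw_gs s hy, mul_add, D.inv_gs hs hy k l]
  ring

/-- `palV = s W` -/
def WW (g h : MetricField n) (s : ℝ) (y : EE n) (k : Fin n) : ℝ :=
  ∑ i, ∑ j, inverseField (gs g h s) y i j * TT g h s y k i j
    - ∑ i, inverseField (gs g h s) y i k * ∑ l, TT g h s y l l i

theorem Dat.palV_gs (D : Dat g h U) {s : ℝ} (hs : 0 ≤ s) (hy : y ∈ U) (k : Fin n) :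
    palV g (gs g h s) y k = s * WW g h s y k := by
  simp only [palV, WW, D.dG_gs hs hy, mul_sub, Finset.mul_sum]
  congr 1 <;> exact Finset.sum_congr rfl fun i _ => Finset.sum_congr rfl fun j _ => by ring

/-- `palQ = s² Q` -/
def QQ (g h : MetricField n) (s : ℝ) (y : EE n) : ℝ :=
  ∑ i, ∑ j, inverseField (gs g h s) y i j * (∑ k, ∑ l, TT g h s y k j l * TT g h s y l k i
    - ∑ k, ∑ l, TT g h s y k k l * TT g h s y l i j)

theorem Dat.palQ_gs (D : Dat g h U) {s : ℝ} (hs : 0 ≤ s) (hy : y ∈ U) :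
    palQ g (gs g h s) y = s * (s * QQ g h s y) := by
  simp only [palQ, QQ, D.dG_gs hs hy, mul_sub, Finset.mul_sum]
  refine Finset.sum_congr rfl fun i _ => Finset.sum_congr rfl fun j _ => ?_
  congr 1 <;> exact Finset.sum_congr rfl fun k _ => Finset.sum_congr rfl fun l _ => by ring

theorem contDiffOn_palV {g' : MetricField n} (hg : IsRiemannianOn g U) (hg' : IsRiemannianOn g' U)
    (k : Fin n) : ContDiffOn ℝ ∞ (fun z => palV g g' z k) U := by
  have hd : ∀ k i j, ContDiffOn ℝ ∞ (fun z => dG g g' z k i j) U := fun k i j =>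
    (contDiffOn_christoffel hg' k i j).sub (contDiffOn_christoffel hg k i j)
  exact (ContDiffOn.sum fun i _ => ContDiffOn.sum fun j _ =>
    (contDiffOn_inv_entry hg' i j).mul (hd k i j)).sub (ContDiffOn.sum fun i _ =>
      (contDiffOn_inv_entry hg' i k).mul (ContDiffOn.sum fun l _ => hd l l i))

theorem palV_eq_zero {g' : MetricField n} (e : g' =ᶠ[𝓝 y] g) (k : Fin n) : palV g g' y k = 0 := by
  simp [palV, dG, christoffel_congr e]

/-! ### joint continuity -/

/-- jointly continuous on `[0,∞) × U` -/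
def JC (U : Set (EE n)) (F : ℝ → EE n → ℝ) : Prop :=
  ContinuousOn (fun z : ℝ × EE n => F z.1 z.2) (Ici 0 ×ˢ U)

theorem JC.of {f : EE n → ℝ} (hf : ContinuousOn f U) : JC U fun _ y => f y :=
  hf.comp continuousOn_snd fun _ hz => hz.2

theorem JC.const (c : ℝ) : JC U fun _ _ => c := continuousOn_const
theorem JC.fst : JC U fun s _ => s := continuousOn_fst
theorem JC.add {F G : ℝ → EE n → ℝ} (hF : JC U F) (hG : JC U G) : JC U fun s y => F s y + G s y :=
  ContinuousOn.add hF hG
theorem JC.sub {F G : ℝ → EE n → ℝ} (hF : JC U F) (hG : JC U G) : JC U fun s y => F s y - G s y :=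
  ContinuousOn.sub hF hG
theorem JC.mul {F G : ℝ → EE n → ℝ} (hF : JC U F) (hG : JC U G) : JC U fun s y => F s y * G s y :=
  ContinuousOn.mul hF hG
theorem JC.sum {ι : Type} [Fintype ι] {F : ι → ℝ → EE n → ℝ} (hF : ∀ k, JC U (F k)) :
    JC U fun s y => ∑ k, F k s y := continuousOn_finsetSum _ fun k _ => hF k
theorem JC.congr {F G : ℝ → EE n → ℝ} (hF : JC U F) (e : ∀ s, 0 ≤ s → ∀ y ∈ U, G s y = F s y) :
    JC U G := ContinuousOn.congr hF fun z hz => e z.1 hz.1 z.2 hz.2

theorem JC.eventually_pos {F : ℝ → EE n → ℝ} (hF : JC U F) (hU : IsOpen U) {K : Set (EE n)}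
    (hK : IsCompact K) (hKU : K ⊆ U) (h0 : ∀ y ∈ K, 0 < F 0 y) :
    ∀ᶠ s in 𝓝[>] (0 : ℝ), ∀ y ∈ K, 0 < F s y := by
  have h1 : ∀ᶠ s in 𝓝 (0 : ℝ), ∀ y ∈ K, 0 < F (max s 0) y := by
    refine hK.eventually_forall_of_forall_eventually (P := fun s y => 0 < F (max s 0) y)
      fun y hy => ?_
    have hc : ContinuousOn (fun z : ℝ × EE n => F (max z.1 0) z.2) (univ ×ˢ U) :=
      ContinuousOn.comp (f := fun z : ℝ × EE n => (max z.1 0, z.2)) hF (by fun_prop)
        fun z hz => ⟨mem_Ici.2 (le_max_right _ _), hz.2⟩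
    have := hc.continuousAt ((isOpen_univ.prod hU).mem_nhds (⟨mem_univ 0, hKU hy⟩ :
      ((0 : ℝ), y) ∈ univ ×ˢ U))
    exact this.eventually (lt_mem_nhds (by simpa using h0 y hy))
  filter_upwards [nhdsWithin_le_nhds h1, self_mem_nhdsWithin] with s hs hs0 y hy
  have := hs y hy
  rwa [max_eq_left (le_of_lt hs0)] at this

theorem Dat.jc_gs (D : Dat g h U) (i j : Fin n) : JC U fun s y => gs g h s y i j :=
  (JC.of (D.riem.contDiffOn i j).continuousOn).add (JC.fst.mul (JC.of (D.sm i j).continuousOn))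

theorem Dat.jc_inv (D : Dat g h U) (i j : Fin n) :
    JC U fun s y => inverseField (gs g h s) y i j := by
  have hc : ContinuousOn (fun z : ℝ × EE n => gs g h z.1 z.2) (Ici 0 ×ˢ U) :=
    continuousOn_pi.2 fun a => continuousOn_pi.2 fun b => D.jc_gs a b
  have h1 : ContinuousOn (fun z : ℝ × EE n => (gs g h z.1 z.2).det) (Ici 0 ×ˢ U) :=
    (continuous_id.matrix_det).comp_continuousOn hc
  have h2 : ContinuousOn (fun z : ℝ × EE n => (gs g h z.1 z.2).adjugate i j) (Ici 0 ×ˢ U) :=
    ((continuous_id.matrix_adjugate).matrix_elem i j).comp_continuousOn hc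
  refine ((h1.inv₀ fun z hz => (det_pos (D.gs_riem hz.1) hz.2).ne').mul h2).congr fun z _ => ?_
  simp [inverseField, Matrix.inv_def]

theorem Dat.jc_mid (D : Dat g h U) (i j : Fin n) : JC U fun s y => mid g h s y i j :=
  JC.sum fun a => JC.sum fun b => ((D.jc_inv i a).mul (JC.of (D.sm a b).continuousOn)).mul
    (JC.of (contDiffOn_inv_entry D.riem b j).continuousOn)

theorem jc_lw (hU : IsOpen U) (hh : ∀ i j, ContDiffOn ℝ ∞ (fun z => h z i j) U) (i j l : Fin n) :
    JC U fun _ y => lw h y i j l :=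
  JC.of (((contDiffOn_pderiv hU (hh j l) i).add (contDiffOn_pderiv hU (hh i l) j)).sub
    (contDiffOn_pderiv hU (hh i j) l)).continuousOn

theorem Dat.jc_TT (D : Dat g h U) (k i j : Fin n) : JC U fun s y => TT g h s y k i j :=
  (JC.const _).mul (JC.sum fun l => ((D.jc_inv k l).mul (jc_lw D.riem.isOpen D.sm i j l)).sub
    ((D.jc_mid k l).mul (jc_lw D.riem.isOpen D.riem.contDiffOn i j l)))

theorem Dat.jc_WW (D : Dat g h U) (k : Fin n) : JC U fun s y => WW g h s y k :=
  (JC.sum fun i => JC.sum fun j => (D.jc_inv i j).mul (D.jc_TT k i j)).sub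
    (JC.sum fun i => (D.jc_inv i k).mul (JC.sum fun l => D.jc_TT l l i))

theorem Dat.jc_QQ (D : Dat g h U) : JC U fun s y => QQ g h s y :=
  JC.sum fun i => JC.sum fun j => (D.jc_inv i j).mul
    ((JC.sum fun k => JC.sum fun l => (D.jc_TT k j l).mul (D.jc_TT l k i)).sub
      (JC.sum fun k => JC.sum fun l => (D.jc_TT k k l).mul (D.jc_TT l i j)))

theorem Dat.jc_gam (D : Dat g h U) {a b : EE n → ℝ} (ha : ContDiffOn ℝ ∞ a U)
    (hb : ContDiffOn ℝ ∞ b U) : JC U fun s y => gam (gs g h s) a b y :=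
  JC.sum fun i => JC.sum fun j => ((D.jc_inv i j).mul
    (JC.of (contDiffOn_pderiv D.riem.isOpen ha i).continuousOn)).mul
      (JC.of (contDiffOn_pderiv D.riem.isOpen hb j).continuousOn)

theorem Dat.jc_lap (D : Dat g h U) {a : EE n → ℝ} (ha : ContDiffOn ℝ ∞ a U) :
    JC U fun s y => laplaceBeltrami (gs g h s) a y := by
  have hU := D.riem.isOpen
  have hc : ∀ k i j, JC U fun s y => christoffel (gs g h s) y k i j := fun k i j =>
    ((JC.of (contDiffOn_christoffel D.riem k i j).continuousOn).add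
      (JC.fst.mul (D.jc_TT k i j))).congr fun s hs y hy => by
        rw [← D.dG_gs hs hy, dG]; ring
  refine (JC.sum fun i => JC.sum fun j => (D.jc_inv i j).mul
    ((JC.of (contDiffOn_pderiv hU (contDiffOn_pderiv hU ha j) i).continuousOn).sub
      (JC.sum fun k => (hc k i j).mul
        (JC.of (contDiffOn_pderiv hU ha k).continuousOn)))).congr fun s hs y hy => ?_
  exact lap_coord (D.gs_riem hs) hy ((ha.contDiffAt (hU.mem_nhds hy)).of_le two_le_infty)

theorem cE_congr {ι : Type} [Fintype ι] {g' : MetricField n} {φ ψ φ' ψ' : ι → EE n → ℝ}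
    (e : g =ᶠ[𝓝 y] g') (e1 : ∀ k, φ k =ᶠ[𝓝 y] φ' k) (e2 : ∀ k, ψ k =ᶠ[𝓝 y] ψ' k) :
    cE g φ ψ y = cE g' φ' ψ' y := by
  have hi : inverseField g y = inverseField g' y := by
    unfold inverseField; rw [e.self_of_nhds]
  have hg : ∀ a b : EE n → ℝ, gam g a b y = gam g' a b y := fun a b => by simp only [gam, hi]
  simp only [cE, scal, hi, ricci_congr e, hg, fun k => (e1 k).self_of_nhds,
    fun k => laplaceBeltrami_congr e (e2 k), fun k l => gam_congr (g := g') (e2 k) (e2 l),
    fun k => gam_congr (g := g') (e1 k) (e2 k)]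

/-- the drift `V/2 + c β` -/
theorem cE_sum {ι : Type} [Fintype ι] (Φ X : Fin n → EE n → ℝ) {φ : ι → EE n → ℝ}
    (ψ : ι → EE n → ℝ) (hφ : ∀ k, DifferentiableAt ℝ (φ k) y) (c : ℝ) :
    cE g (Sum.elim Φ fun k z => c * φ k z) (Sum.elim X ψ) y =
      scal g y - 2 * cdv g Φ X y - 2 * c * cdv g φ ψ y -
        ∑ k, ∑ l, Sum.elim Φ (fun k z => c * φ k z) k y * Sum.elim Φ (fun k z => c * φ k z) l y *
          gam g (Sum.elim X ψ k) (Sum.elim X ψ l) y := by
  rw [cE, Fintype.sum_sum_type]
  simp only [Sum.elim_inl, Sum.elim_inr, cdv, gam_const_mul_left c (hφ _)]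
  rw [mul_assoc 2 c, Finset.mul_sum _ _ c]
  have : ∀ k, c * (gam g (φ k) (ψ k) y + φ k y * laplaceBeltrami g (ψ k) y) =
      c * gam g (φ k) (ψ k) y + c * φ k y * laplaceBeltrami g (ψ k) y := fun k => by ring
  simp only [this]
  ring

/-- first order expansion of `E` along the perturbation -/
theorem cE_pert (hP : PalStmt) (D : Dat g h U) {ι : Type} [Fintype ι] {φ ψ : ι → EE n → ℝ}
    (hφ : ∀ k, ContDiffOn ℝ ∞ (φ k) U) (hψ : ∀ k, ContDiffOn ℝ ∞ (ψ k) U) (t : ℝ) :
    ∃ H : ℝ → EE n → ℝ, JC U H ∧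
      (∀ y, H 0 y = -(∑ i, ∑ j, mid g h 0 y i j * ricci g y i j) - 2 * t * cdv g φ ψ y) ∧
      ∀ s, 0 ≤ s → ∀ y ∈ U,
        cE (gs g h s) (Sum.elim (fun k z => (1 / 2) * ∑ l, gs g h s z k l * palV g (gs g h s) z l)
          fun k z => t * s * φ k z) (Sum.elim (fun k z => z k) ψ) y = scal g y + s * H s y := by
  have hU := D.riem.isOpen
  set Ψ : Fin n ⊕ ι → EE n → ℝ := Sum.elim (fun k z => z k) ψ with hΨ
  set Φ : Fin n ⊕ ι → ℝ → EE n → ℝ := Sum.elim
    (fun k s z => (1 / 2) * ∑ l, gs g h s z k l * WW g h s z l) (fun k _ z => t * φ k z) with hΦ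
  have hΨs : ∀ k, ContDiffOn ℝ ∞ (Ψ k) U := by
    rintro (k | k)
    · exact (contDiff_coord k).contDiffOn
    · exact hψ k
  have hΦc : ∀ k, JC U (Φ k) := by
    rintro (k | k)
    · exact (JC.const _).mul (JC.sum fun l => (D.jc_gs k l).mul (D.jc_WW l))
    · exact (JC.const _).mul (JC.of (hφ k).continuousOn)
  refine ⟨fun s y => (-1) * (∑ i, ∑ j, mid g h s y i j * ricci g y i j) + s * QQ g h s y
    - 2 * t * cdv (gs g h s) φ ψ y - s * ∑ k, ∑ l, Φ k s y * Φ l s y * gam (gs g h s) (Ψ k) (Ψ l) y,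
    ?_, fun y => by simp [gs_zero], fun s hs y hy => ?_⟩
  · refine ((((JC.const _).mul (JC.sum fun i => JC.sum fun j => (D.jc_mid i j).mul
      (JC.of (continuousOn_ricci D.riem i j)))).add (JC.fst.mul D.jc_QQ)).sub ((JC.const _).mul
        (JC.sum fun k => (D.jc_gam (hφ k) (hψ k)).add ((JC.of (hφ k).continuousOn).mul
          (D.jc_lap (hψ k)))))).sub (JC.fst.mul (JC.sum fun k => JC.sum fun l =>
            ((hΦc k).mul (hΦc l)).mul (D.jc_gam (hΨs k) (hΨs l))))
  · have hs' := D.gs_riem hs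
    have hV : ∀ l, DifferentiableAt ℝ (fun z => palV g (gs g h s) z l) y := fun l =>
      ((contDiffOn_palV D.riem hs' l).contDiffAt (hU.mem_nhds hy)).differentiableAt (by simp)
    have hd : ∀ k, DifferentiableAt ℝ (fun z => ∑ l, gs g h s z k l * palV g (gs g h s) z l) y :=
      fun k => DifferentiableAt.fun_sum fun l _ => (differentiableAt_entry hs' hy k l).mul (hV l)
    have h1 : 2 * cdv (gs g h s) (fun k z => (1 / 2) * ∑ l, gs g h s z k l * palV g (gs g h s) z l)
        (fun k z => z k) y = divg (gs g h s) (palV g (gs g h s)) y := by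
      rw [← cdv_lower hs' hy hV, cdv, cdv, Finset.mul_sum]
      refine Finset.sum_congr rfl fun k _ => ?_
      rw [gam_const_mul_left _ (hd k)]; ring
    have h2 : ∀ k, Sum.elim (fun k z => (1 / 2) * ∑ l, gs g h s z k l * palV g (gs g h s) z l)
        (fun k z => t * s * φ k z) k y = s * Φ k s y := by
      rintro (k | k)
      · simp only [hΦ, Sum.elim_inl, D.palV_gs hs hy, Finset.mul_sum]
        exact Finset.sum_congr rfl fun l _ => by ring
      · simp only [hΦ, Sum.elim_inr]; ring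
    have h3 : ∑ i, ∑ j, inverseField (gs g h s) y i j * ricci g y i j =
        scal g y - s * ∑ i, ∑ j, mid g h s y i j * ricci g y i j := by
      simp only [scal, D.inv_gs hs hy, Finset.mul_sum, ← Finset.sum_sub_distrib]
      exact Finset.sum_congr rfl fun i _ => Finset.sum_congr rfl fun j _ => by ring
    have h4 : ∑ k, ∑ l, s * Φ k s y * (s * Φ l s y) * gam (gs g h s) (Ψ k) (Ψ l) y =
        s * (s * ∑ k, ∑ l, Φ k s y * Φ l s y * gam (gs g h s) (Ψ k) (Ψ l) y) := by
      simp only [Finset.mul_sum]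
      exact Finset.sum_congr rfl fun i _ => Finset.sum_congr rfl fun j _ => by ring
    rw [cE_sum _ _ _ fun k => ((hφ k).contDiffAt (hU.mem_nhds hy)).differentiableAt (by simp), h1,
      hP n g (gs g h s) U D.riem hs' y hy, D.palQ_gs hs hy, h3]
    simp only [h2]
    rw [h4]
    ring

end Crest.Agent.N222.D.Pt
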