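import Crest.Agent.N222.D.Pert1

/-!
# Row 222, part D1, file 2: `mScal`, `mE` in charts; the perturbed atlas
-/

set_option autoImplicit false
set_option linter.unusedSectionVars false

open Set Filter Topology Bundle
open scoped ContDiff Manifold
open Crest.GeometryTopology.CoordMetric Crest.GeometryTopology.ChartCurvature
  Crest.GeometryTopology.PointedLimit
open Crest.Agent.R202.Tens Crest.Agent.R247.Bo84 Crest.Agent.R273.RMan_798

noncomputable section

namespace Crest.Agent.N222.D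

theorem scal_frame {n : ℕ} {g : MetricField n} {y : EE n} {ξ : Fin n → EE n}
    (hξ : IsFrame (g y) ξ) : scal g y = ∑ a, ∑ i, ∑ j, ricci g y i j * ξ a i * ξ a j := by
  simp only [scal, inverseField, hξ.inv, Finset.sum_mul]
  conv_rhs => rw [Finset.sum_comm]
  refine Finset.sum_congr rfl fun i _ => ?_
  rw [Finset.sum_comm]
  exact Finset.sum_congr rfl fun a _ => Finset.sum_congr rfl fun j _ => by ring

/-- invariance of the scalar curvature -/
theorem scal_pull {n : ℕ} {g' g : MetricField n} {Φ : EE n → EE n} {V W : Set (EE n)}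
    (p : Pull g' g Φ V W) {y : EE n} (hy : y ∈ V) : scal g' y = scal g (Φ y) := by
  obtain ⟨ξ, hξ⟩ := exists_frame p.riem' hy
  rw [scal_frame hξ, scal_frame (isFrame_of_orth (frame_pull p hy hξ))]
  exact Finset.sum_congr rfl fun a _ => p.ricci_pull hy _ _

theorem scal_congr {n : ℕ} {g g' : MetricField n} {y : EE n} (e : g =ᶠ[𝓝 y] g') :
    scal g y = scal g' y := by
  simp only [scal, inverseField, e.self_of_nhds, ricci_congr e]

section Mfd

variable {n : ℕ} {M : Type} [TopologicalSpace M] [ChartedSpace (EE n) M] [IsManifold (𝓡 n) ∞ M]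
  [RiemannianBundle (fun x : M => TangentSpace (𝓡 n) x)]
  [IsContMDiffRiemannianBundle (𝓡 n) ∞ (EE n) (fun x : M => TangentSpace (𝓡 n) x)]

theorem mScal_chart {x₀ p : M} (hp : p ∈ (chartAt (EE n) x₀).source) :
    mScal n M p = scal (chartMetric n M x₀) (chartAt (EE n) x₀ p) := by
  have hy := (chartAt (EE n) x₀).map_source hp
  rw [scal_pull (pull_trans (n := n) x₀ ((chartAt (EE n) x₀).symm (chartAt (EE n) x₀ p)))
    (mem_tdom_self hy), trans_self, (chartAt (EE n) x₀).left_inv hp]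
  rfl

theorem mE_chart {ι : Type} [Fintype ι] {x₀ p : M} (hp : p ∈ (chartAt (EE n) x₀).source)
    (φ : ι → M → ℝ) {ψ : ι → M → ℝ} (hψ : ∀ k, Sm n M (ψ k)) :
    mE n M φ ψ p = cE (chartMetric n M x₀) (fun k => inCh n x₀ (φ k)) (fun k => inCh n x₀ (ψ k))
      (chartAt (EE n) x₀ p) := by
  simp only [mE, cE, mScal_chart hp, mGam_chart' hp,
    fun k => mLap_chart' hp (((hψ k) p).of_le two_le_infty), inCh,
    (chartAt (EE n) x₀).left_inv hp]

theorem mdv_chart {ι : Type} [Fintype ι] {x₀ p : M} (hp : p ∈ (chartAt (EE n) x₀).source)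
    (φ : ι → M → ℝ) {ψ : ι → M → ℝ} (hψ : ∀ k, Sm n M (ψ k)) :
    ∑ k, (mGam n (φ k) (ψ k) p + φ k p * mLap n (ψ k) p) =
      Pt.cdv (chartMetric n M x₀) (fun k => inCh n x₀ (φ k)) (fun k => inCh n x₀ (ψ k))
        (chartAt (EE n) x₀ p) := by
  simp only [Pt.cdv, mGam_chart' hp, fun k => mLap_chart' hp (((hψ k) p).of_le two_le_infty), inCh,
    (chartAt (EE n) x₀).left_inv hp]

/-- `E` of the drift `c β` (padded with zero terms) -/
theorem mE_zero_sum {ι κ : Type} [Fintype ι] [Fintype κ] {φ : ι → M → ℝ} (ψ : ι → M → ℝ)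
    (hφ : ∀ k, Sm n M (φ k)) (X : κ → M → ℝ) (c : ℝ) (p : M) :
    mE n M (Sum.elim (fun _ _ => 0) fun k q => c * φ k q) (Sum.elim X ψ) p =
      mScal n M p - 2 * c * ∑ k, (mGam n (φ k) (ψ k) p + φ k p * mLap n (ψ k) p) -
        c ^ 2 * ∑ k, ∑ l, φ k p * φ l p * mGam n (ψ k) (ψ l) p := by
  simp only [mE, Fintype.sum_sum_type, Sum.elim_inl, Sum.elim_inr, mGam_const_left, zero_mul,
    mul_zero, add_zero, zero_add, Finset.sum_const_zero,
    fun k => mGam_const_mul_left (k := ψ k) c ((hφ k p).mdifferentiableAt (by simp)),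
    Finset.mul_sum]
  congr 1
  · congr 1
    exact Finset.sum_congr rfl fun k _ => by ring
  · exact Finset.sum_congr rfl fun k _ => Finset.sum_congr rfl fun l _ => by ring

end Mfd

section Atl

variable {n : ℕ} {N : Type} [TopologicalSpace N] (R : RAtl n N)

theorem riemR (j : R.ι) : IsRiemannianOn (R.G j) (R.c j).target :=
  ⟨(R.c j).open_target, R.Gsm j, R.Gpd j⟩

theorem chartMetric_ev (p : R.M) {y : EE n} (hy : y ∈ (R.c (R.idx p)).target) :
    chartMetric n R.M p =ᶠ[𝓝 y] R.G (R.idx p) := by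
  filter_upwards [(R.c (R.idx p)).open_target.mem_nhds hy] with z hz using R.chartMetric_eq p hz

theorem mScal_chartR {p q : R.M} (hq : q ∈ (R.c (R.idx p)).source) :
    mScal n R.M q = scal (R.G (R.idx p)) (R.c (R.idx p) q) := by
  rw [mScal_chart (x₀ := p) hq]
  exact scal_congr (chartMetric_ev R p ((R.c (R.idx p)).map_source hq))

theorem mE_chartR {ι : Type} [Fintype ι] {p q : R.M} (hq : q ∈ (R.c (R.idx p)).source)
    (φ : ι → R.M → ℝ) {ψ : ι → R.M → ℝ} (hψ : ∀ k, Sm n R.M (ψ k)) :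
    mE n R.M φ ψ q = cE (R.G (R.idx p)) (fun k z => φ k ((R.c (R.idx p)).symm z))
      (fun k z => ψ k ((R.c (R.idx p)).symm z)) (R.c (R.idx p) q) := by
  rw [mE_chart (x₀ := p) hq φ hψ]
  exact Pt.cE_congr (chartMetric_ev R p ((R.c (R.idx p)).map_source hq))
    (fun _ => EventuallyEq.rfl) fun _ => EventuallyEq.rfl

theorem mdv_chartR {ι : Type} [Fintype ι] {p q : R.M} (hq : q ∈ (R.c (R.idx p)).source)
    (φ : ι → R.M → ℝ) {ψ : ι → R.M → ℝ} (hψ : ∀ k, Sm n R.M (ψ k)) :
    ∑ k, (mGam n (φ k) (ψ k) q + φ k q * mLap n (ψ k) q) =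
      Pt.cdv (R.G (R.idx p)) (fun k z => φ k ((R.c (R.idx p)).symm z))
        (fun k z => ψ k ((R.c (R.idx p)).symm z)) (R.c (R.idx p) q) := by
  rw [mdv_chart (x₀ := p) hq φ hψ]
  have e := chartMetric_ev R p ((R.c (R.idx p)).map_source hq)
  refine Finset.sum_congr rfl fun k _ => ?_
  congr 1
  · exact congrArg (fun A : Matrix (Fin n) (Fin n) ℝ => ∑ i, ∑ j, A⁻¹ i j *
      pderiv i (inCh n p (φ k)) (R.c (R.idx p) q) * pderiv j (inCh n p (ψ k)) (R.c (R.idx p) q))
      e.self_of_nhds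
  · exact congrArg _ (laplaceBeltrami_congr e EventuallyEq.rfl)

variable {R} in
/-- smooth functions are smooth in every chart of the atlas -/
theorem contDiffOn_ch {f : R.M → ℝ} (hf : Sm n R.M f) (j : R.ι) :
    ContDiffOn ℝ ∞ (fun z => f ((R.c j).symm z)) (R.c j).target := by
  have h1 : ContMDiffOn (𝓡 n) (𝓡 n) ∞ (R.ch j).symm (R.ch j).target :=
    contMDiffOn_symm_of_mem_maximalAtlas (IsManifold.subset_maximalAtlas ⟨j, rfl⟩)
  exact contMDiffOn_iff_contDiffOn.1 (hf.comp_contMDiffOn h1)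

theorem tendsto_symm (j : R.ι) {q : N} (hq : q ∈ (R.c j).source) :
    Tendsto (R.c j).symm (𝓝 (R.c j q)) (𝓝 q) := (R.c j).tendsto_symm hq

namespace Pt

/-- the covector `χ dl` in the chart `j` -/
def ww (χ l : R.M → ℝ) (j : R.ι) (y : EE n) (a : Fin n) : ℝ :=
  χ ((R.c j).symm y) * pderiv a (fun z => l ((R.c j).symm z)) y

/-- the tensor `χ² dl ⊗ dl` in the chart `j` -/
def hh (χ l : R.M → ℝ) (j : R.ι) : MetricField n := fun y =>
  Matrix.vecMulVec (ww R χ l j y) (ww R χ l j y)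

variable {R} {χ l : R.M → ℝ}

theorem dat (hχ : Sm n R.M χ) (hl : Sm n R.M l) (j : R.ι) :
    Dat (R.G j) (hh R χ l j) (R.c j).target := by
  have hw : ∀ a, ContDiffOn ℝ ∞ (fun y => ww R χ l j y a) (R.c j).target := fun a =>
    (contDiffOn_ch hχ j).mul (contDiffOn_pderiv (R.c j).open_target (contDiffOn_ch hl j) a)
  refine ⟨riemR R j, fun a b => (hw a).mul (hw b), fun z _ => ?_⟩
  simpa [hh] using Matrix.posSemidef_vecMulVec_self_star (ww R χ l j z)

theorem sum_gs (g : MetricField n) (w : EE n → Fin n → ℝ) (s : ℝ) (y v u : EE n) :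
    ∑ a, ∑ b, gs g (fun z => Matrix.vecMulVec (w z) (w z)) s y a b * v a * u b =
      ∑ a, ∑ b, g y a b * v a * u b + s * ((∑ a, v a * w y a) * ∑ b, u b * w y b) := by
  rw [Finset.sum_mul_sum]
  simp only [gs_apply, Matrix.vecMulVec_apply, Finset.mul_sum, ← Finset.sum_add_distrib]
  exact Finset.sum_congr rfl fun a _ => Finset.sum_congr rfl fun b _ => by ring

theorem sum_ww (j : R.ι) (y v : EE n) : ∑ a, v a * ww R χ l j y a =
    χ ((R.c j).symm y) * fderiv ℝ (fun z => l ((R.c j).symm z)) y v := by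
  rw [fderiv_eq_sum, Finset.mul_sum]
  exact Finset.sum_congr rfl fun a _ => by rw [ww]; ring

theorem ww_tr (hl : Sm n R.M l) (i j : R.ι) {x : N} (hx : x ∈ (R.c i).source ∩ (R.c j).source)
    (v : EE n) : ∑ a, v a * ww R χ l i (R.c i x) a =
      ∑ a, (fderiv ℝ (fun y => R.c j ((R.c i).symm y)) (R.c i x) v) a * ww R χ l j (R.c j x) a := by
  rw [sum_ww, sum_ww, (R.c i).left_inv hx.1, (R.c j).left_inv hx.2]
  congr 1
  have h1 : DifferentiableAt ℝ (fun y => R.c j ((R.c i).symm y)) (R.c i x) := by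
    refine ((R.smt i j).contDiffAt (((R.c i).isOpen_inter_preimage_symm
      (R.c j).open_source).mem_nhds ⟨(R.c i).map_source hx.1, ?_⟩)).differentiableAt (by simp)
    rw [mem_preimage, (R.c i).left_inv hx.1]; exact hx.2
  have h2 : DifferentiableAt ℝ (fun z => l ((R.c j).symm z)) (R.c j ((R.c i).symm (R.c i x))) := by
    rw [(R.c i).left_inv hx.1]
    exact ((contDiffOn_ch hl j).contDiffAt
      ((R.c j).open_target.mem_nhds ((R.c j).map_source hx.2))).differentiableAt (by simp)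
  have e : (fun z => l ((R.c i).symm z)) =ᶠ[𝓝 (R.c i x)]
      (fun z => l ((R.c j).symm z)) ∘ fun y => R.c j ((R.c i).symm y) := by
    filter_upwards [tendsto_symm R i hx.1 ((R.c j).open_source.mem_nhds hx.2)] with z hz
    exact congrArg l ((R.c j).left_inv hz).symm
  rw [e.fderiv_eq, fderiv_comp (f := fun y => R.c j ((R.c i).symm y)) (R.c i x) h2 h1,
    (R.c i).left_inv hx.1]
  rfl

/-- the atlas of the metric `g + s χ² dl ⊗ dl` -/
def pertA (hχ : Sm n R.M χ) (hl : Sm n R.M l) {s : ℝ} (hs : 0 ≤ s) : RAtl n N :=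
  { R with
    G := fun j => gs (R.G j) (hh R χ l j) s
    Gsm := fun j => ((dat hχ hl j).gs_riem hs).contDiffOn
    Gpd := fun j => ((dat hχ hl j).gs_riem hs).posDef
    Gtr := fun i j x hx v w => by
      refine (sum_gs _ _ _ _ _ _).trans (Eq.trans ?_ (sum_gs _ _ _ _ _ _).symm)
      rw [R.Gtr i j x hx, ww_tr hl i j hx, ww_tr hl i j hx] }

theorem gs_ev (j : R.ι) {q : R.M} (hq : q ∈ (R.c j).source) (h0 : q ∉ tsupport χ) (s : ℝ) :
    gs (R.G j) (hh R χ l j) s =ᶠ[𝓝 (R.c j q)] R.G j := by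
  filter_upwards [tendsto_symm R j hq (notMem_tsupport_iff_eventuallyEq.1 h0)] with z hz
  have : χ ((R.c j).symm z) = 0 := hz
  ext a b
  simp [gs_apply, hh, Matrix.vecMulVec_apply, ww, this]

end Pt

end Atl

end Crest.Agent.N222.D
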