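import Crest.Agent.N222.D.Pert

/-!
# Row 222, part D1 for induced metrics (helper55, after helper85's `D/Pert`)

The metric is `g + s (du₁² + du₂²)`, `u₁ + i u₂ = ν χ exp (i l / ν)` (Nash twist), so that
`du₁² + du₂² = χ² dl² + ν² dχ²`.
-/

set_option autoImplicit false
set_option linter.unusedSectionVars false

open Set Filter Topology Bundle Function
open scoped ContDiff Manifold
open Crest.GeometryTopology.CoordMetric Crest.GeometryTopology.ChartCurvature
  Crest.GeometryTopology.PointedLimit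
open Crest.Agent.R202.Tens Crest.Agent.R247.Bo84 Crest.Agent.R273.RMan_798

noncomputable section

namespace Crest.Agent.N222.D

namespace Pt

variable {n : ℕ} {N : Type} [TopologicalSpace N] (R : RAtl n N)

/-- the tensor `du₁² + du₂²` -/
def h2 (u₁ u₂ : R.M → ℝ) (j : R.ι) : MetricField n := fun y =>
  hh R (fun _ => 1) u₁ j y + hh R (fun _ => 1) u₂ j y

variable {R} {u₁ u₂ χ l : R.M → ℝ}

theorem dat2 (h₁ : Sm n R.M u₁) (h₂ : Sm n R.M u₂) (j : R.ι) :
    Dat (R.G j) (h2 R u₁ u₂ j) (R.c j).target :=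
  ⟨riemR R j, fun a b => ((dat contMDiff_const h₁ j).sm a b).add ((dat contMDiff_const h₂ j).sm a b),
    fun z hz => ((dat contMDiff_const h₁ j).psd z hz).add ((dat contMDiff_const h₂ j).psd z hz)⟩

/-- the atlas of the metric `g + s (du₁² + du₂²)` -/
def pertB (h₁ : Sm n R.M u₁) (h₂ : Sm n R.M u₂) {s : ℝ} (hs : 0 ≤ s) : RAtl n N :=
  { R with
    G := fun j => gs (R.G j) (h2 R u₁ u₂ j) s
    Gsm := fun j => ((dat2 h₁ h₂ j).gs_riem hs).contDiffOn
    Gpd := fun j => ((dat2 h₁ h₂ j).gs_riem hs).posDef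
    Gtr := fun i j x hx v w => by
      have e : ∀ j, gs (R.G j) (h2 R u₁ u₂ j) s =
          gs (gs (R.G j) (hh R (fun _ => 1) u₁ j) s) (hh R (fun _ => 1) u₂ j) s := fun j => by
        funext y; simp only [gs, h2, smul_add, add_assoc]
      rw [e, e]
      exact (pertA (R := pertA contMDiff_const h₁ hs) (χ := fun _ => 1) (l := u₂) contMDiff_const
        h₂ hs).Gtr i j x hx v w }

/-- first component of the twist -/
def tw1 (χ l : R.M → ℝ) (ν : ℝ) (q : R.M) : ℝ := ν * χ q * Real.sin (l q / ν)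

/-- second component of the twist -/
def tw2 (χ l : R.M → ℝ) (ν : ℝ) (q : R.M) : ℝ := ν * χ q * Real.cos (l q / ν)

theorem sm_tw1 (hχ : Sm n R.M χ) (hl : Sm n R.M l) (ν : ℝ) : Sm n R.M (tw1 χ l ν) :=
  (contMDiff_const.mul hχ).mul (Real.contDiff_sin.contMDiff.comp (hl.div_const ν))

theorem sm_tw2 (hχ : Sm n R.M χ) (hl : Sm n R.M l) (ν : ℝ) : Sm n R.M (tw2 χ l ν) :=
  (contMDiff_const.mul hχ).mul (Real.contDiff_cos.contMDiff.comp (hl.div_const ν))

theorem h2_tw (hχ : Sm n R.M χ) (hl : Sm n R.M l) {ν : ℝ} (hν : ν ≠ 0) (j : R.ι) {y : EE n}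
    (hy : y ∈ (R.c j).target) (a b : Fin n) : h2 R (tw1 χ l ν) (tw2 χ l ν) j y a b =
      hh R χ l j y a b + ν * ν * hh R (fun _ => 1) χ j y a b := by
  have d1 := (((contDiffOn_ch hχ j).contDiffAt ((R.c j).open_target.mem_nhds hy)).differentiableAt
    (by simp)).hasFDerivAt
  have d2 := (((contDiffOn_ch hl j).contDiffAt ((R.c j).open_target.mem_nhds hy)).differentiableAt
    (by simp)).hasFDerivAt
  have e1 := ((d1.const_mul ν).mul (d2.mul_const ν⁻¹).sin).fderiv
  have e2 := ((d1.const_mul ν).mul (d2.mul_const ν⁻¹).cos).fderiv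
  have f1 : ∀ a, pderiv a (fun z => tw1 χ l ν ((R.c j).symm z)) y =
      χ ((R.c j).symm y) * Real.cos (l ((R.c j).symm y) * ν⁻¹) *
        pderiv a (fun z => l ((R.c j).symm z)) y + ν * Real.sin (l ((R.c j).symm y) * ν⁻¹) *
        pderiv a (fun z => χ ((R.c j).symm z)) y := fun a => by
    refine (congrArg (fun L : EE n →L[ℝ] ℝ => L (EuclideanSpace.single a 1)) e1).trans ?_
    simp only [pderiv, _root_.add_apply, _root_.smul_apply, smul_eq_mul]
    field_simp
  have f2 : ∀ a, pderiv a (fun z => tw2 χ l ν ((R.c j).symm z)) y =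
      -(χ ((R.c j).symm y) * Real.sin (l ((R.c j).symm y) * ν⁻¹)) *
        pderiv a (fun z => l ((R.c j).symm z)) y + ν * Real.cos (l ((R.c j).symm y) * ν⁻¹) *
        pderiv a (fun z => χ ((R.c j).symm z)) y := fun a => by
    refine (congrArg (fun L : EE n →L[ℝ] ℝ => L (EuclideanSpace.single a 1)) e2).trans ?_
    simp only [pderiv, _root_.add_apply, _root_.smul_apply, smul_eq_mul]
    field_simp
  simp only [h2, hh, Matrix.add_apply, Matrix.vecMulVec_apply, ww, f1, f2]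
  have := Real.sin_sq_add_cos_sq (l ((R.c j).symm y) * ν⁻¹)
  linear_combination (χ ((R.c j).symm y) ^ 2 * pderiv a (fun z => l ((R.c j).symm z)) y *
    pderiv b (fun z => l ((R.c j).symm z)) y + ν ^ 2 * pderiv a (fun z => χ ((R.c j).symm z)) y *
    pderiv b (fun z => χ ((R.c j).symm z)) y) * this

theorem gs_ev2 (hχ : Sm n R.M χ) (hl : Sm n R.M l) {ν : ℝ} (hν : ν ≠ 0) (j : R.ι) {q : R.M}
    (hq : q ∈ (R.c j).source) (h0 : q ∉ tsupport χ) (s : ℝ) :
    gs (R.G j) (h2 R (tw1 χ l ν) (tw2 χ l ν) j) s =ᶠ[𝓝 (R.c j q)] R.G j := by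
  filter_upwards [((tendsto_symm R j hq).eventually
    (notMem_tsupport_iff_eventuallyEq.1 h0)).eventually_nhds,
    (R.c j).open_target.mem_nhds ((R.c j).map_source hq)] with z hz hz'
  have e0 : (fun z => χ ((R.c j).symm z)) =ᶠ[𝓝 z] fun _ => 0 := hz
  have : χ ((R.c j).symm z) = 0 := e0.self_of_nhds
  ext a b
  simp [gs_apply, h2_tw hχ hl hν j hz', hh, Matrix.vecMulVec_apply, ww, this, pderiv, e0.fderiv_eq]

theorem JC.zero {U : Set (EE n)} {F : ℝ → EE n → ℝ} (hF : JC U F) : ContinuousOn (F 0) U :=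
  ContinuousOn.comp (f := fun y : EE n => ((0 : ℝ), y)) hF (by fun_prop)
    fun _ hy => ⟨mem_Ici.2 le_rfl, hy⟩

end Pt

open Pt in
theorem pertG {n : ℕ} {N : Type} [TopologicalSpace N] [T2Space N] [CompactSpace N]
    [ConnectedSpace N] (R : RAtl n N) (hS : ∀ p, 0 ≤ mScal n R.M p)
    (hR : ¬ HasRicciLowerBound n R.M 0) : ∃ (u₁ u₂ : R.M → ℝ) (h₁ : Sm n R.M u₁) (h₂ : Sm n R.M u₂)
      (s : ℝ) (hs : 0 ≤ s), Pos n (pertB h₁ h₂ hs).M := by
  have hP := pal
  have hD := divNeg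
  have : CompactSpace R.M := inferInstanceAs (CompactSpace N)
  obtain ⟨p, v, hv⟩ : ∃ (p : R.M) (v : EE n),
      ∑ i, ∑ j, ricci (R.G (R.idx p)) (R.c (R.idx p) p) i j * v i * v j < 0 := by
    by_contra hc
    push Not at hc
    refine hR fun x v => ?_
    have := fun a b => ricci_congr (chartMetric_ev R x (R.mem_target x)) a b
    have h2 := hc x v
    simp only [← this] at h2
    rw [zero_mul]
    exact h2
  have hg := riemR R (R.idx p)
  set c := R.c (R.idx p) with hc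
  set g := R.G (R.idx p) with hgd
  set ξ : Fin n → ℝ := fun a => ∑ b, v b * g (c p) b a with hξ
  obtain ⟨η⟩ : Nonempty (SmoothBumpFunction (𝓡 n) p) := inferInstance
  have hS1 : ∀ᶠ q in 𝓝 p, η =ᶠ[𝓝 q] 1 ∧ FF g ξ (c q) < 0 := by
    refine η.eventuallyEq_one.eventually_nhds.and ?_
    have h1 : ContinuousAt (fun q : R.M => FF g ξ (c q)) p :=
      ContinuousAt.comp (f := fun q : R.M => c q) ((continuousOn_FF hg ξ).continuousAt
        (c.open_target.mem_nhds (R.mem_target p))) (c.continuousAt (R.idx_mem p))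
    exact h1.eventually (gt_mem_nhds ((FF_lower hg (R.mem_target p) v).trans_lt hv))
  obtain ⟨χ, -, hχS⟩ := (SmoothBumpFunction.nhds_basis_tsupport (I := 𝓡 n) p).mem_iff.1 hS1
  have hχs : tsupport χ ⊆ c.source := χ.tsupport_subset_chartAt_source
  obtain ⟨ι, _, φ, ψ, hφ, hψ, hdv⟩ := hD n R.M (support χ) χ.isOpen_support χ.nonempty_support
  have hχ : Sm n R.M χ := χ.contMDiff
  set l := psh η fun z => ∑ b, ξ b * z b with hl
  have hls : Sm n R.M l := sm_psh η (ContDiffOn.sum fun b _ =>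
    contDiffOn_const.mul (contDiff_coord b).contDiffOn)
  set dv : R.M → ℝ := fun q => ∑ k, (mGam n (φ k) (ψ k) q + φ k q * mLap n (ψ k) q) with hdvd
  have hdvc : Continuous dv := DN.Dv.continuous ⟨ι, inferInstance, φ, ψ, hφ, hψ, fun _ => rfl⟩
  -- the choice of `t`
  obtain ⟨t, ht, htK⟩ : ∃ t : ℝ, 0 < t ∧
      ∀ q ∈ tsupport χ, 0 < -(χ q ^ 2 * FF g ξ (c q)) - 2 * t * dv q := by
    have hK : IsCompact (tsupport χ ∩ {q | 0 ≤ dv q}) :=
      χ.hasCompactSupport.isCompact.inter_right (isClosed_le continuous_const hdvc)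
    have hf : ContinuousOn (fun q : R.M => -(χ q ^ 2 * FF g ξ (c q)))
        (tsupport χ ∩ {q | 0 ≤ dv q}) :=
      ((χ.continuous.continuousOn.pow 2).mul ((continuousOn_FF hg ξ).comp
        (c.continuousOn.mono fun q hq => hχs hq.1) fun q hq => c.map_source (hχs hq.1))).neg
    have hpos : ∀ q ∈ tsupport χ ∩ {q | 0 ≤ dv q}, 0 < -(χ q ^ 2 * FF g ξ (c q)) := by
      intro q hq
      have h0 : χ q ≠ 0 := fun h0 => (hdv q (by simpa using h0)).not_ge hq.2
      have := mul_neg_of_pos_of_neg (sq_pos_of_ne_zero h0) (hχS hq.1).2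
      linarith
    obtain ⟨a, ha⟩ := hK.bddAbove_image (hdvc.continuousOn.div hf fun q hq => (hpos q hq).ne')
    refine ⟨1 / (2 * (|a| + 1)), by positivity, fun q hq => ?_⟩
    have h2 : 2 * (1 / (2 * (|a| + 1))) * dv q = dv q / (|a| + 1) := by field_simp
    rw [h2, sub_pos, div_lt_iff₀ (by positivity)]
    rcases le_or_gt 0 (dv q) with h0 | h0
    · have h3 : dv q / -(χ q ^ 2 * FF g ξ (c q)) ≤ a := ha (mem_image_of_mem _ ⟨hq, h0⟩)
      have h4 := hpos q ⟨hq, h0⟩
      rw [div_le_iff₀ h4] at h3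
      nlinarith [le_abs_self a]
    · have := mul_nonpos_of_nonneg_of_nonpos (sq_nonneg (χ q)) (hχS hq).2.le
      nlinarith [abs_nonneg a]
  have hKc : IsCompact (c '' tsupport χ) :=
    χ.hasCompactSupport.isCompact.image_of_continuousOn (c.continuousOn.mono hχs)
  have hKU : c '' tsupport χ ⊆ c.target := by rintro _ ⟨q, hq, rfl⟩; exact c.map_source (hχs hq)
  obtain ⟨H₁, hH₁, hH₁0, -⟩ := cE_pert hP (dat hχ hls (R.idx p))
    (fun k => contDiffOn_ch (hφ k) (R.idx p)) (fun k => contDiffOn_ch (hψ k) (R.idx p)) t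
  set B : EE n → ℝ := fun y => ∑ i, ∑ j, mid g (hh R (fun _ => 1) χ (R.idx p)) 0 y i j *
    ricci g y i j with hBd
  have hBc : ContinuousOn B c.target := (JC.sum fun i => JC.sum fun j =>
    ((dat contMDiff_const hχ (R.idx p)).jc_mid i j).mul (JC.of (continuousOn_ricci hg i j))).zero
  obtain ⟨ν, hνK, hν⟩ := ((((JC.of hH₁.zero).sub ((JC.fst.mul JC.fst).mul
    (JC.of hBc))).eventually_pos c.open_target hKc hKU (by
      rintro _ ⟨q, hq, rfl⟩
      rw [hH₁0, ← mdv_chartR R (hχs hq) φ hψ, mid_hh χ ξ (hχs hq) (hχS hq).1]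
      simpa using htK q hq)).and self_mem_nhdsWithin).exists
  have hν0 : ν ≠ 0 := ne_of_gt hν
  have h₁ := sm_tw1 hχ hls ν
  have h₂ := sm_tw2 hχ hls ν
  have D := dat2 h₁ h₂ (R.idx p)
  set h := h2 R (tw1 χ l ν) (tw2 χ l ν) (R.idx p) with hh0
  obtain ⟨H, hH, hH0, hHs⟩ := cE_pert hP D (fun k => contDiffOn_ch (hφ k) (R.idx p))
    (fun k => contDiffOn_ch (hψ k) (R.idx p)) t
  have hA := hH.eventually_pos c.open_target hKc hKU fun y hy => by
    refine (hνK y hy).trans_eq ?_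
    rw [hH0, hH₁0]
    have : ∑ i, ∑ j, mid g h 0 y i j * ricci g y i j =
        ∑ i, ∑ j, mid g (hh R χ l (R.idx p)) 0 y i j * ricci g y i j + ν * ν * B y := by
      simp only [hBd, mid, gs_zero, hh0, h2_tw hχ hls hν0 _ (hKU hy), Finset.mul_sum,
        Finset.sum_mul, ← Finset.sum_add_distrib]
      exact Finset.sum_congr rfl fun i _ => Finset.sum_congr rfl fun j _ =>
        Finset.sum_congr rfl fun a _ => Finset.sum_congr rfl fun b _ => by ring
    rw [this]; ring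
  obtain ⟨a, ha⟩ := DN.exists_lt_mul (K := (support χ)ᶜ) χ.isOpen_support.isClosed_compl.isCompact
    hdvc.neg (g := fun q => ∑ k, ∑ l, φ k q * φ l q * mGam n (ψ k) (ψ l) q)
    (continuous_finsetSum _ fun k _ => continuous_finsetSum _ fun l _ =>
      ((hφ k).continuous.mul (hφ l).continuous).mul (DN.continuous_mGam (hψ k) (hψ l)))
    fun q hq => neg_pos.2 (hdv q hq)
  have hB : ∀ᶠ s in 𝓝[>] (0 : ℝ), t * s * a < 2 :=
    nhdsWithin_le_nhds (ContinuousAt.eventually_lt (f := fun s : ℝ => t * s * a) (by fun_prop)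
      continuousAt_const (by simp))
  obtain ⟨s, ⟨hsA, hsB⟩, hs⟩ := ((hA.and hB).and self_mem_nhdsWithin).exists
  have hs0 : 0 < s := hs
  set V : Fin n → R.M → ℝ := fun k => psh η
    fun z => (1 / 2) * ∑ l, gs g h s z k l * palV g (gs g h s) z l with hV
  set X : Fin n → R.M → ℝ := fun k => psh η fun z => z k with hX
  have hVs : ∀ k, Sm n R.M (V k) := fun k => sm_psh η (contDiffOn_const.mul (ContDiffOn.sum
    fun l _ => ((D.gs_riem hs0.le).contDiffOn k l).mul (contDiffOn_palV hg (D.gs_riem hs0.le) l)))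
  have hΨ : ∀ k, Sm n R.M (Sum.elim X ψ k) :=
    Sum.forall.2 ⟨fun k => sm_psh η (contDiff_coord k).contDiffOn, hψ⟩
  refine ⟨_, _, h₁, h₂, s, hs0.le, Fin n ⊕ ι, inferInstance, Sum.elim V fun k q => t * s * φ k q,
    Sum.elim X ψ, Sum.forall.2 ⟨hVs, fun k => contMDiff_const.mul (hφ k)⟩, hΨ, fun q => ?_⟩
  by_cases hq : (q : R.M) ∈ tsupport χ
  · have hqs := hχs hq
    refine lt_of_lt_of_eq ?_ (mE_chartR (pertB h₁ h₂ hs0.le) (p := p) hqs _ hΨ).symm
    refine lt_of_lt_of_eq ?_ ((hHs s hs0.le _ (c.map_source hqs)).symm.trans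
      (cE_congr EventuallyEq.rfl (Sum.forall.2 ⟨fun k => (psh_ev _ hqs (hχS hq).1).symm,
        fun k => EventuallyEq.rfl⟩) (Sum.forall.2 ⟨fun k => (psh_ev _ hqs (hχS hq).1).symm,
          fun k => EventuallyEq.rfl⟩)))
    rw [← mScal_chartR R hqs]
    exact add_pos_of_nonneg_of_pos (hS q) (mul_pos hs0 (hsA _ (mem_image_of_mem _ hq)))
  · have hV0 : ∀ k, ∀ q' : R.M, q' ∉ tsupport χ → V k q' = 0 := by
      intro k q' hq'
      by_cases hqs : q' ∈ c.source
      · have h0 : ∀ l, palV g (gs g h s) (R.c (R.idx p) q') l = 0 :=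
          palV_eq_zero (gs_ev2 hχ hls hν0 (R.idx p) hqs hq' s)
        simp [hV, psh, h0]
      · have : η q' = 0 := notMem_support.1 fun h => hqs (η.support_subset_source h)
        simp only [hV, psh, this, zero_smul]
    have hqq := R.idx_mem q
    refine lt_of_lt_of_eq ?_ (mE_chartR (pertB h₁ h₂ hs0.le) (p := q) hqq _ hΨ).symm
    refine lt_of_lt_of_eq ?_ ((mE_chartR R (p := q) hqq
      (Sum.elim (fun _ _ => 0) fun k q => t * s * φ k q) hΨ).trans
      (cE_congr (gs_ev2 hχ hls hν0 (R.idx q) hqq hq s).symm (Sum.forall.2 ⟨fun k => ?_,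
        fun k => EventuallyEq.rfl⟩) fun k => EventuallyEq.rfl))
    · rw [mE_zero_sum ψ hφ]
      have h1 : (q : R.M) ∉ support χ := fun h => hq (subset_tsupport _ h)
      have h2 := ha q h1
      have h3 := hdv q h1
      have h4 := hS q
      have h5 := mul_pos ht hs0
      have h6 := mul_lt_mul_of_pos_left h2 (pow_pos h5 2)
      have h7 := mul_pos (mul_pos h5 (neg_pos.2 h3)) (sub_pos.2 hsB)
      simp only [hdvd, Pi.neg_apply] at h6
      nlinarith
    · filter_upwards [tendsto_symm R _ hqq ((isClosed_tsupport χ).isOpen_compl.mem_nhds hq)]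
        with z hz
      exact (hV0 k _ hz).symm

end Crest.Agent.N222.D
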